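import Vale.Agent.Lib.P322Low.Pointwise

open Finset BigOperators

namespace Vale.Agent.Lib.P322Low

open Vale.Agent.Lib.P322

/-- Upper bound on the binary entropy near zero. -/
lemma Hb_le_small {e : ℝ} (h1 : e < 1) (h0 : 0 < e) :
    Hb e ≤ e * (1 + Real.log (1 / e)) := by
  unfold Hb
  have h2 : 0 < 1 - e := by linarith
  
  have h3 : -(1 - e) * Real.log (1 - e) ≤ e := by
    have h4 : Real.log (1 / (1 - e)) ≤ 1 / (1 - e) - 1 :=
      Real.log_le_sub_one_of_pos (by positivity)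
    rw [one_div, Real.log_inv] at h4
    have h5 : (1 - e) * (-Real.log (1 - e)) ≤ (1 - e) * ((1 - e)⁻¹ - 1) :=
      mul_le_mul_of_nonneg_left h4 h2.le
    have h6 : (1 - e) * ((1 - e)⁻¹ - 1) = e := by
      field_simp
      ring
    nlinarith
  have h7 : Real.log (1 / e) = - Real.log e := by
    rw [one_div, Real.log_inv]
  rw [h7]
  nlinarith

/-- The real-variable core of the low-noise asymptotics. -/
theorem asym_real (η : ℝ) (hη : 0 < η) : ∃ ε₀ : ℝ, 0 < ε₀ ∧ ε₀ ≤ 1 / 4 ∧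
    ∀ (p ε ω : ℝ), 0 ≤ p → p ≤ 1 → 0 < ε → ε < ε₀ →
    0 < ω → 2 * ε * Psi p ω ≤ ω → (4 * p * (1 - p) - η) * Hb ε ≤ ω := by
  set K : ℝ := 1 + 9 * Real.log 2 + |Real.log (2 / η)| with hK
  set Λ₀ : ℝ := 2 / η * K with hΛ₀
  refine ⟨min (1 / 4) (Real.exp (-Λ₀)), lt_min (by norm_num) (Real.exp_pos _), min_le_left _ _, ?_⟩
  intro p ε ω hp0 hp1 he0 heps hw hbound
  have he1 : ε < 1 / 4 := lt_of_lt_of_le heps (min_le_left _ _)
  have he2 : ε < Real.exp (-Λ₀) := lt_of_lt_of_le heps (min_le_right _ _)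
  have hHb0 : 0 < Hb ε := Hb_pos he0 (by linarith)
  -- v
  set v : ℝ := 4 * p * (1 - p) with hv
  have hv0 : 0 ≤ v := by
    have : 0 ≤ p * (1 - p) := mul_nonneg hp0 (by linarith)
    nlinarith
  have hv1 : v ≤ 1 := by nlinarith [sq_nonneg (2 * p - 1)]
  by_contra hcon
  rw [not_le] at hcon
  have hvη : η < v := by
    by_contra hle
    rw [not_lt] at hle
    have : (v - η) * Hb ε ≤ 0 := mul_nonpos_of_nonpos_of_nonneg (by linarith) hHb0.le
    linarith
  -- Λ
  set Λ : ℝ := Real.log (1 / ε) with hΛ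
  have hΛ_gt : Λ₀ < Λ := by
    have h1 : Real.log ε < -Λ₀ := by
      rw [← Real.log_exp (-Λ₀)]
      exact Real.log_lt_log he0 he2
    have h2 : Λ = - Real.log ε := by
      rw [hΛ, one_div, Real.log_inv]
    linarith
  have hK_nonneg : 0 < K := by
    have := Real.log_pos (by norm_num : (1 : ℝ) < 2)
    have := abs_nonneg (Real.log (2 / η))
    rw [hK]
    linarith
  have hΛ₀_pos : 0 < Λ₀ := by
    rw [hΛ₀]
    positivity
  have hΛ_pos : 0 < Λ := lt_trans hΛ₀_pos hΛ_gt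
  have hΛK : K < η / 2 * Λ := by
    have h1 : η / 2 * Λ₀ = K := by
      rw [hΛ₀]
      field_simp
    have h2 : η / 2 * Λ₀ < η / 2 * Λ := mul_lt_mul_of_pos_left hΛ_gt (by positivity)
    linarith
  -- bound on H
  have hH : Hb ε ≤ ε * (1 + Λ) := Hb_le_small (by linarith) he0
  have hw_lt : ω < Hb ε := by
    have h1 : (v - η) * Hb ε ≤ Hb ε := by
      have : v - η ≤ 1 := by linarith
      nlinarith
    linarith
  -- the logarithm in Psi
  have h1Λ : 0 < 1 + Λ := by linarith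
  have hlog : Λ - Real.log 2 - 1 - Real.log (1 + Λ) ≤ Real.log (1 / (2 * Real.exp 1 * ω)) := by
    have h2e : 0 < 2 * Real.exp 1 := by positivity
    have hle : 2 * Real.exp 1 * ω ≤ 2 * Real.exp 1 * (ε * (1 + Λ)) :=
      mul_le_mul_of_nonneg_left (by linarith) h2e.le
    have hlog1 : Real.log (1 / (2 * Real.exp 1 * (ε * (1 + Λ))))
        ≤ Real.log (1 / (2 * Real.exp 1 * ω)) := by
      apply Real.log_le_log
      · positivity
      · apply one_div_le_one_div_of_le
        · positivity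
        · exact hle
    have hlog2 : Real.log (1 / (2 * Real.exp 1 * (ε * (1 + Λ))))
        = Λ - Real.log 2 - 1 - Real.log (1 + Λ) := by
      rw [hΛ] at h1Λ ⊢
      have hne2 : (2 : ℝ) ≠ 0 := by norm_num
      have hnee : Real.exp 1 ≠ 0 := (Real.exp_pos 1).ne'
      have hnee2 : ε ≠ 0 := he0.ne'
      have hne1 : (1 + Real.log (1 / ε)) ≠ 0 := h1Λ.ne'
      rw [one_div (2 * Real.exp 1 * (ε * (1 + Real.log (1 / ε)))), Real.log_inv,
        Real.log_mul (by positivity) (by positivity), Real.log_mul hne2 hnee, Real.log_exp,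
        Real.log_mul hnee2 hne1, one_div ε, Real.log_inv]
      ring
    linarith
  -- Psi lower bound
  have hHbp : Hb p ≤ Real.log 2 := Hb_le_log_two hp0 hp1
  have hPsi : v / 2 * (Λ - Real.log 2 - 1 - Real.log (1 + Λ)) - 4 * Real.log 2 ≤ Psi p ω := by
    unfold Psi
    have e1 : 2 * p * (1 - p) = v / 2 := by
      rw [hv]
      ring
    rw [e1]
    have := mul_le_mul_of_nonneg_left hlog (by positivity : 0 ≤ v / 2)
    linarith
  -- combine
  have hmain : 2 * ε * (v / 2 * (Λ - Real.log 2 - 1 - Real.log (1 + Λ)) - 4 * Real.log 2)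
      < (v - η) * (ε * (1 + Λ)) := by
    have h1 : 2 * ε * (v / 2 * (Λ - Real.log 2 - 1 - Real.log (1 + Λ)) - 4 * Real.log 2)
        ≤ 2 * ε * Psi p ω := mul_le_mul_of_nonneg_left hPsi (by positivity)
    have h2 : (v - η) * Hb ε ≤ (v - η) * (ε * (1 + Λ)) :=
      mul_le_mul_of_nonneg_left hH (by linarith)
    linarith
  have hdiv : 2 * (v / 2 * (Λ - Real.log 2 - 1 - Real.log (1 + Λ)) - 4 * Real.log 2)
      < (v - η) * (1 + Λ) := by
    have e1 : 2 * ε * (v / 2 * (Λ - Real.log 2 - 1 - Real.log (1 + Λ)) - 4 * Real.log 2)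
        = ε * (2 * (v / 2 * (Λ - Real.log 2 - 1 - Real.log (1 + Λ)) - 4 * Real.log 2)) := by
      ring
    have e2 : (v - η) * (ε * (1 + Λ)) = ε * ((v - η) * (1 + Λ)) := by ring
    rw [e1, e2] at hmain
    exact lt_of_mul_lt_mul_left hmain he0.le
  -- log bound for log (1+Λ)
  have hlogΛ : Real.log (1 + Λ) ≤ η / 2 * (1 + Λ) - 1 + Real.log (2 / η) := by
    have h1 : Real.log (η / 2 * (1 + Λ)) ≤ η / 2 * (1 + Λ) - 1 :=
      Real.log_le_sub_one_of_pos (by positivity)
    rw [Real.log_mul (by positivity) h1Λ.ne'] at h1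
    have h2 : Real.log (2 / η) = - Real.log (η / 2) := by
      rw [← Real.log_inv]
      congr 1
      field_simp
    linarith
  have hlogΛ0 : 0 ≤ Real.log (1 + Λ) := Real.log_nonneg (by linarith)
  have hlog2 : 0 < Real.log 2 := Real.log_pos (by norm_num)
  have habs : Real.log (2 / η) ≤ |Real.log (2 / η)| := le_abs_self _
  -- algebra: v L' - 8 ln2 < (v-η)(1+Λ) gives ηΛ + η < 2 v + v ln 2 + v log(1+Λ) + 8 ln 2
  have h3 : η * Λ + η < 2 * v + v * Real.log 2 + v * Real.log (1 + Λ) + 8 * Real.log 2 := by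
    linarith
  have h4 : v * Real.log 2 ≤ 1 * Real.log 2 := mul_le_mul_of_nonneg_right hv1 hlog2.le
  have h5 : v * Real.log (1 + Λ) ≤ 1 * Real.log (1 + Λ) := mul_le_mul_of_nonneg_right hv1 hlogΛ0
  rw [hK] at hΛK
  linarith

end Vale.Agent.Lib.P322Low
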