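import Vale.Agent.Lib.P322Low.Pointwise

open Finset BigOperators

namespace Vale.Agent.Lib.P322Low

open Vale.Agent.Lib.P322

/-- Upper bound for the binary entropy: `Hb e ≤ e (log (1/e) + 1)`. -/
lemma mg_Hb_le {e : ℝ} (h0 : 0 < e) (h1 : e < 1) : Hb e ≤ e * (-Real.log e + 1) := by
  unfold Hb
  have h2 : 0 < 1 - e := by linarith
  have h3 : 1 - 1 / (1 - e) ≤ Real.log (1 - e) := by
    have := Real.one_sub_inv_le_log_of_pos h2
    simpa [one_div] using this
  have h4 : (1 - e) * (1 - 1 / (1 - e)) ≤ (1 - e) * Real.log (1 - e) :=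
    mul_le_mul_of_nonneg_left h3 h2.le
  have h5 : (1 - e) * (1 - 1 / (1 - e)) = - e := by
    field_simp
    ring
  rw [h5] at h4
  nlinarith

/-- Lower bound for the potential. -/
lemma mg_psi_low {p w M : ℝ} (hM : 0 < M) (hp0 : 0 ≤ p) (hp1 : p ≤ 1) (hpM : (p - 1 / 2) ^ 2 ≤ M / 16)
    (hw0 : 0 < w) (hw1 : w ≤ 1) :
    (1 / 2 + M / 8) * Real.log (1 / w) - 5 ≤ Psi p w + (M / 4) * Real.log (1 / w) - 1 := by
  have hlog2 : Real.log 2 < 0.6931471808 := Real.log_two_lt_d9
  have hlog2pos : 0 < Real.log 2 := Real.log_pos (by norm_num)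
  have hL_nonneg : 0 ≤ Real.log (1 / w) := by
    apply Real.log_nonneg
    rw [le_div_iff₀ hw0]
    linarith
  have hq1 : 2 * p * (1 - p) ≤ 1 / 2 := by
    nlinarith [sq_nonneg (p - 1 / 2)]
  have hq2 : 1 / 2 - M / 8 ≤ 2 * p * (1 - p) := by
    nlinarith
  have hHb : Hb p ≤ Real.log 2 := Hb_le_log_two hp0 hp1
  have hlog : Real.log (1 / (2 * Real.exp 1 * w)) = Real.log (1 / w) - Real.log 2 - 1 := by
    rw [one_div, one_div, Real.log_inv, Real.log_inv,
      Real.log_mul (by positivity) hw0.ne', Real.log_mul (by norm_num) (Real.exp_ne_zero 1),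
      Real.log_exp]
    ring
  unfold Psi
  rw [hlog]
  have h1 : (1 / 2 + M / 8) * Real.log (1 / w) ≤ (2 * p * (1 - p) + M / 4) * Real.log (1 / w) :=
    mul_le_mul_of_nonneg_right (by linarith) hL_nonneg
  have h2 : 2 * p * (1 - p) * (Real.log 2 + 1) ≤ (1 / 2) * (Real.log 2 + 1) :=
    mul_le_mul_of_nonneg_right hq1 (by linarith)
  have h3 : 2 * p * (1 - p) * (Real.log (1 / w) - Real.log 2 - 1) - 4 * Hb p
        + (M / 4) * Real.log (1 / w) - 1
      = (2 * p * (1 - p) + M / 4) * Real.log (1 / w) - 2 * p * (1 - p) * (Real.log 2 + 1)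
        - 4 * Hb p - 1 := by ring
  rw [h3]
  linarith

/-- The numerical core: `log (l + 1)` is negligible against `l`. -/
lemma mg_num (M : ℝ) (hM : 0 < M) : ∃ l0 : ℝ, ∀ l : ℝ, l0 < l → 0 < l →
    l + 1 ≤ (1 + M / 4) * (l - Real.log (l + 1)) - 10 := by
  have hKpos : 0 < (8 + 2 * M) / M := by positivity
  have hcpos : 0 < 1 + M / 4 := by positivity
  have hcK : (1 + M / 4) / ((8 + 2 * M) / M) = M / 8 := by
    field_simp
    ring
  refine ⟨(8 / M) * (M / 8 + (1 + M / 4) * Real.log ((8 + 2 * M) / M) + 11), ?_⟩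
  intro l hl0 hl
  have hl1 : 0 < l + 1 := by linarith
  generalize hK : (8 + 2 * M) / M = K at hKpos hcK hl0
  generalize hc : 1 + M / 4 = c at hcpos hcK hl0 ⊢
  have hlogl : c * Real.log (l + 1) ≤ (M / 8) * (l + 1) + c * Real.log K := by
    have h1 : Real.log ((l + 1) / K) ≤ (l + 1) / K - 1 :=
      Real.log_le_sub_one_of_pos (by positivity)
    have h2 : Real.log ((l + 1) / K) = Real.log (l + 1) - Real.log K :=
      Real.log_div hl1.ne' hKpos.ne'
    have h3 : Real.log (l + 1) ≤ (l + 1) / K + Real.log K := by linarith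
    have h4 : c * Real.log (l + 1) ≤ c * ((l + 1) / K + Real.log K) :=
      mul_le_mul_of_nonneg_left h3 hcpos.le
    have h5 : c * ((l + 1) / K) = (M / 8) * (l + 1) := by
      rw [← hcK]
      field_simp
    have h6 : c * ((l + 1) / K + Real.log K) = c * ((l + 1) / K) + c * Real.log K := by ring
    linarith
  have h1 : (M / 8) * ((8 / M) * (M / 8 + c * Real.log K + 11)) = M / 8 + c * Real.log K + 11 := by
    field_simp
  have h2 : (M / 8) * ((8 / M) * (M / 8 + c * Real.log K + 11)) ≤ (M / 8) * l :=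
    mul_le_mul_of_nonneg_left hl0.le (by positivity)
  have h3 : c * (l - Real.log (l + 1)) = l + (M / 4) * l - c * Real.log (l + 1) := by
    rw [← hc]
    ring
  rw [h3]
  have h4 : (M / 4) * l = (M / 8) * l + (M / 8) * l := by ring
  have h5 : (M / 8) * (l + 1) = (M / 8) * l + M / 8 := by ring
  linarith

/-- The real-variable core of the margin argument. -/
theorem mg_real (M : ℝ) (hM : 0 < M) : ∃ e0 : ℝ, 0 < e0 ∧ e0 ≤ 1 / 4 ∧
    ∀ p w e : ℝ, 0 ≤ p → p ≤ 1 → (p - 1 / 2) ^ 2 ≤ M / 16 → 0 < e → e < e0 → 0 < w → w ≤ 1 →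
      2 * e * (Psi p w + (M / 4) * Real.log (1 / w) - 1) ≤ w → Hb e ≤ w := by
  obtain ⟨l0, hnum⟩ := mg_num M hM
  refine ⟨min (1 / 4) (Real.exp (-l0)), lt_min (by norm_num) (Real.exp_pos _), min_le_left _ _, ?_⟩
  intro p w e hp0 hp1 hpM he0 he hw0 hw1 hyp
  have he1 : e < 1 / 4 := lt_of_lt_of_le he (min_le_left _ _)
  have he2 : e < Real.exp (-l0) := lt_of_lt_of_le he (min_le_right _ _)
  by_contra hcon
  have hwh : w < Hb e := lt_of_not_ge hcon
  have hhpos : 0 < Hb e := Hb_pos he0 (by linarith)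
  have hll0 : l0 < - Real.log e := by
    have := (Real.log_lt_log he0 he2)
    rw [Real.log_exp] at this
    linarith
  have hl_pos : 0 < - Real.log e := by
    have : Real.log e < 0 := Real.log_neg he0 (by linarith)
    linarith
  have hh_le : Hb e ≤ e * (- Real.log e + 1) := mg_Hb_le he0 (by linarith)
  have hmain := hnum (- Real.log e) hll0 hl_pos
  have hlow := mg_psi_low (p := p) (w := w) hM hp0 hp1 hpM hw0 hw1
  generalize hl : - Real.log e = l at hh_le hmain hl_pos
  have hl1 : 0 < l + 1 := by linarith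
  have hLl : l - Real.log (l + 1) ≤ Real.log (1 / w) := by
    have h1 : w ≤ e * (l + 1) := by linarith
    have h2 : 1 / (e * (l + 1)) ≤ 1 / w := one_div_le_one_div_of_le hw0 h1
    have h3 : Real.log (1 / (e * (l + 1))) ≤ Real.log (1 / w) :=
      Real.log_le_log (by positivity) h2
    have h4 : Real.log (1 / (e * (l + 1))) = l - Real.log (l + 1) := by
      rw [one_div, Real.log_inv, Real.log_mul he0.ne' hl1.ne', ← hl]
      ring
    linarith
  have h1 : (1 / 2 + M / 8) * (l - Real.log (l + 1)) ≤ (1 / 2 + M / 8) * Real.log (1 / w) :=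
    mul_le_mul_of_nonneg_left hLl (by positivity)
  have h2 : (1 + M / 4) * (l - Real.log (l + 1)) = 2 * ((1 / 2 + M / 8) * (l - Real.log (l + 1))) := by
    ring
  have h3 : l + 1 ≤ 2 * (Psi p w + (M / 4) * Real.log (1 / w) - 1) := by linarith
  have h4 : e * (l + 1) ≤ e * (2 * (Psi p w + (M / 4) * Real.log (1 / w) - 1)) :=
    mul_le_mul_of_nonneg_left h3 he0.le
  have h5 : e * (2 * (Psi p w + (M / 4) * Real.log (1 / w) - 1))
      = 2 * e * (Psi p w + (M / 4) * Real.log (1 / w) - 1) := by ring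
  linarith

end Vale.Agent.Lib.P322Low
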