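import Vale.Agent.Lib.P322Low.FlowGen
import Vale.Agent.Lib.P322Low.MarginReal

open Finset BigOperators

namespace Vale.Agent.Lib.P322Low

open Vale.Agent.Lib.P322

variable {m l n : ℕ}

/-- Glue two assignments along a splitting `e` of the coordinates. -/
def blGlue (e : Fin m ⊕ Fin l ≃ Fin n) (u : Fin m → Bool) (v : Fin l → Bool) : Fin n → Bool :=
  fun i => Sum.elim u v (e.symm i)

lemma bl_glue_inl (e : Fin m ⊕ Fin l ≃ Fin n) (u : Fin m → Bool) (v : Fin l → Bool) (a : Fin m) :
    blGlue e u v (e (Sum.inl a)) = u a := by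
  simp [blGlue]

lemma bl_glue_inr (e : Fin m ⊕ Fin l ≃ Fin n) (u : Fin m → Bool) (v : Fin l → Bool) (b : Fin l) :
    blGlue e u v (e (Sum.inr b)) = v b := by
  simp [blGlue]

/-- Gluing is a bijection of cubes. -/
def blEquiv (e : Fin m ⊕ Fin l ≃ Fin n) : (Fin m → Bool) × (Fin l → Bool) ≃ (Fin n → Bool) where
  toFun p := blGlue e p.1 p.2
  invFun x := (fun a => x (e (Sum.inl a)), fun b => x (e (Sum.inr b)))
  left_inv p := by
    ext a
    · simp [bl_glue_inl]
    · simp [bl_glue_inr]
  right_inv x := by
    funext i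
    obtain ⟨s, rfl⟩ := e.surjective i
    rcases s with a | b
    · simp [bl_glue_inl]
    · simp [bl_glue_inr]

lemma bl_sum (e : Fin m ⊕ Fin l ≃ Fin n) (h : (Fin n → Bool) → ℝ) :
    ∑ x, h x = ∑ u : Fin m → Bool, ∑ v : Fin l → Bool, h (blGlue e u v) := by
  rw [← Fintype.sum_prod_type']
  exact (Equiv.sum_comp (blEquiv e) h).symm

lemma bl_pow (e : Fin m ⊕ Fin l ≃ Fin n) : (2 : ℝ) ^ n = 2 ^ m * 2 ^ l := by
  have hn : n = m + l := by
    have := Fintype.card_congr e
    simpa using this.symm
  rw [hn, pow_add]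

lemma bl_avg (e : Fin m ⊕ Fin l ≃ Fin n) (h : (Fin n → Bool) → ℝ) :
    avg h = avg (fun u : Fin m → Bool => avg (fun v : Fin l → Bool => h (blGlue e u v))) := by
  unfold avg
  rw [bl_sum e h, bl_pow e, ← Finset.sum_div, div_div, mul_comm ((2 : ℝ) ^ m)]

lemma bl_avg' (e : Fin m ⊕ Fin l ≃ Fin n) (h : (Fin n → Bool) → ℝ) :
    avg h = avg (fun v : Fin l → Bool => avg (fun u : Fin m → Bool => h (blGlue e u v))) := by
  unfold avg
  rw [bl_sum e h, sum_comm, bl_pow e, ← Finset.sum_div, div_div]

lemma bl_flip_inl (e : Fin m ⊕ Fin l ≃ Fin n) (u : Fin m → Bool) (v : Fin l → Bool) (a : Fin m) :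
    flip (blGlue e u v) (e (Sum.inl a)) = blGlue e (flip u a) v := by
  funext i
  obtain ⟨s, rfl⟩ := e.surjective i
  rcases s with b | b
  · by_cases hb : b = a
    · subst hb
      simp [flip, blGlue]
    · have h1 : e (Sum.inl b) ≠ e (Sum.inl a) := fun h => hb (Sum.inl.inj (e.injective h))
      simp [flip, blGlue, Function.update_of_ne hb, Function.update_of_ne h1]
  · have h1 : e (Sum.inr b) ≠ e (Sum.inl a) := fun h => by simpa using e.injective h
    simp [flip, blGlue]

lemma bl_flip_inr (e : Fin m ⊕ Fin l ≃ Fin n) (u : Fin m → Bool) (v : Fin l → Bool) (a : Fin l) :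
    flip (blGlue e u v) (e (Sum.inr a)) = blGlue e u (flip v a) := by
  funext i
  obtain ⟨s, rfl⟩ := e.surjective i
  rcases s with b | b
  · have h1 : e (Sum.inl b) ≠ e (Sum.inr a) := fun h => by simpa using e.injective h
    simp [flip, blGlue]
  · by_cases hb : b = a
    · subst hb
      simp [flip, blGlue]
    · have h1 : e (Sum.inr b) ≠ e (Sum.inr a) := fun h => hb (Sum.inr.inj (e.injective h))
      simp [flip, blGlue, Function.update_of_ne hb, Function.update_of_ne h1]

/-- Energy splits along the two blocks. -/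
lemma bl_En (e : Fin m ⊕ Fin l ≃ Fin n) (g : (Fin n → Bool) → ℝ) :
    En g = avg (fun v : Fin l → Bool => En (fun u : Fin m → Bool => g (blGlue e u v)))
      + avg (fun u : Fin m → Bool => En (fun v : Fin l → Bool => g (blGlue e u v))) := by
  unfold En
  rw [← Equiv.sum_comp e, Fintype.sum_sum_type, avg_sum, avg_sum]
  congr 1
  · refine sum_congr rfl fun a _ => ?_
    rw [bl_avg' e]
    simp only [bl_flip_inl]
  · refine sum_congr rfl fun a _ => ?_
    rw [bl_avg e]
    simp only [bl_flip_inr]

/-- The Bellman bound on both blocks. -/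
lemma bl_fi (e : Fin m ⊕ Fin l ≃ Fin n) (g : (Fin n → Bool) → ℝ) (hg : ∀ y, 0 < g y ∧ g y < 1) :
    avg (fun v : Fin l → Bool => Psi (avg (fun u : Fin m → Bool => g (blGlue e u v)))
        (avg (fun u : Fin m → Bool => Hb (g (blGlue e u v)))))
      + avg (fun u : Fin m → Bool => Psi (avg (fun v : Fin l → Bool => g (blGlue e u v)))
        (avg (fun v : Fin l → Bool => Hb (g (blGlue e u v))))) ≤ En g := by
  rw [bl_En e g]
  apply add_le_add
  · exact avg_mono' fun v => fi (fun u => g (blGlue e u v)) fun u => hg _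
  · exact avg_mono' fun u => fi (fun v => g (blGlue e u v)) fun v => hg _

lemma bl_psi {P W w : ℝ} (hP0 : 0 ≤ P) (hP1 : P ≤ 1) (hW : 0 < W) (hw : 0 < w) :
    2 * P * (1 - P) * Real.log (1 / w) - 9 / 2 * Real.log 2 - 1 / 2 * (W / w) ≤ Psi P W := by
  unfold Psi
  have hl : Real.log (1 / w) - Real.log 2 - W / w ≤ Real.log (1 / (2 * Real.exp 1 * W)) := by
    have h1 : Real.log (W / w) ≤ W / w - 1 := Real.log_le_sub_one_of_pos (div_pos hW hw)
    have h2 : Real.log (W / w) = Real.log W - Real.log w := Real.log_div hW.ne' hw.ne'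
    have h3 : Real.log (1 / w) = - Real.log w := by
      rw [one_div, Real.log_inv]
    have h4 : Real.log (1 / (2 * Real.exp 1 * W)) = -(Real.log 2 + 1 + Real.log W) := by
      rw [one_div, Real.log_inv, Real.log_mul (by positivity) hW.ne',
        Real.log_mul (by norm_num) (Real.exp_pos 1).ne', Real.log_exp]
    rw [h3, h4]
    linarith
  have ha0 : 0 ≤ 2 * P * (1 - P) := by
    have : 0 ≤ 1 - P := by linarith
    positivity
  have ha1 : 2 * P * (1 - P) ≤ 1 / 2 := by nlinarith [sq_nonneg (P - 1 / 2)]
  have hr : 0 ≤ W / w := (div_pos hW hw).le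
  have hlog2 : 0 < Real.log 2 := Real.log_pos (by norm_num)
  have hHb : Hb P ≤ Real.log 2 := Hb_le_log_two hP0 hP1
  have h5 := mul_le_mul_of_nonneg_left hl ha0
  nlinarith

/-- Static bound: coefficient `A + B` of `log (1 / omega)`. -/
lemma bl_en2 (e : Fin m ⊕ Fin l ≃ Fin n) (g : (Fin n → Bool) → ℝ) (hg : ∀ y, 0 < g y ∧ g y < 1) :
    (avg (fun u : Fin m → Bool => 2 * avg (fun v : Fin l → Bool => g (blGlue e u v))
          * (1 - avg (fun v : Fin l → Bool => g (blGlue e u v))))
      + avg (fun v : Fin l → Bool => 2 * avg (fun u : Fin m → Bool => g (blGlue e u v))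
          * (1 - avg (fun u : Fin m → Bool => g (blGlue e u v)))))
        * Real.log (1 / avg (fun y => Hb (g y))) - 8 ≤ En g := by
  set w : ℝ := avg (fun y => Hb (g y)) with hw
  have hHbpos : ∀ y, 0 < Hb (g y) := fun y => Hb_pos (hg y).1 (hg y).2
  have hw0 : 0 < w := avg_pos' hHbpos
  have hlog2 : Real.log 2 < 0.6932 := by
    have := Real.log_two_lt_d9
    linarith
  have hU : avg (fun u : Fin m → Bool => 2 * avg (fun v : Fin l → Bool => g (blGlue e u v))
          * (1 - avg (fun v : Fin l → Bool => g (blGlue e u v)))) * Real.log (1 / w)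
        - 9 / 2 * Real.log 2 - 1 / 2
      ≤ avg (fun u : Fin m → Bool => Psi (avg (fun v : Fin l → Bool => g (blGlue e u v)))
        (avg (fun v : Fin l → Bool => Hb (g (blGlue e u v))))) := by
    have h1 : avg (fun u : Fin m → Bool =>
          2 * avg (fun v : Fin l → Bool => g (blGlue e u v))
            * (1 - avg (fun v : Fin l → Bool => g (blGlue e u v))) * Real.log (1 / w)
          + (-(9 / 2 * Real.log 2))
          + (-(1 / 2 / w)) * avg (fun v : Fin l → Bool => Hb (g (blGlue e u v))))
        ≤ avg (fun u : Fin m → Bool => Psi (avg (fun v : Fin l → Bool => g (blGlue e u v)))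
        (avg (fun v : Fin l → Bool => Hb (g (blGlue e u v))))) := by
      refine avg_mono' fun u => ?_
      have h0 := bl_psi (P := avg (fun v : Fin l → Bool => g (blGlue e u v)))
        (W := avg (fun v : Fin l → Bool => Hb (g (blGlue e u v)))) (w := w)
        (avg_nonneg fun v => (hg _).1.le)
        (by
          have := avg_lt_one (g := fun v : Fin l → Bool => g (blGlue e u v)) fun v => (hg _).2
          exact this.le)
        (avg_pos' fun v => hHbpos _) hw0
      have e1 : 1 / 2 * (avg (fun v : Fin l → Bool => Hb (g (blGlue e u v))) / w)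
          = (1 / 2 / w) * avg (fun v : Fin l → Bool => Hb (g (blGlue e u v))) := by ring
      rw [e1] at h0
      linarith
    have h2 : avg (fun u : Fin m → Bool =>
          2 * avg (fun v : Fin l → Bool => g (blGlue e u v))
            * (1 - avg (fun v : Fin l → Bool => g (blGlue e u v))) * Real.log (1 / w)
          + (-(9 / 2 * Real.log 2))
          + (-(1 / 2 / w)) * avg (fun v : Fin l → Bool => Hb (g (blGlue e u v))))
        = avg (fun u : Fin m → Bool => 2 * avg (fun v : Fin l → Bool => g (blGlue e u v))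
          * (1 - avg (fun v : Fin l → Bool => g (blGlue e u v)))) * Real.log (1 / w)
          + (-(9 / 2 * Real.log 2)) + (-(1 / 2 / w)) * w := by
      rw [avg_add, avg_add, avg_const', avg_const_mul]
      have e2 : avg (fun u : Fin m → Bool => avg (fun v : Fin l → Bool => Hb (g (blGlue e u v)))) = w := by
        rw [hw, bl_avg e]
      rw [e2]
      congr 2
      unfold avg
      rw [sum_div, sum_div, sum_mul]
      refine sum_congr rfl fun u _ => ?_
      ring
    rw [h2] at h1
    have h3 : (-(1 / 2 / w)) * w = -(1 / 2) := by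
      field_simp
    rw [h3] at h1
    linarith
  have hV : avg (fun v : Fin l → Bool => 2 * avg (fun u : Fin m → Bool => g (blGlue e u v))
          * (1 - avg (fun u : Fin m → Bool => g (blGlue e u v)))) * Real.log (1 / w)
        - 9 / 2 * Real.log 2 - 1 / 2
      ≤ avg (fun v : Fin l → Bool => Psi (avg (fun u : Fin m → Bool => g (blGlue e u v)))
        (avg (fun u : Fin m → Bool => Hb (g (blGlue e u v))))) := by
    have h1 : avg (fun v : Fin l → Bool =>
          2 * avg (fun u : Fin m → Bool => g (blGlue e u v))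
            * (1 - avg (fun u : Fin m → Bool => g (blGlue e u v))) * Real.log (1 / w)
          + (-(9 / 2 * Real.log 2))
          + (-(1 / 2 / w)) * avg (fun u : Fin m → Bool => Hb (g (blGlue e u v))))
        ≤ avg (fun v : Fin l → Bool => Psi (avg (fun u : Fin m → Bool => g (blGlue e u v)))
        (avg (fun u : Fin m → Bool => Hb (g (blGlue e u v))))) := by
      refine avg_mono' fun v => ?_
      have h0 := bl_psi (P := avg (fun u : Fin m → Bool => g (blGlue e u v)))
        (W := avg (fun u : Fin m → Bool => Hb (g (blGlue e u v)))) (w := w)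
        (avg_nonneg fun u => (hg _).1.le)
        (by
          have := avg_lt_one (g := fun u : Fin m → Bool => g (blGlue e u v)) fun u => (hg _).2
          exact this.le)
        (avg_pos' fun u => hHbpos _) hw0
      have e1 : 1 / 2 * (avg (fun u : Fin m → Bool => Hb (g (blGlue e u v))) / w)
          = (1 / 2 / w) * avg (fun u : Fin m → Bool => Hb (g (blGlue e u v))) := by ring
      rw [e1] at h0
      linarith
    have h2 : avg (fun v : Fin l → Bool =>
          2 * avg (fun u : Fin m → Bool => g (blGlue e u v))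
            * (1 - avg (fun u : Fin m → Bool => g (blGlue e u v))) * Real.log (1 / w)
          + (-(9 / 2 * Real.log 2))
          + (-(1 / 2 / w)) * avg (fun u : Fin m → Bool => Hb (g (blGlue e u v))))
        = avg (fun v : Fin l → Bool => 2 * avg (fun u : Fin m → Bool => g (blGlue e u v))
          * (1 - avg (fun u : Fin m → Bool => g (blGlue e u v)))) * Real.log (1 / w)
          + (-(9 / 2 * Real.log 2)) + (-(1 / 2 / w)) * w := by
      rw [avg_add, avg_add, avg_const', avg_const_mul]
      have e2 : avg (fun v : Fin l → Bool => avg (fun u : Fin m → Bool => Hb (g (blGlue e u v)))) = w := by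
        rw [hw, bl_avg' e]
      rw [e2]
      congr 2
      unfold avg
      rw [sum_div, sum_div, sum_mul]
      refine sum_congr rfl fun u _ => ?_
      ring
    rw [h2] at h1
    have h3 : (-(1 / 2 / w)) * w = -(1 / 2) := by
      field_simp
    rw [h3] at h1
    linarith
  have hfi := bl_fi e g hg
  rw [add_mul]
  linarith

end Vale.Agent.Lib.P322Low
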