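import Vale.Agent.Lib.P322Low.Block

open Finset BigOperators

namespace Vale.Agent.Lib.P322Low

open Vale.Agent.Lib.P322

variable {m l n : ℕ}

lemma bl_noise_glue (e : Fin m ⊕ Fin l ≃ Fin n) (s : ℝ) (h : (Fin n → Bool) → ℝ)
    (u : Fin m → Bool) (v : Fin l → Bool) :
    noise s h (blGlue e u v) = ∑ u' : Fin m → Bool, ∑ v' : Fin l → Bool,
      (∏ a, bsc s (u' a) (u a)) * (∏ b, bsc s (v' b) (v b)) * h (blGlue e u' v') := by
  unfold noise
  rw [bl_sum e]
  refine sum_congr rfl fun u' _ => sum_congr rfl fun v' _ => ?_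
  have hprod : ∏ i, bsc s (blGlue e u' v' i) (blGlue e u v i)
      = (∏ a, bsc s (u' a) (u a)) * (∏ b, bsc s (v' b) (v b)) := by
    rw [← Equiv.prod_comp e, Fintype.prod_sum_type]
    simp [bl_glue_inl, bl_glue_inr]
  rw [hprod]

/-- Averaging out the second block commutes with the noise. -/
lemma bl_avg_noise_right (e : Fin m ⊕ Fin l ≃ Fin n) (s : ℝ) (h : (Fin n → Bool) → ℝ)
    (u : Fin m → Bool) :
    avg (fun v : Fin l → Bool => noise s h (blGlue e u v))
      = noise s (fun u' : Fin m → Bool => avg (fun v' : Fin l → Bool => h (blGlue e u' v'))) u := by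
  simp only [bl_noise_glue]
  unfold avg noise
  rw [sum_comm, sum_div]
  refine sum_congr rfl fun u' _ => ?_
  have key : ∑ v : Fin l → Bool, ∑ v' : Fin l → Bool,
        (∏ a, bsc s (u' a) (u a)) * (∏ b, bsc s (v' b) (v b)) * h (blGlue e u' v')
      = (∏ a, bsc s (u' a) (u a)) * ∑ v' : Fin l → Bool, h (blGlue e u' v') := by
    rw [sum_comm, mul_sum]
    refine sum_congr rfl fun v' _ => ?_
    rw [← sum_mul, ← mul_sum, sum_kernel_y, mul_one]
  rw [key, mul_div_assoc]

/-- Averaging out the first block commutes with the noise. -/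
lemma bl_avg_noise_left (e : Fin m ⊕ Fin l ≃ Fin n) (s : ℝ) (h : (Fin n → Bool) → ℝ)
    (v : Fin l → Bool) :
    avg (fun u : Fin m → Bool => noise s h (blGlue e u v))
      = noise s (fun v' : Fin l → Bool => avg (fun u' : Fin m → Bool => h (blGlue e u' v'))) v := by
  simp only [bl_noise_glue]
  unfold avg noise
  have hswap : ∀ u : Fin m → Bool, ∑ u' : Fin m → Bool, ∑ v' : Fin l → Bool,
        (∏ a, bsc s (u' a) (u a)) * (∏ b, bsc s (v' b) (v b)) * h (blGlue e u' v')
      = ∑ v' : Fin l → Bool, ∑ u' : Fin m → Bool,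
        (∏ a, bsc s (u' a) (u a)) * (∏ b, bsc s (v' b) (v b)) * h (blGlue e u' v') :=
    fun u => sum_comm
  simp only [hswap]
  rw [sum_comm, sum_div]
  refine sum_congr rfl fun v' _ => ?_
  have key : ∑ u : Fin m → Bool, ∑ u' : Fin m → Bool,
        (∏ a, bsc s (u' a) (u a)) * (∏ b, bsc s (v' b) (v b)) * h (blGlue e u' v')
      = (∏ b, bsc s (v' b) (v b)) * ∑ u' : Fin m → Bool, h (blGlue e u' v') := by
    rw [sum_comm, mul_sum]
    refine sum_congr rfl fun u' _ => ?_
    have : ∀ u : Fin m → Bool, (∏ a, bsc s (u' a) (u a)) * (∏ b, bsc s (v' b) (v b))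
        * h (blGlue e u' v') = (∏ a, bsc s (u' a) (u a))
          * ((∏ b, bsc s (v' b) (v b)) * h (blGlue e u' v')) := fun u => by ring
    simp only [this]
    rw [← sum_mul, sum_kernel_y, one_mul]
  rw [key, mul_div_assoc]

/-- The noise contracts the `L²` norm. -/
lemma bl_sq_contract {k : ℕ} (P : (Fin k → Bool) → ℝ) {s : ℝ} (h0 : 0 ≤ s) (h1 : s ≤ 1 / 2) :
    avg (fun u => (noise s P u) ^ 2) ≤ avg (fun u => (P u) ^ 2) := by
  rw [← avg_noise s (fun u => (P u) ^ 2)]
  refine avg_mono' fun u => ?_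
  set M : ℝ := noise s P u with hM
  have hK : ∀ x : Fin k → Bool, 0 ≤ ∏ i, bsc s (x i) (u i) := fun x => kernel_nonneg h0 h1 x u
  have key : 0 ≤ ∑ x : Fin k → Bool, (∏ i, bsc s (x i) (u i)) * (P x - M) ^ 2 :=
    sum_nonneg fun x _ => mul_nonneg (hK x) (sq_nonneg _)
  have e1 : ∀ x : Fin k → Bool, (∏ i, bsc s (x i) (u i)) * (P x - M) ^ 2
      = (∏ i, bsc s (x i) (u i)) * (P x) ^ 2 - 2 * M * ((∏ i, bsc s (x i) (u i)) * P x)
        + M ^ 2 * (∏ i, bsc s (x i) (u i)) := fun x => by ring
  simp only [e1] at key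
  rw [sum_add_distrib, sum_sub_distrib, ← mul_sum, ← mul_sum, sum_kernel_x] at key
  have e2 : ∑ x : Fin k → Bool, (∏ i, bsc s (x i) (u i)) * P x = M := rfl
  have e3 : ∑ x : Fin k → Bool, (∏ i, bsc s (x i) (u i)) * (P x) ^ 2
      = noise s (fun u => (P u) ^ 2) u := rfl
  rw [e2, e3] at key
  nlinarith

/-- The variance term only grows along the noise. -/
lemma bl_var_mono {k : ℕ} (P : (Fin k → Bool) → ℝ) {s : ℝ} (h0 : 0 ≤ s) (h1 : s ≤ 1 / 2) :
    avg (fun u => 2 * P u * (1 - P u)) ≤ avg (fun u => 2 * noise s P u * (1 - noise s P u)) := by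
  have e : ∀ Q : (Fin k → Bool) → ℝ, avg (fun u => 2 * Q u * (1 - Q u))
      = 2 * avg Q + (-2) * avg (fun u => (Q u) ^ 2) := by
    intro Q
    rw [← avg_const_mul, ← avg_const_mul, ← avg_add]
    congr 1
    funext u
    ring
  rw [e P, e (noise s P), avg_noise]
  have := bl_sq_contract P h0 h1
  linarith

/-- The crossing Fourier weight of `f` for the splitting `e` of the coordinates: this equals
the sum of `Fhat f T ^ 2` over the `T` that meet both blocks. -/
noncomputable def blCross (e : Fin m ⊕ Fin l ≃ Fin n) (f : (Fin n → Bool) → Bool) : ℝ :=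
  avg (fun u : Fin m → Bool => avg (fun v : Fin l → Bool => ind f true (blGlue e u v))
      * (1 - avg (fun v : Fin l → Bool => ind f true (blGlue e u v))))
    + avg (fun v : Fin l → Bool => avg (fun u : Fin m → Bool => ind f true (blGlue e u v))
      * (1 - avg (fun u : Fin m → Bool => ind f true (blGlue e u v))))
    - pOne f * (1 - pOne f)

/-- The static bound along the noise flow. -/
lemma bl_en_flow (e : Fin m ⊕ Fin l ≃ Fin n) (f : (Fin n → Bool) → Bool) {s : ℝ} (h0 : 0 < s)
    (h1 : s < 1 / 2) (ht : ∃ x, f x = true) (hf : ∃ x, f x = false) :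
    (2 * pOne f * (1 - pOne f) + 2 * blCross e f) * Real.log (1 / omega f s) - 8
      ≤ En (noise s (ind f true)) := by
  have hg : ∀ y, 0 < noise s (ind f true) y ∧ noise s (ind f true) y < 1 := fun y =>
    ⟨noise_ind_pos f h0 h1 true ht y, noise_ind_lt_one f h0 h1 hf y⟩
  have h2 := bl_en2 e (noise s (ind f true)) hg
  have hA := bl_var_mono (fun u : Fin m → Bool => avg (fun v : Fin l → Bool =>
    ind f true (blGlue e u v))) h0.le h1.le
  have hB := bl_var_mono (fun v : Fin l → Bool => avg (fun u : Fin m → Bool =>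
    ind f true (blGlue e u v))) h0.le h1.le
  simp only [← bl_avg_noise_right, ← bl_avg_noise_left] at hA hB
  have hpos : 0 < omega f s := omega_pos f h0 h1 ht hf
  have hle : omega f s ≤ 1 := mg_omega_le f h0.le h1.le
  have hlog : 0 ≤ Real.log (1 / omega f s) := by
    apply Real.log_nonneg
    rw [le_div_iff₀ hpos]
    linarith
  have hom : avg (fun y => Hb (noise s (ind f true) y)) = omega f s := rfl
  rw [hom] at h2
  have hcross : 2 * pOne f * (1 - pOne f) + 2 * blCross e f
      = avg (fun u : Fin m → Bool => 2 * avg (fun v : Fin l → Bool => ind f true (blGlue e u v))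
          * (1 - avg (fun v : Fin l → Bool => ind f true (blGlue e u v))))
        + avg (fun v : Fin l → Bool => 2 * avg (fun u : Fin m → Bool => ind f true (blGlue e u v))
          * (1 - avg (fun u : Fin m → Bool => ind f true (blGlue e u v)))) := by
    unfold blCross
    have e1 : ∀ Q : (Fin m → Bool) → ℝ, avg (fun u => 2 * Q u * (1 - Q u))
        = 2 * avg (fun u => Q u * (1 - Q u)) := by
      intro Q
      rw [← avg_const_mul]
      congr 1
      funext u
      ring
    have e2 : ∀ Q : (Fin l → Bool) → ℝ, avg (fun u => 2 * Q u * (1 - Q u))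
        = 2 * avg (fun u => Q u * (1 - Q u)) := by
      intro Q
      rw [← avg_const_mul]
      congr 1
      funext u
      ring
    rw [e1, e2]
    ring
  rw [hcross]
  have h3 := mul_le_mul_of_nonneg_right (add_le_add hA hB) hlog
  linarith

lemma blCross_const (e : Fin m ⊕ Fin l ≃ Fin n) (f : (Fin n → Bool) → Bool) (c : ℝ)
    (hc : c * (1 - c) = 0) (h : ∀ x, ind f true x = c) : blCross e f = 0 := by
  unfold blCross
  rw [← avg_ind_true]
  have e1 : ind f true = fun _ => c := funext h
  rw [e1]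
  simp only [avg_const']
  rw [hc]
  ring

end Vale.Agent.Lib.P322Low
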