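import Vale.Agent.Lib.P322Low.Block2

open Finset BigOperators

namespace Vale.Agent.Lib.P322Low

open Vale.Agent.Lib.P322

/-- Coordinates from `x` on `S`, from `x'` elsewhere. -/
def chMix {n : ℕ} (S : Finset (Fin n)) (x x' : Fin n → Bool) : Fin n → Bool :=
  fun j => if j ∈ S then x j else x' j

/-- Variance of the conditional expectation on `S`. -/
noncomputable def chV {n : ℕ} (f : (Fin n → Bool) → Bool) (S : Finset (Fin n)) : ℝ :=
  avg (fun x => avg (fun x' => ind f true x * ind f true (chMix S x x'))) - pOne f ^ 2

lemma ch_mix_invol {n : ℕ} (S : Finset (Fin n)) (x x' : Fin n → Bool) :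
    chMix S (chMix S x x') (chMix S x' x) = x := by
  funext j
  unfold chMix
  by_cases h : j ∈ S <;> simp [h]

/-- Mixing preserves the uniform law. -/
lemma ch_avg_mix {n : ℕ} (S : Finset (Fin n)) (G : (Fin n → Bool) → ℝ) :
    avg (fun x => avg (fun x' => G (chMix S x x'))) = avg G := by
  have hs : ∑ x : Fin n → Bool, ∑ x' : Fin n → Bool, G (chMix S x x')
      = ∑ z : Fin n → Bool, ∑ _z' : Fin n → Bool, G z := by
    rw [← Fintype.sum_prod_type', ← Fintype.sum_prod_type']
    exact Equiv.sum_comp
      (⟨fun p => (chMix S p.1 p.2, chMix S p.2 p.1), fun p => (chMix S p.1 p.2, chMix S p.2 p.1),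
        fun p => by
          ext j <;> simp [chMix] <;> by_cases h : j ∈ S <;> simp [h],
        fun p => by
          ext j <;> simp [chMix] <;> by_cases h : j ∈ S <;> simp [h]⟩ :
        ((Fin n → Bool) × (Fin n → Bool)) ≃ ((Fin n → Bool) × (Fin n → Bool)))
      (fun p => G p.1)
  unfold avg
  rw [← Finset.sum_div, hs]
  simp only [Finset.sum_const, Finset.card_univ, Fintype.card_pi, Fintype.card_bool, Finset.prod_const,
    Fintype.card_fin, nsmul_eq_mul]
  rw [← Finset.mul_sum]
  have h2 : (2 : ℝ) ^ n ≠ 0 := by positivity
  push_cast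
  field_simp

lemma ch_V_empty {n : ℕ} (f : (Fin n → Bool) → Bool) : chV f ∅ = 0 := by
  unfold chV
  have hm : ∀ x x' : Fin n → Bool, chMix (∅ : Finset (Fin n)) x x' = x' := by
    intro x x'
    funext j
    simp [chMix]
  simp only [hm]
  have h1 : ∀ x : Fin n → Bool, avg (fun x' => ind f true x * ind f true x')
      = ind f true x * pOne f := by
    intro x
    rw [avg_const_mul, avg_ind_true]
  simp only [h1]
  have h2 : avg (fun x => ind f true x * pOne f) = pOne f * pOne f := by
    have : (fun x => ind f true x * pOne f) = (fun x => pOne f * ind f true x) := by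
      funext x
      ring
    rw [this, avg_const_mul, avg_ind_true]
  rw [h2]
  ring

lemma ch_V_univ {n : ℕ} (f : (Fin n → Bool) → Bool) :
    chV f univ = pOne f * (1 - pOne f) := by
  unfold chV
  have hm : ∀ x x' : Fin n → Bool, chMix (univ : Finset (Fin n)) x x' = x := by
    intro x x'
    funext j
    simp [chMix]
  simp only [hm]
  have hc : ∀ c : ℝ, avg (fun _ : Fin n → Bool => c) = c := by
    intro c
    unfold avg
    simp only [Finset.sum_const, Finset.card_univ, Fintype.card_pi, Fintype.card_bool, Finset.prod_const,
      Fintype.card_fin, nsmul_eq_mul]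
    have h2 : (2 : ℝ) ^ n ≠ 0 := by positivity
    push_cast
    field_simp
  simp only [hc]
  have hsq : ∀ x, ind f true x * ind f true x = ind f true x := by
    intro x
    unfold ind
    split_ifs <;> simp
  simp only [hsq]
  rw [show (fun x => ind f true x) = ind f true from rfl, avg_ind_true]
  ring

/-- One more coordinate raises `chV` by at most the influence. -/
lemma ch_V_step {n : ℕ} (f : (Fin n → Bool) → Bool) (S : Finset (Fin n)) (i : Fin n) (hi : i ∉ S) :
    chV f (insert i S) ≤ chV f S + avg (fun x => |ind f true x - ind f true (flip x i)|) := by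
  unfold chV
  have hpt : ∀ x x' : Fin n → Bool, ind f true x * ind f true (chMix (insert i S) x x')
      ≤ ind f true x * ind f true (chMix S x x')
        + |ind f true (chMix S x x') - ind f true (flip (chMix S x x') i)| := by
    intro x x'
    have h0 : 0 ≤ ind f true x := ind_nonneg f true x
    have h1 : ind f true x ≤ 1 := by
      unfold ind
      split_ifs <;> norm_num
    by_cases hx : x i = x' i
    · have e : chMix (insert i S) x x' = chMix S x x' := by
        funext j
        unfold chMix
        by_cases hj : j = i
        · subst hj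
          simp [hi, hx]
        · simp [hj]
      rw [e]
      have := abs_nonneg (ind f true (chMix S x x') - ind f true (flip (chMix S x x') i))
      linarith
    · have e : chMix (insert i S) x x' = flip (chMix S x x') i := by
        funext j
        unfold chMix flip
        by_cases hj : j = i
        · subst hj
          simp only [Finset.mem_insert, true_or, if_true, Function.update_self, hi, if_false]
          cases hxj : x j <;> cases hxj' : x' j <;> simp_all
        · simp [hj, Function.update_of_ne hj]
      rw [e]
      set a := ind f true (chMix S x x')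
      set b := ind f true (flip (chMix S x x') i)
      have h3 : 0 ≤ b := ind_nonneg f true _
      have h4 : b ≤ 1 := by
        simp only [b]
        unfold ind
        split_ifs <;> norm_num
      have h5 : 0 ≤ a := ind_nonneg f true _
      have h6 : a ≤ 1 := by
        simp only [a]
        unfold ind
        split_ifs <;> norm_num
      have h7 : b - a ≤ |a - b| := by
        rw [abs_sub_comm]
        exact le_abs_self _
      have h8 : ind f true x * b - ind f true x * a = ind f true x * (b - a) := by ring
      by_cases h9 : 0 ≤ b - a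
      · have : ind f true x * (b - a) ≤ 1 * (b - a) := mul_le_mul_of_nonneg_right h1 h9
        linarith
      · rw [not_le] at h9
        have : ind f true x * (b - a) ≤ 0 := mul_nonpos_of_nonneg_of_nonpos h0 h9.le
        have h10 := abs_nonneg (a - b)
        linarith
  have hmono : ∀ {k : ℕ} {g h : (Fin k → Bool) → ℝ}, (∀ y, g y ≤ h y) → avg g ≤ avg h := by
    intro k g h hgh
    unfold avg
    apply div_le_div_of_nonneg_right _ (by positivity)
    exact Finset.sum_le_sum fun y _ => hgh y
  have hadd := ch_avg_mix S (fun z => |ind f true z - ind f true (flip z i)|)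
  have hsum : avg (fun x : Fin n → Bool => avg (fun x' : Fin n → Bool =>
        ind f true x * ind f true (chMix S x x')
        + |ind f true (chMix S x x') - ind f true (flip (chMix S x x') i)|))
      = avg (fun x : Fin n → Bool => avg (fun x' => ind f true x * ind f true (chMix S x x')))
        + avg (fun z => |ind f true z - ind f true (flip z i)|) := by
    rw [← hadd, ← avg_add]
    congr 1
    funext x
    rw [avg_add]
  have hle : avg (fun x : Fin n → Bool => avg (fun x' =>
        ind f true x * ind f true (chMix (insert i S) x x')))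
      ≤ avg (fun x : Fin n → Bool => avg (fun x' : Fin n → Bool =>
        ind f true x * ind f true (chMix S x x')
        + |ind f true (chMix S x x') - ind f true (flip (chMix S x x') i)|)) :=
    hmono fun x => hmono fun x' => hpt x x'
  linarith

/-- Existence of a set with `chV` in a narrow window. -/
lemma ch_window {n : ℕ} (f : (Fin n → Bool) → Bool) (τ : ℝ)
    (hInf : ∀ i, avg (fun x => |ind f true x - ind f true (flip x i)|) ≤ τ) (S : Finset (Fin n))
    (hS : 1 / 16 ≤ chV f S) : ∃ T : Finset (Fin n), 1 / 16 ≤ chV f T ∧ chV f T ≤ 1 / 16 + τ := by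
  induction S using Finset.induction_on with
  | empty =>
    rw [ch_V_empty] at hS
    norm_num at hS
  | insert i S hi ih =>
    by_cases h : 1 / 16 ≤ chV f S
    · exact ih h
    · rw [not_le] at h
      refine ⟨insert i S, hS, ?_⟩
      have := ch_V_step f S i hi
      have := hInf i
      linarith

/-- Realizing a set as a splitting. -/
lemma ch_split {n : ℕ} (S : Finset (Fin n)) : ∃ (m l : ℕ) (e : Fin m ⊕ Fin l ≃ Fin n),
    (∀ a, e (Sum.inl a) ∈ S) ∧ (∀ b, e (Sum.inr b) ∉ S) := by
  refine ⟨S.card, Fintype.card {x // x ∉ S},
    ((S.equivFin.symm).sumCongr (Fintype.equivFin {x // x ∉ S}).symm).trans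
      (Equiv.sumCompl (fun x => x ∈ S)), ?_, ?_⟩
  · intro a
    simp only [Equiv.trans_apply, Equiv.sumCongr_apply, Sum.map_inl, Equiv.sumCompl_apply_inl]
    exact (S.equivFin.symm a).2
  · intro b
    simp only [Equiv.trans_apply, Equiv.sumCongr_apply, Sum.map_inr, Equiv.sumCompl_apply_inr]
    exact ((Fintype.equivFin {x // x ∉ S}).symm b).2

/-- Link between `chV` and the block variance. -/
lemma ch_link {m l n : ℕ} (e : Fin m ⊕ Fin l ≃ Fin n) (f : (Fin n → Bool) → Bool) (S : Finset (Fin n))
    (hl : ∀ a, e (Sum.inl a) ∈ S) (hr : ∀ b, e (Sum.inr b) ∉ S) :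
    chV f S = avg (fun u : Fin m → Bool => (avg fun v : Fin l → Bool => ind f true (blGlue e u v)) ^ 2)
      - pOne f ^ 2 := by
  unfold chV
  congr 1
  have hm : ∀ (u u' : Fin m → Bool) (v v' : Fin l → Bool),
      chMix S (blGlue e u v) (blGlue e u' v') = blGlue e u v' := by
    intro u u' v v'
    funext j
    obtain ⟨s, rfl⟩ := e.surjective j
    rcases s with a | b
    · simp [chMix, hl a, bl_glue_inl]
    · simp [chMix, hr b, bl_glue_inr]
  rw [bl_avg e]
  have hc : ∀ {k : ℕ} (c : ℝ), avg (fun _ : Fin k → Bool => c) = c := by
    intro k c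
    unfold avg
    simp only [Finset.sum_const, Finset.card_univ, Fintype.card_pi, Fintype.card_bool, Finset.prod_const,
      Fintype.card_fin, nsmul_eq_mul]
    have h2 : (2 : ℝ) ^ k ≠ 0 := by positivity
    push_cast
    field_simp
  congr 1
  funext u
  have h1 : ∀ v : Fin l → Bool,
      avg (fun x' => ind f true (blGlue e u v) * ind f true (chMix S (blGlue e u v) x'))
      = ind f true (blGlue e u v) * avg (fun v' : Fin l → Bool => ind f true (blGlue e u v')) := by
    intro v
    rw [avg_const_mul, bl_avg e]
    congr 1
    simp only [hm]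
    exact hc _
  simp only [h1]
  have h2 : (fun v : Fin l → Bool => ind f true (blGlue e u v)
        * avg (fun v' : Fin l → Bool => ind f true (blGlue e u v')))
      = (fun v : Fin l → Bool => avg (fun v' : Fin l → Bool => ind f true (blGlue e u v'))
        * ind f true (blGlue e u v)) := by
    funext v
    ring
  rw [h2, avg_const_mul]
  ring

/-- A splitting whose first block carries a prescribed share of the variance. -/
theorem ch_exists {n : ℕ} (f : (Fin n → Bool) → Bool) (τ : ℝ)
    (hInf : ∀ i, avg (fun x => |ind f true x - ind f true (flip x i)|) ≤ τ)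
    (hp : 1 / 16 ≤ pOne f * (1 - pOne f)) :
    ∃ (m l : ℕ) (e : Fin m ⊕ Fin l ≃ Fin n),
      1 / 16 ≤ avg (fun u : Fin m → Bool => (avg fun v : Fin l → Bool => ind f true (blGlue e u v)) ^ 2)
          - pOne f ^ 2 ∧
      avg (fun u : Fin m → Bool => (avg fun v : Fin l → Bool => ind f true (blGlue e u v)) ^ 2)
          - pOne f ^ 2 ≤ 1 / 16 + τ := by
  obtain ⟨T, h1, h2⟩ := ch_window f τ hInf univ (by rw [ch_V_univ]; exact hp)
  obtain ⟨m, l, e, hl, hr⟩ := ch_split T
  refine ⟨m, l, e, ?_, ?_⟩
  · rw [← ch_link e f T hl hr]
    exact h1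
  · rw [← ch_link e f T hl hr]
    exact h2

end Vale.Agent.Lib.P322Low
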