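import Vale.Agent.Lib.P322.Pair

open Finset BigOperators

namespace Vale.Agent.Lib.P322Low

open Vale.Agent.Lib.P322

/-- Binary entropy in nats. -/
noncomputable def Hb (u : ℝ) : ℝ := -(u * Real.log u) - (1 - u) * Real.log (1 - u)

/-- Logit. -/
noncomputable def logit (u : ℝ) : ℝ := Real.log u - Real.log (1 - u)

/-- Edge energy. -/
noncomputable def cc (u v : ℝ) : ℝ := (1 / 4) * (logit u - logit v) * (u - v)

/-- Flip of coordinate `i`. -/
def flip {n : ℕ} (y : Fin n → Bool) (i : Fin n) : Fin n → Bool := Function.update y i (!y i)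

/-- Dirichlet energy of a function on the cube. -/
noncomputable def En {n : ℕ} (g : (Fin n → Bool) → ℝ) : ℝ :=
  ∑ i, avg (fun y => cc (g y) (g (flip y i)))

/-- The potential. -/
noncomputable def Psi (p w : ℝ) : ℝ :=
  2 * p * (1 - p) * Real.log (1 / (2 * Real.exp 1 * w)) - 4 * Hb p

/-- Conditional entropy `H(f(X) | Y)` in nats, as average over `y`. -/
noncomputable def omega {n : ℕ} (f : (Fin n → Bool) → Bool) (ε : ℝ) : ℝ :=
  avg (fun y => Hb (noise ε (ind f true) y))

end Vale.Agent.Lib.P322Low
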