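import Vale.Agent.Lib.P322Low.Defs

open Finset BigOperators

namespace Vale.Agent.Lib.P322Low

open Vale.Agent.Lib.P322

/-- Relabelling the cube by a transposition, as an equivalence. -/
def mgTau {n : ℕ} (i : Fin (n + 1)) : (Fin (n + 1) → Bool) ≃ (Fin (n + 1) → Bool) where
  toFun x := x ∘ Equiv.swap 0 i
  invFun x := x ∘ Equiv.swap 0 i
  left_inv x := by
    funext j
    simp
  right_inv x := by
    funext j
    simp

lemma mg_avg_tau {n : ℕ} (i : Fin (n + 1)) (h : (Fin (n + 1) → Bool) → ℝ) :
    avg (fun x => h (x ∘ Equiv.swap 0 i)) = avg h := by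
  unfold avg
  congr 1
  exact Equiv.sum_comp (mgTau i) h

lemma mg_noise_relabel {n : ℕ} (f : (Fin (n + 1) → Bool) → Bool) (i : Fin (n + 1)) (e : ℝ)
    (y : Fin (n + 1) → Bool) :
    noise e (ind (fun x => f (x ∘ Equiv.swap 0 i)) true) y
      = noise e (ind f true) (y ∘ Equiv.swap 0 i) := by
  unfold noise
  refine Equiv.sum_comp (mgTau i) (fun z => (∏ j, bsc e (z j) ((y ∘ Equiv.swap 0 i) j)) * ind f true z)
    |>.symm ▸ ?_
  refine sum_congr rfl fun x _ => ?_
  have h1 : ∏ j, bsc e (x j) (y j)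
      = ∏ j, bsc e ((mgTau i x) j) ((y ∘ Equiv.swap 0 i) j) := by
    symm
    have := Equiv.prod_comp (Equiv.swap 0 i) (fun j => bsc e (x j) (y j))
    simpa [mgTau, Function.comp] using this
  have h2 : ind (fun x => f (x ∘ Equiv.swap 0 i)) true x = ind f true (mgTau i x) := rfl
  rw [h1, h2]

lemma mg_omega_relabel {n : ℕ} (f : (Fin (n + 1) → Bool) → Bool) (i : Fin (n + 1)) (e : ℝ) :
    omega (fun x => f (x ∘ Equiv.swap 0 i)) e = omega f e := by
  unfold omega
  simp only [mg_noise_relabel]
  exact mg_avg_tau i (fun y => Hb (noise e (ind f true) y))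

lemma mg_pOne_relabel {n : ℕ} (f : (Fin (n + 1) → Bool) → Bool) (i : Fin (n + 1)) :
    pOne (fun x => f (x ∘ Equiv.swap 0 i)) = pOne f := by
  rw [← avg_ind_true, ← avg_ind_true]
  exact mg_avg_tau i (ind f true)

lemma mg_delta_fhat {n : ℕ} (f : (Fin (n + 1) → Bool) → Bool) (i : Fin (n + 1)) :
    avg (fun y : Fin n → Bool => ind (fun x => f (x ∘ Equiv.swap 0 i)) true (Fin.cons true y))
      - avg (fun y : Fin n → Bool => ind (fun x => f (x ∘ Equiv.swap 0 i)) true (Fin.cons false y))
      = 2 * Fhat f {i} := by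
  have h1 := mg_avg_tau i (fun z => ind f true z * sg (z i))
  rw [← Fhat_singleton] at h1
  have h2 : (fun x : Fin (n + 1) → Bool => ind f true (x ∘ Equiv.swap 0 i) * sg ((x ∘ Equiv.swap 0 i) i))
      = fun x => ind (fun x => f (x ∘ Equiv.swap 0 i)) true x * sg (x 0) := by
    funext x
    simp [Function.comp, ind]
  rw [h2, avg_succ] at h1
  simp only [Fin.cons_zero] at h1
  have e1 : (fun x : Fin n → Bool => ind (fun x => f (x ∘ Equiv.swap 0 i)) true (Fin.cons true x) * sg true)
      = fun x => ind (fun x => f (x ∘ Equiv.swap 0 i)) true (Fin.cons true x) := by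
    funext x; simp [sg]
  have e2 : (fun x : Fin n → Bool => ind (fun x => f (x ∘ Equiv.swap 0 i)) true (Fin.cons false x) * sg false)
      = fun x => (-1) * ind (fun x => f (x ∘ Equiv.swap 0 i)) true (Fin.cons false x) := by
    funext x; simp [sg]
  rw [e1, e2, avg_const_mul] at h1
  linarith

lemma mg_flip_cons {n : ℕ} (b : Bool) (y : Fin n → Bool) :
    flip (Fin.cons b y : Fin (n + 1) → Bool) 0 = Fin.cons (!b) y := by
  funext j
  refine Fin.cases ?_ (fun k => ?_) j
  · simp [flip]
  · simp [flip]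

lemma mg_flip_comp {n : ℕ} (x : Fin (n + 1) → Bool) (i : Fin (n + 1)) :
    (flip x 0) ∘ Equiv.swap 0 i = flip (x ∘ Equiv.swap 0 i) i := by
  funext j
  by_cases hj : j = i
  · subst hj
    simp [flip, Function.comp]
  · have h2 : Equiv.swap 0 i j ≠ 0 := by
      intro h
      apply hj
      have := congrArg (Equiv.swap 0 i) h
      simpa using this
    simp [flip, Function.comp, Function.update_of_ne h2, Function.update_of_ne hj]

lemma mg_inf_relabel {n : ℕ} (f : (Fin (n + 1) → Bool) → Bool) (i : Fin (n + 1)) :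
    avg (fun y : Fin n → Bool => |ind (fun x => f (x ∘ Equiv.swap 0 i)) true (Fin.cons true y)
        - ind (fun x => f (x ∘ Equiv.swap 0 i)) true (Fin.cons false y)|)
      = avg (fun x => |ind f true x - ind f true (flip x i)|) := by
  have h1 := mg_avg_tau i (fun z => |ind f true z - ind f true (flip z i)|)
  rw [← h1]
  have h2 : (fun x : Fin (n + 1) → Bool =>
        |ind f true (x ∘ Equiv.swap 0 i) - ind f true (flip (x ∘ Equiv.swap 0 i) i)|)
      = fun x => |ind (fun x => f (x ∘ Equiv.swap 0 i)) true x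
          - ind (fun x => f (x ∘ Equiv.swap 0 i)) true (flip x 0)| := by
    funext x
    rw [← mg_flip_comp]
    rfl
  rw [h2, avg_succ]
  simp only [mg_flip_cons, Bool.not_true, Bool.not_false]
  have e : (fun x : Fin n → Bool => |ind (fun x => f (x ∘ Equiv.swap 0 i)) true (Fin.cons false x)
        - ind (fun x => f (x ∘ Equiv.swap 0 i)) true (Fin.cons true x)|)
      = fun x => |ind (fun x => f (x ∘ Equiv.swap 0 i)) true (Fin.cons true x)
        - ind (fun x => f (x ∘ Equiv.swap 0 i)) true (Fin.cons false x)| := by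
    funext x
    exact abs_sub_comm _ _
  rw [e]
  ring

end Vale.Agent.Lib.P322Low
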