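import Vale.Agent.Lib.P322Low.Defs

open Finset BigOperators

namespace Vale.Agent.Lib.P322Low

open Vale.Agent.Lib.P322

lemma hasDerivAt_bsc (ε : ℝ) (a b : Bool) :
    HasDerivAt (fun e => bsc e a b) (if a = b then -1 else 1) ε := by
  unfold bsc
  by_cases h : a = b
  · simp only [h, if_true]
    simpa using (hasDerivAt_id ε).const_sub 1
  · simp only [h, if_false]
    exact hasDerivAt_id ε

lemma bsc_flip_sub {ε : ℝ} (h1 : ε < 1 / 2) (a b : Bool) :
    (bsc ε a (!b) - bsc ε a b) / (1 - 2 * ε) = if a = b then -1 else 1 := by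
  have h : (1 - 2 * ε) ≠ 0 := by linarith
  rw [div_eq_iff h]
  cases a <;> cases b <;> simp [bsc] <;> ring

lemma flip_self {n : ℕ} (y : Fin n → Bool) (i : Fin n) : flip y i i = !y i := by
  simp [flip]

lemma flip_ne {n : ℕ} (y : Fin n → Bool) {i j : Fin n} (h : j ≠ i) : flip y i j = y j := by
  simp [flip, Function.update_of_ne h]

lemma flip_flip {n : ℕ} (y : Fin n → Bool) (i : Fin n) : flip (flip y i) i = y := by
  funext j
  by_cases h : j = i
  · subst h; simp [flip_self]
  · simp [flip_ne _ h]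

lemma kernel_flip (ε : ℝ) {n : ℕ} (x y : Fin n → Bool) (i : Fin n) :
    ∏ j, bsc ε (x j) (flip y i j)
      = (∏ j ∈ univ.erase i, bsc ε (x j) (y j)) * bsc ε (x i) (!y i) := by
  rw [← Finset.prod_erase_mul univ _ (mem_univ i), flip_self]
  congr 1
  refine prod_congr rfl fun j hj => ?_
  rw [flip_ne _ (Finset.ne_of_mem_erase hj)]

lemma kernel_self (ε : ℝ) {n : ℕ} (x y : Fin n → Bool) (i : Fin n) :
    ∏ j, bsc ε (x j) (y j)
      = (∏ j ∈ univ.erase i, bsc ε (x j) (y j)) * bsc ε (x i) (y i) := by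
  rw [← Finset.prod_erase_mul univ _ (mem_univ i)]

lemma hasDerivAt_kernel {ε : ℝ} (h1 : ε < 1 / 2) {n : ℕ} (x y : Fin n → Bool) :
    HasDerivAt (fun e => ∏ i, bsc e (x i) (y i))
      (∑ i, (∏ j, bsc ε (x j) (flip y i j) - ∏ j, bsc ε (x j) (y j)) / (1 - 2 * ε)) ε := by
  have h : HasDerivAt (fun e => ∏ i, bsc e (x i) (y i))
      (∑ i, (∏ j ∈ univ.erase i, bsc ε (x j) (y j)) • (if x i = y i then (-1 : ℝ) else 1)) ε :=
    HasDerivAt.fun_finsetProd (fun i _ => hasDerivAt_bsc ε (x i) (y i))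
  have e : (∑ i, (∏ j, bsc ε (x j) (flip y i j) - ∏ j, bsc ε (x j) (y j)) / (1 - 2 * ε))
      = ∑ i, (∏ j ∈ univ.erase i, bsc ε (x j) (y j)) • (if x i = y i then (-1 : ℝ) else 1) := by
    refine sum_congr rfl fun i _ => ?_
    rw [kernel_flip, kernel_self ε x y i, ← mul_sub, mul_div_assoc, bsc_flip_sub h1, smul_eq_mul]
  rw [e]
  exact h

/-- derivative of the noise operator in the crossover parameter -/
lemma hasDerivAt_noise {n : ℕ} (g : (Fin n → Bool) → ℝ) {ε : ℝ} (h1 : ε < 1 / 2) (y : Fin n → Bool) :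
    HasDerivAt (fun e => noise e g y)
      ((∑ i, (noise ε g (flip y i) - noise ε g y)) / (1 - 2 * ε)) ε := by
  unfold noise
  have h : HasDerivAt (fun e => ∑ x, (∏ i, bsc e (x i) (y i)) * g x)
      (∑ x, (∑ i, (∏ j, bsc ε (x j) (flip y i j) - ∏ j, bsc ε (x j) (y j)) / (1 - 2 * ε)) * g x) ε :=
    HasDerivAt.fun_sum (fun x _ => (hasDerivAt_kernel h1 x y).mul_const (g x))
  have e : ((∑ i, (∑ x, (∏ i_1, bsc ε (x i_1) (flip y i i_1)) * g x
        - ∑ x, (∏ i_1, bsc ε (x i_1) (y i_1)) * g x)) / (1 - 2 * ε))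
      = ∑ x, (∑ i, (∏ j, bsc ε (x j) (flip y i j) - ∏ j, bsc ε (x j) (y j)) / (1 - 2 * ε)) * g x := by
    simp_rw [sum_mul]
    rw [sum_comm, sum_div]
    refine sum_congr rfl fun i _ => ?_
    rw [← sum_sub_distrib, sum_div]
    refine sum_congr rfl fun x _ => ?_
    ring
  rw [e]
  exact h

lemma bsc_pos {ε : ℝ} (h0 : 0 < ε) (h1 : ε < 1 / 2) (a b : Bool) : 0 < bsc ε a b := by
  unfold bsc; split_ifs <;> linarith

/-- strict positivity of the noisy indicator for nonconstant f -/
lemma noise_ind_pos {n : ℕ} (f : (Fin n → Bool) → Bool) {ε : ℝ} (h0 : 0 < ε) (h1 : ε < 1 / 2) (b : Bool)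
    (hp : ∃ x, f x = b) (y : Fin n → Bool) : 0 < noise ε (ind f b) y := by
  obtain ⟨x₀, hx₀⟩ := hp
  unfold noise
  have hk : ∀ x, 0 ≤ (∏ i, bsc ε (x i) (y i)) * ind f b x := fun x =>
    mul_nonneg (kernel_nonneg h0.le h1.le x y) (ind_nonneg f b x)
  refine lt_of_lt_of_le ?_ (single_le_sum (fun x _ => hk x) (mem_univ x₀))
  have : ind f b x₀ = 1 := by unfold ind; simp [hx₀]
  rw [this, mul_one]
  exact prod_pos fun i _ => bsc_pos h0 h1 _ _

lemma noise_ind_lt_one {n : ℕ} (f : (Fin n → Bool) → Bool) {ε : ℝ} (h0 : 0 < ε) (h1 : ε < 1 / 2)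
    (hf : ∃ x, f x = false) (y : Fin n → Bool) : noise ε (ind f true) y < 1 := by
  have h := noise_ind_pos f h0 h1 false hf y
  have e : noise ε (ind f false) y = 1 - noise ε (ind f true) y := by
    have h := sum_kernel_x ε y
    unfold noise
    rw [eq_sub_iff_add_eq, ← sum_add_distrib, ← h]
    refine sum_congr rfl fun x _ => ?_
    rw [← mul_add, add_comm (ind f false x), ind_add, mul_one]
  linarith

lemma hasDerivAt_Hb {u : ℝ} (h0 : 0 < u) (h1 : u < 1) : HasDerivAt Hb (-logit u) u := by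
  have hu : u ≠ 0 := h0.ne'
  have hv : 1 - u ≠ 0 := by linarith
  have d1 : HasDerivAt (fun t : ℝ => t * Real.log t) (Real.log u + 1) u :=
    Real.hasDerivAt_mul_log hu
  have hs : HasDerivAt (fun t : ℝ => 1 - t) (-1) u := by
    simpa using (hasDerivAt_id u).const_sub 1
  have d2 : HasDerivAt (fun t : ℝ => (1 - t) * Real.log (1 - t)) ((Real.log (1 - u) + 1) * (-1)) u :=
    HasDerivAt.comp u (Real.hasDerivAt_mul_log hv) hs
  have h3 := (d1.neg).sub d2
  have e : Hb = (fun t : ℝ => -(t * Real.log t) - (1 - t) * Real.log (1 - t)) := by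
    funext t; rfl
  rw [e]
  have e2 : -logit u = -(Real.log u + 1) - (Real.log (1 - u) + 1) * (-1) := by
    unfold logit; ring
  rw [e2]
  exact h3

/-- flip is an involution: averages are invariant -/
lemma avg_flip {n : ℕ} (h : (Fin n → Bool) → ℝ) (i : Fin n) :
    avg (fun y => h (flip y i)) = avg h := by
  unfold avg
  congr 1
  exact Equiv.sum_comp (⟨fun y => flip y i, fun y => flip y i, fun y => flip_flip y i,
    fun y => flip_flip y i⟩ : (Fin n → Bool) ≃ (Fin n → Bool)) h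

/-- symmetrization of one direction -/
lemma symm_cc {n : ℕ} (u : (Fin n → Bool) → ℝ) (i : Fin n) :
    avg (fun y => (-logit (u y)) * (u (flip y i) - u y)) = 2 * avg (fun y => cc (u y) (u (flip y i))) := by
  have h1 := avg_flip (fun y => (-logit (u y)) * (u (flip y i) - u y)) i
  simp only [flip_flip] at h1
  have h2 : avg (fun y => (-logit (u y)) * (u (flip y i) - u y))
        + avg (fun y => (-logit (u (flip y i))) * (u y - u (flip y i)))
      = 4 * avg (fun y => cc (u y) (u (flip y i))) := by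
    rw [← avg_add, ← avg_const_mul]
    congr 1
    funext y
    unfold cc
    ring
  linarith

lemma avg_sum {n : ℕ} {ι : Type} (s : Finset ι) (g : ι → (Fin n → Bool) → ℝ) :
    avg (fun y => ∑ i ∈ s, g i y) = ∑ i ∈ s, avg (g i) := by
  unfold avg
  rw [← sum_div, sum_comm]

/-- derivative of the conditional entropy -/
lemma hasDerivAt_omega {n : ℕ} (f : (Fin n → Bool) → Bool) {ε : ℝ} (h0 : 0 < ε) (h1 : ε < 1 / 2)
    (ht : ∃ x, f x = true) (hf : ∃ x, f x = false) :
    HasDerivAt (omega f) (2 / (1 - 2 * ε) * En (noise ε (ind f true))) ε := by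
  set u := noise ε (ind f true) with hu
  have hup : ∀ y, 0 < u y := fun y => noise_ind_pos f h0 h1 true ht y
  have hu1 : ∀ y, u y < 1 := fun y => noise_ind_lt_one f h0 h1 hf y
  have hd : ∀ y, HasDerivAt (fun e => Hb (noise e (ind f true) y))
      ((-logit (u y)) * ((∑ i, (u (flip y i) - u y)) / (1 - 2 * ε))) ε := fun y =>
    HasDerivAt.comp ε (hasDerivAt_Hb (hup y) (hu1 y)) (hasDerivAt_noise (ind f true) h1 y)
  have hsum : HasDerivAt (fun e => (∑ y, Hb (noise e (ind f true) y)) / (2 : ℝ) ^ n)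
      ((∑ y, (-logit (u y)) * ((∑ i, (u (flip y i) - u y)) / (1 - 2 * ε))) / (2 : ℝ) ^ n) ε :=
    (HasDerivAt.fun_sum (fun y _ => hd y)).div_const ((2 : ℝ) ^ n)
  have hne : (1 - 2 * ε) ≠ 0 := by linarith
  have e1 : (fun y => (-logit (u y)) * ((∑ i, (u (flip y i) - u y)) / (1 - 2 * ε)))
      = fun y => (1 / (1 - 2 * ε)) * ∑ i, (-logit (u y)) * (u (flip y i) - u y) := by
    funext y
    rw [← mul_sum]
    field_simp
  have hD : (∑ y, (-logit (u y)) * ((∑ i, (u (flip y i) - u y)) / (1 - 2 * ε))) / (2 : ℝ) ^ n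
      = 2 / (1 - 2 * ε) * En u := by
    change avg (fun y => (-logit (u y)) * ((∑ i, (u (flip y i) - u y)) / (1 - 2 * ε))) = _
    rw [e1, avg_const_mul, avg_sum]
    have e2 : ∑ i, avg (fun y => (-logit (u y)) * (u (flip y i) - u y))
        = ∑ i, 2 * avg (fun y => cc (u y) (u (flip y i))) :=
      sum_congr rfl fun i _ => symm_cc u i
    rw [e2, ← mul_sum]
    unfold En
    ring
  have hom : omega f = fun e => (∑ y, Hb (noise e (ind f true) y)) / (2 : ℝ) ^ n := by
    funext e; rfl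
  rw [hom, ← hD]
  exact hsum

lemma continuous_noise {n : ℕ} (g : (Fin n → Bool) → ℝ) (y : Fin n → Bool) :
    Continuous (fun e => noise e g y) := by
  unfold noise
  refine continuous_finsetSum _ fun x _ => Continuous.mul ?_ continuous_const
  refine continuous_finsetProd _ fun i _ => ?_
  unfold bsc
  split_ifs
  · exact continuous_const.sub continuous_id
  · exact continuous_id

lemma continuous_Hb : Continuous Hb := by
  have e : Hb = (fun t : ℝ => -(t * Real.log t) - (1 - t) * Real.log (1 - t)) := by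
    funext t; rfl
  rw [e]
  exact (Real.continuous_mul_log.neg).sub
    (Real.continuous_mul_log.comp (continuous_const.sub continuous_id))

lemma continuous_omega {n : ℕ} (f : (Fin n → Bool) → Bool) : Continuous (omega f) := by
  have hom : omega f = fun e => (∑ y, Hb (noise e (ind f true) y)) / (2 : ℝ) ^ n := by
    funext e; rfl
  rw [hom]
  refine Continuous.div_const ?_ _
  exact continuous_finsetSum _ fun y _ => continuous_Hb.comp (continuous_noise _ y)

lemma continuousOn_omega {n : ℕ} (f : (Fin n → Bool) → Bool) :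
    ContinuousOn (omega f) (Set.Icc 0 (1 / 2)) :=
  (continuous_omega f).continuousOn

lemma noise_zero {n : ℕ} (g : (Fin n → Bool) → ℝ) (y : Fin n → Bool) : noise 0 g y = g y := by
  unfold noise
  rw [Finset.sum_eq_single y]
  · have : ∏ i, bsc 0 (y i) (y i) = 1 := prod_eq_one fun i _ => by simp [bsc]
    rw [this, one_mul]
  · intro x _ hx
    obtain ⟨i, hi⟩ := Function.ne_iff.mp hx
    have : ∏ i, bsc 0 (x i) (y i) = 0 := by
      refine prod_eq_zero (mem_univ i) ?_
      simp [bsc, hi]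
    rw [this, zero_mul]
  · intro h; exact absurd (mem_univ y) h

lemma Hb_ind {n : ℕ} (f : (Fin n → Bool) → Bool) (y : Fin n → Bool) : Hb (ind f true y) = 0 := by
  unfold Hb ind
  split_ifs <;> simp

lemma omega_zero {n : ℕ} (f : (Fin n → Bool) → Bool) : omega f 0 = 0 := by
  unfold omega avg
  simp_rw [noise_zero, Hb_ind]
  simp

lemma Psi_anti {p w1 w2 : ℝ} (hp0 : 0 ≤ p) (hp1 : p ≤ 1) (h1 : 0 < w1) (h12 : w1 ≤ w2) :
    Psi p w2 ≤ Psi p w1 := by
  unfold Psi
  have he : 0 < 2 * Real.exp 1 := by positivity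
  have hw2 : 0 < w2 := lt_of_lt_of_le h1 h12
  have hl : Real.log (1 / (2 * Real.exp 1 * w2)) ≤ Real.log (1 / (2 * Real.exp 1 * w1)) := by
    apply Real.log_le_log (by positivity)
    apply one_div_le_one_div_of_le (by positivity)
    exact mul_le_mul_of_nonneg_left h12 he.le
  have hc : 0 ≤ 2 * p * (1 - p) := mul_nonneg (by linarith) (by linarith)
  nlinarith [mul_le_mul_of_nonneg_left hl hc]

lemma pOne_mem {n : ℕ} (f : (Fin n → Bool) → Bool) : 0 ≤ pOne f ∧ pOne f ≤ 1 := by
  rw [← avg_ind_true]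
  constructor
  · exact avg_nonneg (ind_nonneg f true)
  · have h := avg_ind_false f
    have h2 : 0 ≤ avg (ind f false) := avg_nonneg (ind_nonneg f false)
    rw [avg_ind_true]
    linarith

lemma omega_pos_of (hHb : ∀ u : ℝ, 0 < u → u < 1 → 0 < Hb u) {n : ℕ} (f : (Fin n → Bool) → Bool)
    {ε : ℝ} (h0 : 0 < ε) (h1 : ε < 1 / 2)
    (ht : ∃ x, f x = true) (hf : ∃ x, f x = false) : 0 < omega f ε := by
  unfold omega avg
  refine div_pos (sum_pos (fun y _ => hHb _ (noise_ind_pos f h0 h1 true ht y)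
    (noise_ind_lt_one f h0 h1 hf y)) univ_nonempty) (by positivity)

/-- the integrated inequality -/
theorem omega_bound_of (hHb : ∀ u : ℝ, 0 < u → u < 1 → 0 < Hb u)
    (hcc : ∀ u v : ℝ, 0 < u → u < 1 → 0 < v → v < 1 → 0 ≤ cc u v)
    {n : ℕ} (hfi : ∀ g : (Fin n → Bool) → ℝ, (∀ y, 0 < g y ∧ g y < 1) →
      Psi (avg g) (avg (fun y => Hb (g y))) ≤ En g)
    (f : (Fin n → Bool) → Bool) {ε : ℝ} (h0 : 0 < ε) (h1 : ε < 1 / 2)
    (ht : ∃ x, f x = true) (hf : ∃ x, f x = false) :
    2 * ε * Psi (pOne f) (omega f ε) ≤ omega f ε ∧ 0 < omega f ε := by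
  refine ⟨?_, omega_pos_of hHb f h0 h1 ht hf⟩
  have hpp := pOne_mem f
  -- energy of the noisy indicator at level s
  have hEn : ∀ s, 0 < s → s < 1 / 2 → 0 ≤ En (noise s (ind f true)) ∧
      Psi (pOne f) (omega f s) ≤ En (noise s (ind f true)) := by
    intro s hs0 hs1
    have hu : ∀ y, 0 < noise s (ind f true) y ∧ noise s (ind f true) y < 1 := fun y =>
      ⟨noise_ind_pos f hs0 hs1 true ht y, noise_ind_lt_one f hs0 hs1 hf y⟩
    constructor
    · unfold En
      refine sum_nonneg fun i _ => avg_nonneg fun y => ?_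
      exact hcc _ _ (hu y).1 (hu y).2 (hu _).1 (hu _).2
    · have := hfi (noise s (ind f true)) hu
      have e : avg (noise s (ind f true)) = pOne f := by
        rw [avg_noise, avg_ind_true]
      rw [e] at this
      exact this
  have hderiv : ∀ s ∈ Set.Ioo (0 : ℝ) ε,
      HasDerivAt (omega f) (2 / (1 - 2 * s) * En (noise s (ind f true))) s := fun s hs =>
    hasDerivAt_omega f hs.1 (by linarith [hs.2]) ht hf
  -- monotonicity on [0, ε]
  have hmono : MonotoneOn (omega f) (Set.Icc 0 ε) := by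
    refine monotoneOn_of_deriv_nonneg (convex_Icc 0 ε) (continuous_omega f).continuousOn ?_ ?_
    · rw [interior_Icc]
      exact fun s hs => (hderiv s hs).differentiableAt.differentiableWithinAt
    · rw [interior_Icc]
      intro s hs
      rw [(hderiv s hs).deriv]
      have hs1 : s < 1 / 2 := by linarith [hs.2]
      exact mul_nonneg (div_nonneg (by norm_num) (by linarith)) (hEn s hs.1 hs1).1
  -- mean value theorem
  obtain ⟨s, hs, hs'⟩ := exists_hasDerivAt_eq_slope (omega f)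
    (fun s => 2 / (1 - 2 * s) * En (noise s (ind f true))) h0
    (continuous_omega f).continuousOn hderiv
  have hs1 : s < 1 / 2 := by linarith [hs.2]
  obtain ⟨hE0, hEP⟩ := hEn s hs.1 hs1
  rw [omega_zero, sub_zero, sub_zero] at hs'
  have hanti : Psi (pOne f) (omega f ε) ≤ Psi (pOne f) (omega f s) := by
    refine Psi_anti hpp.1 hpp.2 (omega_pos_of hHb f hs.1 hs1 ht hf) ?_
    exact hmono ⟨hs.1.le, hs.2.le⟩ ⟨h0.le, le_refl ε⟩ hs.2.le
  have h2 : 2 * En (noise s (ind f true)) ≤ 2 / (1 - 2 * s) * En (noise s (ind f true)) := by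
    apply mul_le_mul_of_nonneg_right _ hE0
    rw [le_div_iff₀ (by linarith)]
    nlinarith [hs.1]
  have h3 : 2 * Psi (pOne f) (omega f ε) ≤ omega f ε / ε := by
    rw [← hs']
    linarith
  rw [le_div_iff₀ h0] at h3
  linarith

end Vale.Agent.Lib.P322Low
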