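import Vale.Agent.Lib.P322Low.Defs

open Finset BigOperators

namespace Vale.Agent.Lib.P322Low

open Vale.Agent.Lib.P322

lemma Hb_eq_psi (u : ℝ) : Hb u = -(psi u + psi (1 - u)) := by
  unfold Hb psi
  ring

lemma Hb_eq_h2 (p : ℝ) : Hb p = h2 p * Real.log 2 := by
  have hlog2 : Real.log 2 ≠ 0 := (Real.log_pos (by norm_num)).ne'
  rw [h2_eq, Hb_eq_psi]
  field_simp

lemma noise_ind_false {n : ℕ} (f : (Fin n → Bool) → Bool) (ε : ℝ) (y : Fin n → Bool) :
    noise ε (ind f false) y = 1 - noise ε (ind f true) y := by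
  have h := sum_kernel_x ε y
  unfold noise
  rw [eq_sub_iff_add_eq, ← sum_add_distrib, ← h]
  refine sum_congr rfl fun x _ => ?_
  rw [← mul_add, add_comm (ind f false x), ind_add, mul_one]

/-- mutual information in nats is entropy minus conditional entropy -/
theorem mi_eq {n : ℕ} (f : (Fin n → Bool) → Bool) {ε : ℝ} (h0 : 0 ≤ ε) (h1 : ε ≤ 1 / 2) :
    mutualInfo (jointFull f ε) * Real.log 2 = Hb (pOne f) - omega f ε := by
  have hlog2 : Real.log 2 ≠ 0 := (Real.log_pos (by norm_num)).ne'
  have key : ∀ b, ∑ y, jointFull f ε b y * Real.logb 2 (jointFull f ε b y /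
        ((∑ y', jointFull f ε b y') * (∑ b', jointFull f ε b' y)))
      = Ent (noise ε (ind f b)) / Real.log 2 := by
    intro b
    rw [← info_eq_Ent f h0 h1 b, sum_div]
    refine sum_congr rfl fun y _ => ?_
    unfold Real.logb
    ring
  unfold mutualInfo
  simp_rw [key]
  rw [Fintype.sum_bool, ← add_div, div_mul_cancel₀ _ hlog2]
  have hT : avg (noise ε (ind f true)) = pOne f := by
    rw [← avg_ind_true]
    exact avg_noise ε (ind f true)
  have hF : avg (noise ε (ind f false)) = 1 - pOne f := by
    rw [← avg_ind_false]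
    exact avg_noise ε (ind f false)
  unfold Ent
  rw [hT, hF, Hb_eq_psi (pOne f)]
  have hs : avg (fun x => psi (noise ε (ind f true) x)) + avg (fun x => psi (noise ε (ind f false) x))
      = - omega f ε := by
    rw [← avg_add]
    unfold omega
    have e : (fun x => psi (noise ε (ind f true) x) + psi (noise ε (ind f false) x))
        = fun x => (-1 : ℝ) * Hb (noise ε (ind f true) x) := by
      funext x
      rw [noise_ind_false, Hb_eq_psi]
      ring
    rw [e, avg_const_mul]
    ring
  linarith

end Vale.Agent.Lib.P322Low
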