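import Vale.Agent.Lib.P322Low.Induct
import Vale.Agent.Lib.P322Low.Flow
import Vale.Agent.Lib.P322Low.Link
import Vale.Agent.Lib.P322Low.Asym

open Finset BigOperators

namespace Vale.Agent.Lib.P322Low

open Vale.Agent.Lib.P322

/-- conditional entropy is nonnegative -/
lemma omega_nonneg {n : ℕ} (f : (Fin n → Bool) → Bool) {ε : ℝ} (h0 : 0 ≤ ε) (h1 : ε ≤ 1 / 2) :
    0 ≤ omega f ε := by
  unfold omega
  refine avg_nonneg fun y => Hb_nonneg ?_ ?_
  · exact noise_nonneg h0 h1 (ind_nonneg f true) y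
  · have h2 := noise_nonneg h0 h1 (ind_nonneg f false) y
    rw [noise_ind_false] at h2
    linarith

lemma pOne_const_true {n : ℕ} (f : (Fin n → Bool) → Bool) (h : ∀ x, f x = true) : pOne f = 1 := by
  rw [← avg_ind_true]
  unfold avg ind
  simp [h]

lemma pOne_const_false {n : ℕ} (f : (Fin n → Bool) → Bool) (h : ∀ x, f x = false) : pOne f = 0 := by
  rw [← avg_ind_true]
  unfold avg ind
  simp [h]

/-- The conditional entropy bound at low noise. -/
theorem omega_asym (η : ℝ) (hη : 0 < η) : ∃ ε₀ : ℝ, 0 < ε₀ ∧ ε₀ ≤ 1 / 4 ∧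
    ∀ (n : ℕ) (f : (Fin n → Bool) → Bool) (ε : ℝ), 0 < ε → ε < ε₀ →
      (4 * pOne f * (1 - pOne f) - η) * Hb ε ≤ omega f ε := by
  obtain ⟨ε₀, h0, h14, hmain⟩ := asym_real η hη
  refine ⟨ε₀, h0, h14, ?_⟩
  intro n f ε he heps
  have he1 : ε < 1 / 2 := by linarith
  have hHb : 0 ≤ Hb ε := Hb_nonneg he.le (by linarith)
  by_cases ht : ∃ x, f x = true
  · by_cases hf : ∃ x, f x = false
    · obtain ⟨hb, hpos⟩ := omega_bound_of (fun u h0 h1 => Hb_pos h0 h1)
        (fun u v hu hu1 hv hv1 => cc_nonneg hu hu1 hv hv1) (fun g hg => fi g hg) f he he1 ht hf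
      have hp := pOne_mem f
      exact hmain _ ε _ hp.1 hp.2 he heps hpos hb
    · have hc : ∀ x, f x = true := fun x => by
        cases hx : f x
        · exact absurd ⟨x, hx⟩ hf
        · rfl
      rw [pOne_const_true f hc]
      have := omega_nonneg f he.le he1.le
      nlinarith
  · have hc : ∀ x, f x = false := fun x => by
      cases hx : f x
      · rfl
      · exact absurd ⟨x, hx⟩ ht
    rw [pOne_const_false f hc]
    have := omega_nonneg f he.le he1.le
    nlinarith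

/-- The low-noise theorem. -/
theorem asymptotic (η : ℝ) (hη : 0 < η) : ∃ ε₀ : ℝ, 0 < ε₀ ∧ ∀ (n : ℕ) (f : (Fin n → Bool) → Bool) (ε : ℝ),
    0 < ε → ε < ε₀ → mutualInfo (jointFull f ε) ≤ h2 (pOne f) - (4 * pOne f * (1 - pOne f) - η) * h2 ε := by
  obtain ⟨ε₀, h0, h14, hmain⟩ := omega_asym η hη
  refine ⟨ε₀, h0, ?_⟩
  intro n f ε he heps
  have he1 : ε < 1 / 2 := by linarith
  have hlog2 : 0 < Real.log 2 := Real.log_pos (by norm_num)
  have h1 := mi_eq f he.le he1.le
  have h2' := hmain n f ε he heps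
  rw [Hb_eq_h2 (pOne f)] at h1
  rw [Hb_eq_h2 ε] at h2'
  have h3 : mutualInfo (jointFull f ε) * Real.log 2
      ≤ (h2 (pOne f) - (4 * pOne f * (1 - pOne f) - η) * h2 ε) * Real.log 2 := by
    rw [h1]
    nlinarith
  exact le_of_mul_le_mul_right h3 hlog2

end Vale.Agent.Lib.P322Low
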