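import Vale.Agent.Lib.P322Low.TinyCover
import Vale.Agent.Lib.P322Low.Final

open Finset BigOperators

namespace Vale.Agent.Lib.P322Low.TinyCover

open Vale.Agent.Lib.P322 Vale.Agent.Lib.P322Low Vale.Agent.Lib.P322Low.NearDict

lemma tc_pointwise {s e δ : ℝ} (hs0 : 0 ≤ s) (hs1 : s ≤ 1) (he0 : 0 < e) (he1 : e < 1 / 2)
    (hd0 : 0 < δ) (hd1 : δ ≤ 1) (hd : e + Hb e ≤ δ) :
    (1 - δ) * Hb s + (-2 * Hb e) * s + (-(e * (1 + Real.log (1 / δ)))) ≤ tcQ e s := by
  have h1 := star hs0 hs1 he0 he1 hd0 hd1 hd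
  have h2 : (1 - s) * Hb e + s * Hb 0 ≤ Hb ((1 - s) * e + s * 0) :=
    Hb_conc (x := e) (y := 0) ⟨he0.le, by linarith⟩ ⟨le_refl _, by norm_num⟩ (by linarith) hs0 (by ring)
  rw [Hb_zero] at h2
  have e1 : (1 - s) * e + s * 0 = e * (1 - s) := by ring
  rw [e1] at h2
  unfold tcQ
  nlinarith

/-- Sets of measure between `1/16` and `1/8` have nonnegative gain at low noise. -/
lemma tc_const : ∃ e₂ : ℝ, 0 < e₂ ∧ e₂ < 1 / 2 ∧ ∀ (n : ℕ) (S : Finset (Fin n → Bool)) (e : ℝ), 0 < e → e < e₂ →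
    (2 : ℝ) ^ n / 16 ≤ S.card → (S.card : ℝ) ≤ 2 ^ n / 8 → 0 ≤ tcD e S := by
  obtain ⟨ε₀, hε₀, hasym⟩ := asymptotic (1 / 100) (by norm_num)
  have hsmall : (0 : ℝ) < Real.exp (-70) := Real.exp_pos _
  refine ⟨min ε₀ (min (Real.exp (-70)) (1 / 1000000)),
    lt_min hε₀ (lt_min hsmall (by norm_num)), ?_, ?_⟩
  · calc min ε₀ (min (Real.exp (-70)) (1 / 1000000)) ≤ min (Real.exp (-70)) (1 / 1000000) := min_le_right _ _
      _ ≤ 1 / 1000000 := min_le_right _ _
      _ < 1 / 2 := by norm_num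
  intro n S e he heps hS1 hS2
  have he1 : e < ε₀ := lt_of_lt_of_le heps (min_le_left _ _)
  have he2 : e < Real.exp (-70) :=
    lt_of_lt_of_le (lt_of_lt_of_le heps (min_le_right _ _)) (min_le_left _ _)
  have he3 : e < 1 / 1000000 :=
    lt_of_lt_of_le (lt_of_lt_of_le heps (min_le_right _ _)) (min_le_right _ _)
  have he12 : e < 1 / 2 := by linarith
  set g : (Fin n → Bool) → Bool := fun x => decide (x ∈ S) with hg
  have hind : ind g true = tcInd S := by
    funext x
    unfold ind tcInd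
    by_cases hx : x ∈ S <;> simp [hg, hx]
  have hp : pOne g = (S.card : ℝ) / 2 ^ n := by
    unfold pOne
    congr 2
    congr 1
    ext x
    simp [hg]
  have h2pow : (0 : ℝ) < 2 ^ n := by positivity
  have hp1 : 1 / 16 ≤ pOne g := by
    rw [hp, le_div_iff₀ h2pow]
    linarith
  have hp2 : pOne g ≤ 1 / 8 := by
    rw [hp, div_le_iff₀ h2pow]
    linarith
  set p : ℝ := pOne g with hpdef
  have hlog2 : 0 < Real.log 2 := Real.log_pos (by norm_num)
  have hmi := mi_eq g he.le he12.le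
  have hA := hasym n g e he he1
  have hH1 : Hb p = h2 p * Real.log 2 := Hb_eq_h2 p
  have hH2 : Hb e = h2 e * Real.log 2 := Hb_eq_h2 e
  have hom : (4 * p * (1 - p) - 1 / 100) * Hb e ≤ omega g e := by
    have h3 := mul_le_mul_of_nonneg_right hA hlog2.le
    rw [hmi] at h3
    have h4 : (h2 p - (4 * p * (1 - p) - 1 / 100) * h2 e) * Real.log 2
        = Hb p - (4 * p * (1 - p) - 1 / 100) * Hb e := by
      rw [hH1, hH2]
      ring
    rw [h4] at h3
    linarith
  -- conditions for the pointwise bound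
  have hHe_le : Hb e ≤ 2 / 1000 := by
    have h5 := Hb_le_two_sqrt he (by linarith)
    have h6 : Real.sqrt e ≤ 1 / 1000 := by
      rw [Real.sqrt_le_iff]
      constructor
      · norm_num
      · norm_num
        linarith
    linarith
  have hd : e + Hb e ≤ 1 / 100 := by
    have : e ≤ 1 / 1000000 := he3.le
    linarith
  have hs : ∀ y, 0 ≤ noise e (ind g true) y ∧ noise e (ind g true) y ≤ 1 := by
    intro y
    rw [hind]
    exact ⟨tc_noise_nonneg he.le he12.le S y, tc_noise_le_one he.le he12.le S y⟩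
  have hD : (1 - 1 / 100) * omega g e + (-2 * Hb e) * p + (-(e * (1 + Real.log (1 / (1 / 100)))))
      ≤ tcD e S := by
    have h7 : avg (fun y => (1 - 1 / 100) * Hb (noise e (ind g true) y)
          + (-2 * Hb e) * noise e (ind g true) y + (-(e * (1 + Real.log (1 / (1 / 100))))))
        ≤ tcD e S := by
      unfold tcD
      rw [← hind]
      refine avg_mono' fun y => ?_
      exact tc_pointwise (hs y).1 (hs y).2 he he12 (by norm_num) (by norm_num) hd
    rw [avg_add, avg_add, avg_const', avg_const_mul, avg_const_mul, avg_noise, avg_ind_true] at h7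
    exact h7
  have hlog100 : Real.log (1 / (1 / 100)) ≤ 4.9 := by
    have h8 : (1 : ℝ) / (1 / 100) ≤ 2 ^ 7 := by norm_num
    have h9 := Real.log_le_log (by norm_num) h8
    have h10 : Real.log ((2 : ℝ) ^ 7) = 7 * Real.log 2 := by
      rw [Real.log_pow]
      norm_num
    rw [h10] at h9
    have := Real.log_two_lt_d9
    linarith
  have hlogE : 70 ≤ Real.log (1 / e) := by
    have h11 : Real.log e ≤ -70 := by
      rw [← Real.log_exp (-70)]
      exact Real.log_le_log he he2.le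
    rw [one_div, Real.log_inv]
    linarith
  have hHb := Hb_ge_log he (by linarith)
  have hHb2 : e * 70 ≤ Hb e := by
    have := mul_le_mul_of_nonneg_left hlogE he.le
    linarith
  have hHe0 : 0 ≤ Hb e := by linarith [mul_pos he (by norm_num : (0:ℝ) < 70)]
  have hcoef : 9 / 100 ≤ (1 - 1 / 100) * (4 * p * (1 - p) - 1 / 100) - 2 * p := by
    nlinarith [mul_nonneg (sub_nonneg.2 hp1) (sub_nonneg.2 hp2)]
  have hfin : 9 / 100 * Hb e ≤ (1 - 1 / 100) * omega g e + (-2 * Hb e) * p := by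
    have h12 := mul_le_mul_of_nonneg_right hcoef hHe0
    have h13 := mul_le_mul_of_nonneg_left hom (by norm_num : (0:ℝ) ≤ 1 - 1 / 100)
    nlinarith
  have h14 : e * (1 + Real.log (1 / (1 / 100))) ≤ e * 5.9 :=
    mul_le_mul_of_nonneg_left (by linarith) he.le
  nlinarith

/-- The tiny-set gain is nonnegative at low noise. -/
theorem tiny_cover : ∃ e₂ : ℝ, 0 < e₂ ∧ e₂ < 1 / 2 ∧ ∀ (n : ℕ) (g : (Fin n → Bool) → Bool) (e : ℝ), 0 < e → e < e₂ →
    pOne g ≤ 1 / 16 →
    0 ≤ avg (fun y => Hb (e * (1 - noise e (ind g true) y))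
      + Hb (noise e (ind g true) y + (1 - noise e (ind g true) y) * e) - 2 * Hb e) := by
  obtain ⟨e₂, h0, h12, hc⟩ := tc_const
  refine ⟨e₂, h0, h12, ?_⟩
  intro n g e he heps hg
  set S : Finset (Fin n → Bool) := univ.filter (fun x => g x = true) with hS
  have hind : ind g true = tcInd S := by
    funext x
    unfold ind tcInd
    simp [hS]
  have hp : pOne g = (S.card : ℝ) / 2 ^ n := rfl
  have h2pow : (0 : ℝ) < 2 ^ n := by positivity
  have hcard : (S.card : ℝ) ≤ 2 ^ n / 16 := by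
    rw [hp, div_le_iff₀ h2pow] at hg
    linarith
  have hcov := tc_cover (e := e) (T := 2 ^ n / 16) he.le (by linarith) (by linarith)
    (fun b h1 h2 => hc n b e he heps h1 (by linarith)) S hcard
  rw [hind]
  exact hcov

end Vale.Agent.Lib.P322Low.TinyCover
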