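import Vale.Agent.Lib.P322Low.TinyCore
import Vale.Agent.Lib.P322Low.TinyCover2
import Vale.Agent.Lib.P322Low.Relabel

open Finset BigOperators

namespace Vale.Agent.Lib.P322Low.NearDict

open Vale.Agent.Lib.P322 Vale.Agent.Lib.P322Low

theorem dict_base : ∃ e0 : ℝ, 0 < e0 ∧ ∀ (n : ℕ) (f : (Fin (n + 1) → Bool) → Bool) (ε : ℝ),
    0 < ε → ε < e0 → pOne (fun x => f (Fin.cons false x)) ≤ 1 / 4 →
      1 - pOne (fun x => f (Fin.cons true x)) ≤ 1 / 4 → Hb ε ≤ omega f ε := by
  have htiny : ∃ ε₂ : ℝ, 0 < ε₂ ∧ ∀ (n : ℕ) (g : (Fin n → Bool) → Bool) (ε : ℝ), 0 < ε → ε < ε₂ →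
      pOne g ≤ 1 / 16 → 0 ≤ avg (fun y => QQ ε (noise ε (ind g true) y)) := by
    obtain ⟨e2, h0, _, hc⟩ := TinyCover.tiny_cover
    exact ⟨e2, h0, fun n g e he hl hg => hc n g e he hl hg⟩
  exact near_dictator_of_tiny htiny (1 / 4) (by norm_num)

/-- Exact Courtade-Kumar at low noise when some first-level Fourier weight is close to one. -/
theorem dict_case : ∃ e0 : ℝ, 0 < e0 ∧ ∀ (n : ℕ) (f : (Fin n → Bool) → Bool) (i : Fin n) (ε : ℝ),
    0 < ε → ε < e0 → 3 / 4 < (2 * Fhat f {i}) ^ 2 → mutualInfo (jointFull f ε) ≤ 1 - h2 ε := by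
  obtain ⟨e0, h0, hb⟩ := dict_base
  refine ⟨min e0 (1 / 2), lt_min h0 (by norm_num), ?_⟩
  intro n f i ε he heps hd
  have he0 : ε < e0 := lt_of_lt_of_le heps (min_le_left _ _)
  have he2 : ε < 1 / 2 := lt_of_lt_of_le heps (min_le_right _ _)
  cases n with
  | zero => exact i.elim0
  | succ m =>
    refine ck_of_omega f he he2 ?_
    set g : (Fin (m + 1) → Bool) → Bool := fun x => f (x ∘ Equiv.swap 0 i) with hg
    have hdelta := mg_delta_fhat f i
    have hp1 : avg (fun y : Fin m → Bool => ind g true (Fin.cons true y))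
        = pOne (fun x : Fin m → Bool => g (Fin.cons true x)) := by
      rw [← avg_ind_true]
      rfl
    have hp0 : avg (fun y : Fin m → Bool => ind g true (Fin.cons false y))
        = pOne (fun x : Fin m → Bool => g (Fin.cons false x)) := by
      rw [← avg_ind_true]
      rfl
    rw [hp1, hp0] at hdelta
    set p1 := pOne (fun x : Fin m → Bool => g (Fin.cons true x)) with hp1d
    set p0 := pOne (fun x : Fin m → Bool => g (Fin.cons false x)) with hp0d
    have h1 := pOne_mem (fun x : Fin m → Bool => g (Fin.cons true x))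
    have h2' := pOne_mem (fun x : Fin m → Bool => g (Fin.cons false x))
    rw [← hp1d] at h1
    rw [← hp0d] at h2'
    rw [← hdelta] at hd
    have hom : omega g ε = omega f ε := mg_omega_relabel f i ε
    rw [← hom]
    by_cases hs : 0 ≤ p1 - p0
    · refine hb m g ε he he0 ?_ ?_
      · rw [← hp0d]
        nlinarith [h1.1, h1.2, h2'.1, h2'.2]
      · rw [← hp1d]
        nlinarith [h1.1, h1.2, h2'.1, h2'.2]
    · have hs' : p1 - p0 < 0 := not_le.1 hs
      have hh := hb m (fun x => !g x) ε he he0 ?_ ?_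
      · rwa [omega_not] at hh
      · rw [pOne_not (fun x : Fin m → Bool => g (Fin.cons false x)), ← hp0d]
        nlinarith [h1.1, h1.2, h2'.1, h2'.2]
      · rw [pOne_not (fun x : Fin m → Bool => g (Fin.cons true x)), ← hp1d]
        nlinarith [h1.1, h1.2, h2'.1, h2'.2]

end Vale.Agent.Lib.P322Low.NearDict
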