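import Vale.Agent.Lib.P322Low.Induct
import Vale.Agent.Lib.P322Low.Flow
import Vale.Agent.Lib.P322Low.Link
import Vale.Agent.Lib.P322Low.Asym

open Finset BigOperators

namespace Vale.Agent.Results.P322.LowNoiseExplicit

open Vale.Agent.Lib.P322 Vale.Agent.Lib.P322Low

/-- conditional entropy is nonnegative -/
lemma omega_nonneg' {n : ℕ} (f : (Fin n → Bool) → Bool) {ε : ℝ} (h0 : 0 ≤ ε) (h1 : ε ≤ 1 / 2) :
    0 ≤ omega f ε := by
  unfold omega
  refine avg_nonneg fun y => Hb_nonneg ?_ ?_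
  · exact noise_nonneg h0 h1 (ind_nonneg f true) y
  · have h2 := noise_nonneg h0 h1 (ind_nonneg f false) y
    rw [noise_ind_false] at h2
    linarith

lemma pOne_const_true' {n : ℕ} (f : (Fin n → Bool) → Bool) (h : ∀ x, f x = true) : pOne f = 1 := by
  rw [← avg_ind_true]
  unfold avg ind
  simp [h]

lemma pOne_const_false' {n : ℕ} (f : (Fin n → Bool) → Bool) (h : ∀ x, f x = false) : pOne f = 0 := by
  rw [← avg_ind_true]
  unfold avg ind
  simp [h]

/-- Binary Pinsker inequality in nats. -/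
lemma Hb_le_sub {p : ℝ} (h0 : 0 ≤ p) (h1 : p ≤ 1) : Hb p ≤ Real.log 2 - 2 * (p - 1 / 2) ^ 2 := by
  have hhalf : Hb (1 / 2) = Real.log 2 := by
    unfold Hb
    have e : (1 : ℝ) - 1 / 2 = 1 / 2 := by norm_num
    rw [e, one_div, Real.log_inv]
    ring
  rcases h0.eq_or_lt with rfl | h0'
  · have : Hb 0 = 0 := by
      unfold Hb
      simp
    rw [this]
    have : (1.6 : ℝ) / 3 < Real.log 2 := by
      have := Real.log_two_gt_d9
      norm_num at this ⊢
      linarith
    norm_num
    linarith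
  rcases h1.eq_or_lt with rfl | h1'
  · have : Hb 1 = 0 := by
      unfold Hb
      simp
    rw [this]
    have : (1.6 : ℝ) / 3 < Real.log 2 := by
      have := Real.log_two_gt_d9
      norm_num at this ⊢
      linarith
    norm_num
    linarith
  have h := J_ge h0' h1' (by linarith : 0 < 1 - p) (by linarith : 1 - p < 1)
  have e1 : (p + (1 - p)) / 2 = 1 / 2 := by ring
  rw [e1, hhalf, Hb_symm p] at h
  have e2 : (p - (1 - p)) ^ 2 / (8 * (1 / 2) * (1 - 1 / 2)) = 2 * (p - 1 / 2) ^ 2 := by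
    ring
  rw [e2] at h
  linarith

/-- A crude bound for the entropy at small noise. -/
lemma Hb_le_quarter {e : ℝ} (h0 : 0 < e) (h1 : e < 1 / 100) : Hb e ≤ 1 / 4 := by
  refine (Hb_le_small (by linarith) h0).trans ?_
  set s : ℝ := Real.sqrt e with hs
  have hs0 : 0 < s := Real.sqrt_pos.mpr h0
  have hs2 : s ^ 2 = e := Real.sq_sqrt h0.le
  have hs1 : s < 1 / 10 := by
    by_contra hc
    rw [not_lt] at hc
    nlinarith
  have hlog : Real.log (1 / e) ≤ 2 * (1 / s - 1) := by
    have e1 : 1 / e = (1 / s) ^ 2 := by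
      rw [← hs2]
      field_simp
    rw [e1, Real.log_pow]
    have := Real.log_le_sub_one_of_pos (by positivity : 0 < 1 / s)
    push_cast
    linarith
  have h2 : e * (1 + Real.log (1 / e)) ≤ e * (1 + 2 * (1 / s - 1)) :=
    mul_le_mul_of_nonneg_left (by linarith) h0.le
  have h3 : e * (1 + 2 * (1 / s - 1)) = 2 * s - s ^ 2 := by
    rw [← hs2]
    field_simp
    ring
  nlinarith

lemma h2_half : h2 (1 / 2) = 1 := by
  have hlog2 : 0 < Real.log 2 := Real.log_pos (by norm_num)
  have h := Hb_eq_h2 (1 / 2)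
  have hhalf : Hb (1 / 2) = Real.log 2 := by
    unfold Hb
    have e : (1 : ℝ) - 1 / 2 = 1 / 2 := by norm_num
    rw [e, one_div, Real.log_inv]
    ring
  rw [hhalf] at h
  have : (h2 (1 / 2) - 1) * Real.log 2 = 0 := by linarith
  rcases mul_eq_zero.mp this with h3 | h3
  · linarith
  · exact absurd h3 hlog2.ne'

/-- The real-variable step with an explicit error term. -/
lemma explicit_real {p ε ω : ℝ} (hp0 : 0 ≤ p) (hp1 : p ≤ 1) (he0 : 0 < ε) (he1 : ε < 1 / 2)
    (hw : 0 < ω) (hbound : 2 * ε * Psi p ω ≤ ω) :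
    4 * p * (1 - p) * Hb ε - ε * (2 + 9 * Real.log 2 + Real.log (1 + Real.log (1 / ε))) ≤ ω := by
  have hHb0 : 0 < Hb ε := Hb_pos he0 (by linarith)
  set v : ℝ := 4 * p * (1 - p) with hv
  have hv0 : 0 ≤ v := by
    have : 0 ≤ p * (1 - p) := mul_nonneg hp0 (by linarith)
    nlinarith
  have hv1 : v ≤ 1 := by nlinarith [sq_nonneg (2 * p - 1)]
  set Λ : ℝ := Real.log (1 / ε) with hΛ
  have hΛ_pos : 0 < Λ := Real.log_pos (by rw [lt_div_iff₀ he0]; linarith)
  have h1Λ : 0 < 1 + Λ := by linarith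
  have hlogΛ0 : 0 ≤ Real.log (1 + Λ) := Real.log_nonneg (by linarith)
  have hlog2 : 0 < Real.log 2 := Real.log_pos (by norm_num)
  by_cases hcase : Hb ε ≤ ω
  · have h1 : v * Hb ε ≤ 1 * Hb ε := mul_le_mul_of_nonneg_right hv1 hHb0.le
    have h2 : 0 ≤ ε * (2 + 9 * Real.log 2 + Real.log (1 + Λ)) := by positivity
    linarith
  rw [not_le] at hcase
  have hH : Hb ε ≤ ε * (1 + Λ) := Hb_le_small (by linarith) he0
  have hlog : Λ - Real.log 2 - 1 - Real.log (1 + Λ) ≤ Real.log (1 / (2 * Real.exp 1 * ω)) := by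
    have h2e : 0 < 2 * Real.exp 1 := by positivity
    have hle : 2 * Real.exp 1 * ω ≤ 2 * Real.exp 1 * (ε * (1 + Λ)) :=
      mul_le_mul_of_nonneg_left (by linarith) h2e.le
    have hlog1 : Real.log (1 / (2 * Real.exp 1 * (ε * (1 + Λ))))
        ≤ Real.log (1 / (2 * Real.exp 1 * ω)) := by
      apply Real.log_le_log
      · positivity
      · apply one_div_le_one_div_of_le
        · positivity
        · exact hle
    have hlog2 : Real.log (1 / (2 * Real.exp 1 * (ε * (1 + Λ))))
        = Λ - Real.log 2 - 1 - Real.log (1 + Λ) := by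
      rw [hΛ] at h1Λ ⊢
      have hne2 : (2 : ℝ) ≠ 0 := by norm_num
      have hnee : Real.exp 1 ≠ 0 := (Real.exp_pos 1).ne'
      have hnee2 : ε ≠ 0 := he0.ne'
      have hne1 : (1 + Real.log (1 / ε)) ≠ 0 := h1Λ.ne'
      rw [one_div (2 * Real.exp 1 * (ε * (1 + Real.log (1 / ε)))), Real.log_inv,
        Real.log_mul (by positivity) (by positivity), Real.log_mul hne2 hnee, Real.log_exp,
        Real.log_mul hnee2 hne1, one_div ε, Real.log_inv]
      ring
    linarith
  have hHbp : Hb p ≤ Real.log 2 := Hb_le_log_two hp0 hp1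
  have hPsi : v / 2 * (Λ - Real.log 2 - 1 - Real.log (1 + Λ)) - 4 * Real.log 2 ≤ Psi p ω := by
    unfold Psi
    have e1 : 2 * p * (1 - p) = v / 2 := by
      rw [hv]
      ring
    rw [e1]
    have := mul_le_mul_of_nonneg_left hlog (by positivity : 0 ≤ v / 2)
    linarith
  have hmain : 2 * ε * (v / 2 * (Λ - Real.log 2 - 1 - Real.log (1 + Λ)) - 4 * Real.log 2) ≤ ω :=
    (mul_le_mul_of_nonneg_left hPsi (by positivity)).trans hbound
  have h3 : v * Hb ε ≤ v * (ε * (1 + Λ)) := mul_le_mul_of_nonneg_left hH hv0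
  have h4 : ε * (v * Real.log 2) ≤ ε * (1 * Real.log 2) :=
    mul_le_mul_of_nonneg_left (mul_le_mul_of_nonneg_right hv1 hlog2.le) he0.le
  have h5 : ε * (v * Real.log (1 + Λ)) ≤ ε * (1 * Real.log (1 + Λ)) :=
    mul_le_mul_of_nonneg_left (mul_le_mul_of_nonneg_right hv1 hlogΛ0) he0.le
  have h6 : ε * v ≤ ε * 1 := mul_le_mul_of_nonneg_left hv1 he0.le
  have h7 : 0 ≤ ε * Real.log 2 := by positivity
  nlinarith

/-- The conditional entropy bound with an explicit error term, for every Boolean function. -/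
lemma omega_explicit {n : ℕ} (f : (Fin n → Bool) → Bool) {ε : ℝ} (he : 0 < ε) (he1 : ε < 1 / 2) :
    4 * pOne f * (1 - pOne f) * Hb ε - ε * (2 + 9 * Real.log 2 + Real.log (1 + Real.log (1 / ε)))
      ≤ omega f ε := by
  have hlog2 : 0 < Real.log 2 := Real.log_pos (by norm_num)
  have hΛ_pos : 0 < Real.log (1 / ε) := Real.log_pos (by rw [lt_div_iff₀ he]; linarith)
  have hlogΛ0 : 0 ≤ Real.log (1 + Real.log (1 / ε)) := Real.log_nonneg (by linarith)
  have hE : 0 ≤ ε * (2 + 9 * Real.log 2 + Real.log (1 + Real.log (1 / ε))) := by positivity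
  have hw0 := omega_nonneg' f he.le he1.le
  by_cases ht : ∃ x, f x = true
  · by_cases hf : ∃ x, f x = false
    · obtain ⟨hb, hpos⟩ := omega_bound_of (fun u h0 h1 => Hb_pos h0 h1)
        (fun u v hu hu1 hv hv1 => cc_nonneg hu hu1 hv hv1) (fun g hg => fi g hg) f he he1 ht hf
      have hp := pOne_mem f
      exact explicit_real hp.1 hp.2 he he1 hpos hb
    · have hc : ∀ x, f x = true := fun x => by
        cases hx : f x
        · exact absurd ⟨x, hx⟩ hf
        · rfl
      rw [pOne_const_true' f hc]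
      simp only [sub_self, mul_zero, zero_mul]
      linarith
  · have hc : ∀ x, f x = false := fun x => by
      cases hx : f x
      · rfl
      · exact absurd ⟨x, hx⟩ ht
    rw [pOne_const_false' f hc]
    simp only [mul_zero, zero_mul]
    linarith

end Vale.Agent.Results.P322.LowNoiseExplicit
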