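import Vale.Agent.Lib.P322Low.Pointwise

open Finset BigOperators

namespace Vale.Agent.Lib.P322Low

open Vale.Agent.Lib.P322

/-! ## Module B : key lemma -/

lemma avg_mono' {n : ℕ} {g h : (Fin n → Bool) → ℝ} (hgh : ∀ x, g x ≤ h x) : avg g ≤ avg h := by
  unfold avg
  apply div_le_div_of_nonneg_right (sum_le_sum fun x _ => hgh x) (by positivity)

lemma avg_const' {n : ℕ} (c : ℝ) : avg (fun _ : Fin n → Bool => c) = c := by
  unfold avg
  rw [sum_const, card_univ, Fintype.card_pi]
  simp

/-- the elementary inequality for `v ≥ 1` (first case of the pointwise claim). -/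
lemma v_ge_one {L r : ℝ} (hL : 2 < L) (hr : 0 < r) (hl : L + 1 - Real.log r ≤ 2) :
    1 ≤ (2 / L) * (1 + (r - 1) / L) := by
  have hLpos : 0 < L := by linarith
  set z := L - 1 with hz
  have hz1 : 1 ≤ z := by rw [hz]; linarith
  have hs : z ≤ Real.log r := by rw [hz]; linarith
  have hr' : Real.exp z ≤ r := by
    calc Real.exp z ≤ Real.exp (Real.log r) := Real.exp_le_exp.2 hs
      _ = r := Real.exp_log hr
  have hq : 1 + z + z ^ 2 / 2 ≤ Real.exp z := Real.quadratic_le_exp_of_nonneg (by linarith)
  have hkey : L ^ 2 ≤ 2 * (L + r - 1) := by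
    have hLz : L = z + 1 := by rw [hz]; ring
    rw [hLz]
    nlinarith
  have e : (2 / L) * (1 + (r - 1) / L) = 2 * (L + r - 1) / L ^ 2 := by
    field_simp
    ring
  rw [e, le_div_iff₀ (by positivity)]
  linarith

/-- the elementary inequality for `v ≥ 2 / l` (second case of the pointwise claim). -/
lemma v_ge_two_div {L r : ℝ} (hL : 2 < L) (hr : 0 < r) (hl : 2 < L + 1 - Real.log r) :
    2 / (L + 1 - Real.log r) ≤ (2 / L) * (1 + (r - 1) / L) := by
  have hLpos : 0 < L := by linarith
  set s := Real.log r with hs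
  have hrs : Real.exp s = r := Real.exp_log hr
  have hlpos : 0 < L + 1 - s := by linarith
  -- `L (r - s) + (1 - s) (r - 1) ≥ 0`
  have hs1 : s + 1 ≤ r := by
    have := Real.add_one_le_exp s
    rwa [hrs] at this
  have hmain : 0 ≤ L * (r - s) + (1 - s) * (r - 1) := by
    by_cases hs' : 1 ≤ s
    · -- `s ≥ 1`
      have hq : 1 + s + s ^ 2 / 2 ≤ r := by
        have := Real.quadratic_le_exp_of_nonneg (x := s) (by linarith)
        rwa [hrs] at this
      have hL' : 1 + s < L := by linarith
      have hrs1 : 0 ≤ r - s := by linarith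
      have h1 : (1 + s) * (r - s) ≤ L * (r - s) := mul_le_mul_of_nonneg_right hL'.le hrs1
      nlinarith
    · have hs'' : s < 1 := lt_of_not_ge hs'
      by_cases hr1 : 1 ≤ r
      · have h1 : 0 ≤ L * (r - s) := mul_nonneg hLpos.le (by linarith)
        have h2 : 0 ≤ (1 - s) * (r - 1) := mul_nonneg (by linarith) (by linarith)
        linarith
      · have hr1' : r < 1 := lt_of_not_ge hr1
        -- `y = 1 - r`, `t = - s ≥ y`
        have hy0 : 0 < 1 - r := by linarith
        have hy1 : 1 - r < 1 := by linarith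
        have hst : 1 - r ≤ -s := by linarith
        have h2 : 2 * (r - s) ≤ L * (r - s) :=
          mul_le_mul_of_nonneg_right hL.le (by linarith)
        have h3 : 0 ≤ 2 * (r - s) + (1 - s) * (r - 1) := by
          set y := 1 - r with hy
          set t := -s with ht
          have hr' : r = 1 - y := by rw [hy]; ring
          have hs' : s = -t := by rw [ht]; ring
          rw [hr', hs']
          nlinarith [mul_nonneg hy0.le (sub_nonneg.2 hst), mul_nonneg (sub_nonneg.2 hy1.le) hy0.le,
            mul_pos hy0 hy0]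
        linarith
  have hpos : 0 < L + r - 1 := by
    have : 0 < r - s := by linarith
    by_contra hneg
    have hneg' : L + r - 1 ≤ 0 := not_lt.1 hneg
    have hr1 : r < 1 := by linarith
    have hsr : s ≤ r - 1 := by linarith
    -- `s < 0` and `r - 1 ≤ - L < -2`, impossible since `r > 0`
    linarith
  have e : (2 / L) * (1 + (r - 1) / L) = 2 * (L + r - 1) / L ^ 2 := by
    field_simp
    ring
  rw [e, div_le_div_iff₀ hlpos (by positivity)]
  nlinarith

/-- The pointwise claim. -/
lemma pointwise_claim {c S r L lam : ℝ} (hL : 2 < L) (hr : 0 < r) (h1 : S ^ 2 ≤ c)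
    (h2 : S ^ 2 / 2 * (L + 1 - Real.log r) ≤ c) :
    2 * lam * S - lam ^ 2 * ((2 / L) * (1 + (r - 1) / L)) ≤ c := by
  by_cases hl : L + 1 - Real.log r ≤ 2
  · have hv := v_ge_one hL hr hl
    have hlam : 0 ≤ lam ^ 2 := sq_nonneg lam
    have : lam ^ 2 * 1 ≤ lam ^ 2 * ((2 / L) * (1 + (r - 1) / L)) :=
      mul_le_mul_of_nonneg_left hv hlam
    nlinarith [sq_nonneg (S - lam)]
  · have hl' : 2 < L + 1 - Real.log r := lt_of_not_ge hl
    have hv := v_ge_two_div hL hr hl'
    have hlam : 0 ≤ lam ^ 2 := sq_nonneg lam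
    set l := L + 1 - Real.log r with hldef
    have hlpos : 0 < l := by linarith
    have h3 : lam ^ 2 * (2 / l) ≤ lam ^ 2 * ((2 / L) * (1 + (r - 1) / L)) :=
      mul_le_mul_of_nonneg_left hv hlam
    have h4 : 2 * lam * S - lam ^ 2 * (2 / l) ≤ S ^ 2 / 2 * l := by
      have e : S ^ 2 / 2 * l - (2 * lam * S - lam ^ 2 * (2 / l))
          = (S * l - 2 * lam) ^ 2 / (2 * l) := by
        field_simp
        ring
      have : 0 ≤ (S * l - 2 * lam) ^ 2 / (2 * l) := by positivity
      linarith
    linarith

theorem key {n : ℕ} (A B : (Fin n → Bool) → ℝ) (hA : ∀ y, 0 < A y ∧ A y < 1) (hB : ∀ y, 0 < B y ∧ B y < 1) :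
    (avg A - avg B) ^ 2 / 2 *
      Real.log (1 / (2 * Real.exp 1 * ((avg (fun y => Hb (A y)) + avg (fun y => Hb (B y))) / 2)))
      ≤ avg (fun y => cc (A y) (B y)) := by
  set a := avg (fun y => Hb (A y)) with ha
  set b := avg (fun y => Hb (B y)) with hb
  set ω := (a + b) / 2 with hω
  set L := Real.log (1 / (2 * Real.exp 1 * ω)) with hL
  set δ := avg A - avg B with hδ
  have hAHb : ∀ y, 0 < Hb (A y) := fun y => Hb_pos (hA y).1 (hA y).2
  have hBHb : ∀ y, 0 < Hb (B y) := fun y => Hb_pos (hB y).1 (hB y).2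
  have hcube : (0 : ℝ) < 2 ^ n := by positivity
  have ha_pos : 0 < a := by
    rw [ha]
    unfold avg
    apply div_pos _ hcube
    apply sum_pos (fun y _ => hAHb y)
    exact ⟨fun _ => true, mem_univ _⟩
  have hb_pos : 0 < b := by
    rw [hb]
    unfold avg
    apply div_pos _ hcube
    apply sum_pos (fun y _ => hBHb y)
    exact ⟨fun _ => true, mem_univ _⟩
  have hω_pos : 0 < ω := by rw [hω]; positivity
  -- average of `S`
  have hS : avg (fun y => A y - B y) = δ := by
    rw [hδ]
    unfold avg
    rw [sum_sub_distrib]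
    ring
  -- quadratic lower bound
  have hquad : ∀ y, (A y - B y) ^ 2 ≤ cc (A y) (B y) := fun y =>
    cc_ge_sq (hA y).1 (hA y).2 (hB y).1 (hB y).2
  by_cases hL2 : L ≤ 2
  · -- small `L`: Jensen
    have h1 : avg (fun y => 2 * δ * (A y - B y) + (- δ ^ 2)) ≤ avg (fun y => cc (A y) (B y)) := by
      apply avg_mono'
      intro y
      nlinarith [hquad y, sq_nonneg (A y - B y - δ)]
    rw [avg_add, avg_const_mul, hS, avg_const'] at h1
    have h2 : δ ^ 2 / 2 * L ≤ δ ^ 2 := by nlinarith [sq_nonneg δ]
    nlinarith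
  · have hL2' : 2 < L := lt_of_not_ge hL2
    have hLpos : 0 < L := by linarith
    set r : (Fin n → Bool) → ℝ := fun y => (Hb (A y) + Hb (B y)) / (2 * ω) with hr
    have hr_pos : ∀ y, 0 < r y := fun y => by
      have := hAHb y
      have := hBHb y
      rw [hr]
      positivity
    have hr_avg : avg r = 1 := by
      have : avg r = (a + b) / (2 * ω) := by
        rw [ha, hb, hr]
        unfold avg
        rw [sum_congr rfl (fun y _ => div_eq_mul_inv (Hb (A y) + Hb (B y)) (2 * ω)),
          ← sum_mul, sum_add_distrib]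
        field_simp
      rw [this, hω]
      have : a + b ≠ 0 := by positivity
      field_simp
    -- logarithm of the pointwise entropy
    have hlog : ∀ y, Real.log (1 / (Hb (A y) + Hb (B y))) = L + 1 - Real.log (r y) := fun y => by
      have h1 : 0 < Hb (A y) + Hb (B y) := add_pos (hAHb y) (hBHb y)
      have h2 : Hb (A y) + Hb (B y) = (2 * ω) * r y := by
        rw [hr]
        field_simp
      have h3 : L = - (Real.log (2 * ω) + 1) := by
        rw [hL, one_div, Real.log_inv]
        have e : 2 * Real.exp 1 * ω = Real.exp 1 * (2 * ω) := by ring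
        rw [e, Real.log_mul (Real.exp_ne_zero 1) (by positivity), Real.log_exp]
        ring
      rw [one_div, Real.log_inv, h2, Real.log_mul (by positivity) (hr_pos y).ne', h3]
      ring
    set lam := δ * L / 2 with hlam
    have hpt : ∀ y, 2 * lam * (A y - B y) - lam ^ 2 * ((2 / L) * (1 + (r y - 1) / L))
        ≤ cc (A y) (B y) := fun y => by
      apply pointwise_claim hL2' (hr_pos y) (hquad y)
      rw [← hlog y]
      exact cc_ge_log (hA y).1 (hA y).2 (hB y).1 (hB y).2
    have h1 := avg_mono' hpt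
    have h2 : avg (fun y => 2 * lam * (A y - B y) - lam ^ 2 * ((2 / L) * (1 + (r y - 1) / L)))
        = 2 * lam * δ - lam ^ 2 * (2 / L) := by
      have e : ∀ y, 2 * lam * (A y - B y) - lam ^ 2 * ((2 / L) * (1 + (r y - 1) / L))
          = 2 * lam * (A y - B y) + (- (lam ^ 2 * (2 / L) / L)) * r y
            + (- (lam ^ 2 * (2 / L) * (1 - 1 / L))) := fun y => by
        field_simp
        ring
      simp_rw [e]
      rw [avg_add, avg_add, avg_const_mul, avg_const_mul, hS, hr_avg, avg_const']
      field_simp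
      ring
    rw [h2] at h1
    have h3 : 2 * lam * δ - lam ^ 2 * (2 / L) = δ ^ 2 / 2 * L := by
      rw [hlam]
      field_simp
      ring
    rw [h3] at h1
    exact h1

end Vale.Agent.Lib.P322Low
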