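import Vale.Agent.Lib.P322Low.Defs

open Finset BigOperators

namespace Vale.Agent.Lib.P322Low

open Vale.Agent.Lib.P322

/-- `ln((1+s)/(1-s)) ≥ 2 s` for `0 ≤ s < 1`. -/
lemma log_ratio_ge {s : ℝ} (h0 : 0 ≤ s) (h1 : s < 1) :
    2 * s ≤ Real.log (1 + s) - Real.log (1 - s) := by
  have habs : |s| < 1 := by rw [abs_of_nonneg h0]; exact h1
  have hs := Real.hasSum_log_sub_log_of_abs_lt_one habs
  have := le_hasSum hs 0 (fun j _ => by positivity)
  simpa using this

/-- `(1+s) ln(1+s) + (1-s) ln(1-s) ≥ s^2` on `[0,1)`. -/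
lemma hh_ge_of_nonneg {s : ℝ} (h0 : 0 ≤ s) (h1 : s < 1) :
    s ^ 2 ≤ (1 + s) * Real.log (1 + s) + (1 - s) * Real.log (1 - s) := by
  set F : ℝ → ℝ := fun t => (1 + t) * Real.log (1 + t) + (1 - t) * Real.log (1 - t) - t ^ 2 with hF
  have hder : ∀ t ∈ Set.Ico (0 : ℝ) 1, HasDerivAt F (Real.log (1 + t) - Real.log (1 - t) - 2 * t) t := by
    intro t ht
    have h1t : (1 + t) ≠ 0 := by have := ht.1; linarith
    have h2t : (1 - t) ≠ 0 := by have := ht.2; linarith
    have d1 : HasDerivAt (fun t : ℝ => 1 + t) 1 t := by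
      simpa using (hasDerivAt_id t).const_add 1
    have d2 : HasDerivAt (fun t : ℝ => 1 - t) (-1) t := by
      simpa using (hasDerivAt_id t).const_sub 1
    have e1 := d1.mul (d1.log h1t)
    have e2 := d2.mul (d2.log h2t)
    have e3 := (hasDerivAt_pow 2 t)
    have := (e1.add e2).sub e3
    refine this.congr_deriv ?_
    field_simp
    ring
  have hmono : MonotoneOn F (Set.Ico 0 1) := by
    apply monotoneOn_of_deriv_nonneg (convex_Ico 0 1)
    · intro t ht
      exact (hder t ht).continuousAt.continuousWithinAt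
    · intro t ht
      rw [interior_Ico] at ht
      exact (hder t ⟨ht.1.le, ht.2⟩).differentiableAt.differentiableWithinAt
    · intro t ht
      rw [interior_Ico] at ht
      rw [(hder t ⟨ht.1.le, ht.2⟩).deriv]
      have := log_ratio_ge ht.1.le ht.2
      linarith
  have := hmono (⟨le_refl _, by norm_num⟩ : (0 : ℝ) ∈ Set.Ico (0 : ℝ) 1) ⟨h0, h1⟩ h0
  simp only [hF] at this
  norm_num at this
  linarith

/-- `(1+s) ln(1+s) + (1-s) ln(1-s) ≥ s^2` on `(-1,1)`. -/
lemma hh_ge {s : ℝ} (h0 : -1 < s) (h1 : s < 1) :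
    s ^ 2 ≤ (1 + s) * Real.log (1 + s) + (1 - s) * Real.log (1 - s) := by
  rcases le_total 0 s with h | h
  · exact hh_ge_of_nonneg h h1
  · have := hh_ge_of_nonneg (s := -s) (by linarith) (by linarith)
    have e1 : (1 + -s) = 1 - s := by ring
    have e2 : (1 - -s) = 1 + s := by ring
    rw [e1, e2] at this
    nlinarith

lemma J_ge {a b : ℝ} (ha : 0 < a) (ha1 : a < 1) (hb : 0 < b) (hb1 : b < 1) :
    (a - b) ^ 2 / (8 * ((a + b) / 2) * (1 - (a + b) / 2)) ≤ Hb ((a + b) / 2) - Hb a / 2 - Hb b / 2 := by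
  set p := (a + b) / 2 with hp
  set q := (a - b) / 2 with hq
  have hp0 : 0 < p := by rw [hp]; linarith
  have hp1 : 0 < 1 - p := by rw [hp]; linarith
  have hap : a = p + q := by rw [hp, hq]; ring
  have hbp : b = p - q := by rw [hp, hq]; ring
  set s := q / p with hs
  set t := q / (1 - p) with ht
  have hq1 : q = s * p := by rw [hs]; field_simp
  have hq2 : q = t * (1 - p) := by rw [ht]; field_simp
  have hs1 : -1 < s := by
    rw [hs, lt_div_iff₀ hp0]; rw [hq, hp]; linarith
  have hs2 : s < 1 := by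
    rw [hs, div_lt_iff₀ hp0]; rw [hq, hp]; linarith
  have ht1 : -1 < t := by
    rw [ht, lt_div_iff₀ hp1]; rw [hq, hp]; linarith
  have ht2 : t < 1 := by
    rw [ht, div_lt_iff₀ hp1]; rw [hq, hp]; linarith
  have e1 : a = p * (1 + s) := by rw [hap, hq1]; ring
  have e2 : b = p * (1 - s) := by rw [hbp, hq1]; ring
  have e3 : 1 - a = (1 - p) * (1 - t) := by
    have : 1 - a = (1 - p) - q := by rw [hap]; ring
    rw [this, hq2]; ring
  have e4 : 1 - b = (1 - p) * (1 + t) := by
    have : 1 - b = (1 - p) + q := by rw [hbp]; ring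
    rw [this, hq2]; ring
  have p1s : 0 < 1 + s := by linarith
  have p2s : 0 < 1 - s := by linarith
  have p1t : 0 < 1 + t := by linarith
  have p2t : 0 < 1 - t := by linarith
  have la : Real.log a = Real.log p + Real.log (1 + s) := by
    rw [e1, Real.log_mul hp0.ne' p1s.ne']
  have lb : Real.log b = Real.log p + Real.log (1 - s) := by
    rw [e2, Real.log_mul hp0.ne' p2s.ne']
  have la' : Real.log (1 - a) = Real.log (1 - p) + Real.log (1 - t) := by
    rw [e3, Real.log_mul hp1.ne' p2t.ne']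
  have lb' : Real.log (1 - b) = Real.log (1 - p) + Real.log (1 + t) := by
    rw [e4, Real.log_mul hp1.ne' p1t.ne']
  have key : Hb p - Hb a / 2 - Hb b / 2 =
      p / 2 * ((1 + s) * Real.log (1 + s) + (1 - s) * Real.log (1 - s)) +
      (1 - p) / 2 * ((1 + t) * Real.log (1 + t) + (1 - t) * Real.log (1 - t)) := by
    unfold Hb
    rw [la, lb, la', lb', e3, e4, e1, e2]
    ring
  rw [key]
  have h1 := hh_ge hs1 hs2
  have h2 := hh_ge ht1 ht2
  have h3 : p / 2 * s ^ 2 + (1 - p) / 2 * t ^ 2 ≤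
      p / 2 * ((1 + s) * Real.log (1 + s) + (1 - s) * Real.log (1 - s)) +
      (1 - p) / 2 * ((1 + t) * Real.log (1 + t) + (1 - t) * Real.log (1 - t)) := by
    have := mul_le_mul_of_nonneg_left h1 (by positivity : 0 ≤ p / 2)
    have := mul_le_mul_of_nonneg_left h2 (by positivity : 0 ≤ (1 - p) / 2)
    linarith
  refine le_trans (le_of_eq ?_) h3
  have hab : a - b = 2 * q := by rw [hq]; ring
  rw [hab, hs, ht]
  field_simp
  ring

lemma T_aux {k1 k2 x y : ℝ} (h1 : 0 < k1) (h2 : 0 < k2) (hx : 0 < x) (hy : 0 < y) (hxy : x + y = 2) :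
    k1 * Real.log x + k2 * Real.log y ≤ (k1 - k2) ^ 2 / (k1 + k2) := by
  have hK : 0 < k1 + k2 := by linarith
  set y1 := 2 * k1 / (k1 + k2) with hy1
  set y2 := 2 * k2 / (k1 + k2) with hy2
  have py1 : 0 < y1 := by positivity
  have py2 : 0 < y2 := by positivity
  have l1 : Real.log x ≤ x / y1 + y1 - 2 := by
    have a1 := Real.log_le_sub_one_of_pos (div_pos hx py1)
    have a2 := Real.log_le_sub_one_of_pos py1
    rw [Real.log_div hx.ne' py1.ne'] at a1
    linarith
  have l2 : Real.log y ≤ y / y2 + y2 - 2 := by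
    have a1 := Real.log_le_sub_one_of_pos (div_pos hy py2)
    have a2 := Real.log_le_sub_one_of_pos py2
    rw [Real.log_div hy.ne' py2.ne'] at a1
    linarith
  have m1 := mul_le_mul_of_nonneg_left l1 h1.le
  have m2 := mul_le_mul_of_nonneg_left l2 h2.le
  have e1 : k1 * (x / y1 + y1 - 2) + k2 * (y / y2 + y2 - 2) = (k1 - k2) ^ 2 / (k1 + k2) := by
    have hxe : x = 2 - y := by linarith
    rw [hy1, hy2, hxe]
    field_simp
    ring
  linarith

lemma T_le {a b x y : ℝ} (ha : 0 < a) (ha1 : a < 1) (hb : 0 < b) (hb1 : b < 1) (hx : 0 < x) (hy : 0 < y)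
    (hxy : x + y = 2) :
    a * (1 - a) * Real.log x + b * (1 - b) * Real.log y ≤ 4 * (Hb ((a + b) / 2) - Hb a / 2 - Hb b / 2) := by
  have k1 : 0 < a * (1 - a) := mul_pos ha (by linarith)
  have k2 : 0 < b * (1 - b) := mul_pos hb (by linarith)
  have h1 := T_aux k1 k2 hx hy hxy
  have h2 := J_ge ha ha1 hb hb1
  refine h1.trans (le_trans ?_ (mul_le_mul_of_nonneg_left h2 (by norm_num : (0 : ℝ) ≤ 4)))
  set σ := a + b with hσ
  set D := a - b with hD
  have hσ0 : 0 < σ := by rw [hσ]; linarith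
  have hσ2 : 0 < 2 - σ := by rw [hσ]; linarith
  have hk : a * (1 - a) + b * (1 - b) = (σ * (2 - σ) - D ^ 2) / 2 := by
    rw [hσ, hD]; ring
  have hkd : a * (1 - a) - b * (1 - b) = D * (1 - σ) := by
    rw [hσ, hD]; ring
  have hDle : D ^ 2 ≤ (σ * (2 - σ)) ^ 2 := by
    have g1 : D ≤ σ * (2 - σ) := by
      rw [hσ, hD]; nlinarith [mul_pos ha hb, mul_pos ha (by linarith : 0 < 1 - a), mul_pos hb (by linarith : 0 < 1 - b)]
    have g2 : -D ≤ σ * (2 - σ) := by
      rw [hσ, hD]; nlinarith [mul_pos ha hb, mul_pos ha (by linarith : 0 < 1 - a), mul_pos hb (by linarith : 0 < 1 - b)]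
    nlinarith
  have hkpos : 0 < (σ * (2 - σ) - D ^ 2) / 2 := by rw [← hk]; positivity
  rw [hk, hkd]
  have e : (8 * (σ / 2) * (1 - σ / 2)) = 2 * (σ * (2 - σ)) := by ring
  rw [e]
  rw [show 4 * (D ^ 2 / (2 * (σ * (2 - σ)))) = 2 * D ^ 2 / (σ * (2 - σ)) by field_simp; ring]
  rw [div_le_div_iff₀ hkpos (by positivity)]
  nlinarith [mul_nonneg (sq_nonneg D) (sub_nonneg.mpr hDle), sq_nonneg D, sq_nonneg (1 - σ), mul_pos hσ0 hσ2]

theorem step {a b w1 w2 C : ℝ} (ha : 0 < a) (ha1 : a < 1) (hb : 0 < b) (hb1 : b < 1) (h1 : 0 < w1) (h2 : 0 < w2)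
    (hC : (a - b) ^ 2 / 2 * Real.log (1 / (2 * Real.exp 1 * ((w1 + w2) / 2))) ≤ C) :
    Psi ((a + b) / 2) ((w1 + w2) / 2) ≤ C + Psi a w1 / 2 + Psi b w2 / 2 := by
  set w := (w1 + w2) / 2 with hw
  have hwp : 0 < w := by rw [hw]; linarith
  set x := w1 / w with hx
  set y := w2 / w with hy
  have px : 0 < x := div_pos h1 hwp
  have py : 0 < y := div_pos h2 hwp
  have hxy : x + y = 2 := by
    rw [hx, hy, ← add_div, div_eq_iff hwp.ne', hw]; ring
  have hT := T_le ha ha1 hb hb1 px py hxy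
  set L := Real.log (1 / (2 * Real.exp 1 * w)) with hL
  have he : 0 < 2 * Real.exp 1 * w := by positivity
  have l1 : Real.log (1 / (2 * Real.exp 1 * w1)) = L - Real.log x := by
    have : 1 / (2 * Real.exp 1 * w1) = (1 / (2 * Real.exp 1 * w)) / x := by
      rw [hx]; field_simp
    rw [this, Real.log_div (by positivity) px.ne']
  have l2 : Real.log (1 / (2 * Real.exp 1 * w2)) = L - Real.log y := by
    have : 1 / (2 * Real.exp 1 * w2) = (1 / (2 * Real.exp 1 * w)) / y := by
      rw [hy]; field_simp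
    rw [this, Real.log_div (by positivity) py.ne']
  unfold Psi
  rw [l1, l2, ← hL]
  have hid : 2 * ((a + b) / 2) * (1 - (a + b) / 2) * L =
      (a - b) ^ 2 / 2 * L + a * (1 - a) * L + b * (1 - b) * L := by ring
  rw [hid]
  have e1 : 2 * a * (1 - a) * (L - Real.log x) / 2 = a * (1 - a) * L - a * (1 - a) * Real.log x := by ring
  have e2 : 2 * b * (1 - b) * (L - Real.log y) / 2 = b * (1 - b) * L - b * (1 - b) * Real.log y := by ring
  have e3 : (2 * a * (1 - a) * (L - Real.log x) - 4 * Hb a) / 2 =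
      a * (1 - a) * L - a * (1 - a) * Real.log x - 2 * Hb a := by ring
  have e4 : (2 * b * (1 - b) * (L - Real.log y) - 4 * Hb b) / 2 =
      b * (1 - b) * L - b * (1 - b) * Real.log y - 2 * Hb b := by ring
  rw [e3, e4]
  linarith

lemma Hb_symm (u : ℝ) : Hb (1 - u) = Hb u := by
  unfold Hb
  rw [show 1 - (1 - u) = u by ring]
  ring

lemma Psi_self_aux {u : ℝ} (h0 : 0 < u) (h1 : u ≤ 1 / 2) :
    2 * u * (1 - u) * Real.log (1 / (2 * Real.exp 1 * Hb u)) - 4 * Hb u ≤ 0 := by
  have hu1 : 0 < 1 - u := by linarith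
  have hlogu : Real.log (1 / 2) ≤ Real.log u → True := fun _ => trivial
  have l1 : Real.log (1 - u) ≤ 0 := Real.log_nonpos hu1.le (by linarith)
  have hinv : Real.log 2 ≤ - Real.log u := by
    have : Real.log u ≤ Real.log (1 / 2) := Real.log_le_log h0 h1
    rw [Real.log_div (by norm_num) (by norm_num), Real.log_one] at this
    linarith
  have hl2 : (0.6931 : ℝ) < Real.log 2 := Real.log_two_gt_d9.trans' (by norm_num)
  have hHge : u * (- Real.log u) ≤ Hb u := by
    unfold Hb
    have : 0 ≤ -((1 - u) * Real.log (1 - u)) := by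
      have := mul_nonneg hu1.le (neg_nonneg.mpr l1)
      linarith
    nlinarith
  have hHpos : 0 < Hb u := by
    have : 0 < u * (- Real.log u) := mul_pos h0 (by linarith)
    linarith
  have h2e : u ≤ 2 * Real.exp 1 * Hb u := by
    have he : (2 : ℝ) ≤ Real.exp 1 := by
      have := Real.add_one_le_exp (1 : ℝ); linarith
    have : u * 0.6931 ≤ Hb u := by
      refine le_trans ?_ hHge
      exact mul_le_mul_of_nonneg_left (by linarith) h0.le
    have h3 : u ≤ 2 * Hb u := by nlinarith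
    have h4 : 2 * Hb u ≤ 2 * Real.exp 1 * Hb u := by
      have : 1 ≤ Real.exp 1 := by linarith
      nlinarith
    linarith
  have hlog : Real.log (1 / (2 * Real.exp 1 * Hb u)) ≤ - Real.log u := by
    rw [one_div, Real.log_inv]
    have := Real.log_le_log h0 h2e
    linarith
  have hk : 0 ≤ 2 * u * (1 - u) := by positivity
  have h5 := mul_le_mul_of_nonneg_left hlog hk
  have h6 : 2 * u * (1 - u) * (- Real.log u) ≤ 2 * u * (- Real.log u) := by
    have hn : 0 ≤ - Real.log u := by linarith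
    have : 0 ≤ 2 * u * u * (- Real.log u) := by positivity
    nlinarith
  nlinarith

/-- base of the induction -/
lemma Psi_self_le {u : ℝ} (h0 : 0 < u) (h1 : u < 1) : Psi u (Hb u) ≤ 0 := by
  unfold Psi
  rcases le_total u (1 / 2) with h | h
  · exact Psi_self_aux h0 h
  · have := Psi_self_aux (u := 1 - u) (by linarith) (by linarith)
    rw [Hb_symm] at this
    have e : 2 * (1 - u) * (1 - (1 - u)) = 2 * u * (1 - u) := by ring
    rw [e] at this
    exact this

end Vale.Agent.Lib.P322Low
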