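import Vale.Agent.Lib.P322Low.Pointwise
import Vale.Agent.Lib.P322Low.Key
import Vale.Agent.Lib.P322Low.Step

open Finset BigOperators

namespace Vale.Agent.Lib.P322Low

open Vale.Agent.Lib.P322

lemma avg_pos' {n : ℕ} {g : (Fin n → Bool) → ℝ} (hg : ∀ y, 0 < g y) : 0 < avg g := by
  unfold avg
  exact div_pos (sum_pos (fun y _ => hg y) univ_nonempty) (by positivity)

lemma avg_lt_one {n : ℕ} {g : (Fin n → Bool) → ℝ} (hg : ∀ y, g y < 1) : avg g < 1 := by
  unfold avg
  have h2 : (0 : ℝ) < 2 ^ n := by positivity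
  rw [div_lt_one h2]
  have h1 : ∑ y, g y < ∑ _y : Fin n → Bool, (1 : ℝ) :=
    sum_lt_sum_of_nonempty univ_nonempty (fun y _ => hg y)
  have h3 : ∑ _y : Fin n → Bool, (1 : ℝ) = 2 ^ n := by
    simp
  linarith

lemma flip_cons_zero {n : ℕ} (c : Bool) (x : Fin n → Bool) :
    flip (Fin.cons c x : Fin (n + 1) → Bool) 0 = Fin.cons (!c) x := by
  unfold flip
  funext j
  refine Fin.cases ?_ (fun k => ?_) j
  · simp
  · simp

lemma flip_cons_succ {n : ℕ} (c : Bool) (x : Fin n → Bool) (i : Fin n) :
    flip (Fin.cons c x : Fin (n + 1) → Bool) i.succ = Fin.cons c (flip x i) := by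
  unfold flip
  funext j
  refine Fin.cases ?_ (fun k => ?_) j
  · have h0 : (0 : Fin (n + 1)) ≠ i.succ := (Fin.succ_ne_zero i).symm
    simp [Function.update_of_ne h0]
  · by_cases h : k = i
    · subst h
      simp
    · have hne : k.succ ≠ i.succ := fun e => h (Fin.succ_injective _ e)
      simp [Function.update_of_ne, hne, h]

/-- The energy splits along the first coordinate. -/
lemma En_succ {n : ℕ} (g : (Fin (n + 1) → Bool) → ℝ) :
    En g = avg (fun y : Fin n → Bool => cc (g (Fin.cons true y)) (g (Fin.cons false y)))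
      + En (fun y : Fin n → Bool => g (Fin.cons true y)) / 2
      + En (fun y : Fin n → Bool => g (Fin.cons false y)) / 2 := by
  unfold En
  rw [Fin.sum_univ_succ]
  have h0 : avg (fun y : Fin (n + 1) → Bool => cc (g y) (g (flip y 0)))
      = avg (fun y : Fin n → Bool => cc (g (Fin.cons true y)) (g (Fin.cons false y))) := by
    rw [avg_succ]
    have e1 : (fun x : Fin n → Bool => cc (g (Fin.cons true x)) (g (flip (Fin.cons true x) 0)))
        = fun y => cc (g (Fin.cons true y)) (g (Fin.cons false y)) := by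
      funext x
      rw [flip_cons_zero]
      rfl
    have e2 : (fun x : Fin n → Bool => cc (g (Fin.cons false x)) (g (flip (Fin.cons false x) 0)))
        = fun y => cc (g (Fin.cons true y)) (g (Fin.cons false y)) := by
      funext x
      rw [flip_cons_zero, cc_comm]
      rfl
    rw [e1, e2]
    ring
  have h1 : ∀ i : Fin n, avg (fun y : Fin (n + 1) → Bool => cc (g y) (g (flip y i.succ)))
      = (avg (fun y : Fin n → Bool => cc (g (Fin.cons true y)) (g (Fin.cons true (flip y i))))
        + avg (fun y : Fin n → Bool => cc (g (Fin.cons false y)) (g (Fin.cons false (flip y i))))) / 2 := by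
    intro i
    rw [avg_succ]
    have e1 : (fun x : Fin n → Bool => cc (g (Fin.cons true x)) (g (flip (Fin.cons true x) i.succ)))
        = fun y => cc (g (Fin.cons true y)) (g (Fin.cons true (flip y i))) := by
      funext x
      rw [flip_cons_succ]
    have e2 : (fun x : Fin n → Bool => cc (g (Fin.cons false x)) (g (flip (Fin.cons false x) i.succ)))
        = fun y => cc (g (Fin.cons false y)) (g (Fin.cons false (flip y i))) := by
      funext x
      rw [flip_cons_succ]
    rw [e1, e2]
  rw [h0]
  simp_rw [h1]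
  rw [← sum_div, sum_add_distrib]
  ring

/-- The functional inequality on the cube. -/
theorem fi {n : ℕ} (g : (Fin n → Bool) → ℝ) (hg : ∀ y, 0 < g y ∧ g y < 1) :
    Psi (avg g) (avg (fun y => Hb (g y))) ≤ En g := by
  induction n with
  | zero =>
    have e0 : ∀ (k : (Fin 0 → Bool) → ℝ), avg k = k default := by
      intro k
      unfold avg
      simp
      congr 1
      exact Subsingleton.elim _ _
    have hE : En g = 0 := by
      unfold En
      simp
    rw [hE, e0 g, e0 (fun y => Hb (g y))]
    exact Psi_self_le (hg _).1 (hg _).2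
  | succ n ih =>
    set g0 : (Fin n → Bool) → ℝ := fun y => g (Fin.cons true y) with hg0
    set g1 : (Fin n → Bool) → ℝ := fun y => g (Fin.cons false y) with hg1
    have h0 : ∀ y, 0 < g0 y ∧ g0 y < 1 := fun y => hg _
    have h1 : ∀ y, 0 < g1 y ∧ g1 y < 1 := fun y => hg _
    have ha := avg_pos' (fun y => (h0 y).1)
    have ha1 := avg_lt_one (fun y => (h0 y).2)
    have hb := avg_pos' (fun y => (h1 y).1)
    have hb1 := avg_lt_one (fun y => (h1 y).2)
    have hw1 : 0 < avg (fun y => Hb (g0 y)) := avg_pos' (fun y => Hb_pos (h0 y).1 (h0 y).2)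
    have hw2 : 0 < avg (fun y => Hb (g1 y)) := avg_pos' (fun y => Hb_pos (h1 y).1 (h1 y).2)
    have hk := key g0 g1 h0 h1
    have hs := step ha ha1 hb hb1 hw1 hw2 hk
    have i0 := ih g0 h0
    have i1 := ih g1 h1
    have ea : avg g = (avg g0 + avg g1) / 2 := avg_succ g
    have ew : avg (fun y => Hb (g y))
        = (avg (fun y => Hb (g0 y)) + avg (fun y => Hb (g1 y))) / 2 :=
      avg_succ (fun y => Hb (g y))
    rw [ea, ew, En_succ g]
    linarith

end Vale.Agent.Lib.P322Low
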