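import Vale.Agent.Lib.P322Low.Defs

open Finset BigOperators

namespace Vale.Agent.Lib.P322Low

open Vale.Agent.Lib.P322

lemma Hb_pos {u : ℝ} (h0 : 0 < u) (h1 : u < 1) : 0 < Hb u := by
  unfold Hb
  have h2 : Real.log u < 0 := Real.log_neg h0 h1
  have h3 : Real.log (1 - u) < 0 := Real.log_neg (by linarith) (by linarith)
  have h4 : u * Real.log u < 0 := mul_neg_of_pos_of_neg h0 h2
  have h5 : (1 - u) * Real.log (1 - u) < 0 := mul_neg_of_pos_of_neg (by linarith) h3
  linarith

lemma Hb_nonneg {u : ℝ} (h0 : 0 ≤ u) (h1 : u ≤ 1) : 0 ≤ Hb u := by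
  unfold Hb
  have h2 : Real.log u ≤ 0 := Real.log_nonpos h0 h1
  have h3 : Real.log (1 - u) ≤ 0 := Real.log_nonpos (by linarith) (by linarith)
  have h4 : u * Real.log u ≤ 0 := mul_nonpos_of_nonneg_of_nonpos h0 h2
  have h5 : (1 - u) * Real.log (1 - u) ≤ 0 := mul_nonpos_of_nonneg_of_nonpos (by linarith) h3
  linarith

lemma Hb_le_log_two {u : ℝ} (_h0 : 0 ≤ u) (_h1 : u ≤ 1) : Hb u ≤ Real.log 2 := by
  have h := Real.binEntropy_le_log_two (p := u)
  have e : Hb u = Real.binEntropy u := by
    unfold Hb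
    rw [Real.binEntropy_eq_negMulLog_add_negMulLog_one_sub]
    unfold Real.negMulLog
    ring
  rw [e]
  exact h

/-- `logit u - 4 u` is monotone. -/
lemma logit_sub_mono : MonotoneOn (fun x : ℝ => logit x - 4 * x) (Set.Ioo 0 1) := by
  have hderiv : ∀ x ∈ Set.Ioo (0 : ℝ) 1,
      HasDerivAt (fun x : ℝ => logit x - 4 * x) (1 / x + 1 / (1 - x) - 4) x := by
    intro x hx
    have h1 : HasDerivAt Real.log (1 / x) x := by
      simpa using Real.hasDerivAt_log hx.1.ne'
    have h2 : HasDerivAt (fun x : ℝ => Real.log (1 - x)) ((-1) / (1 - x)) x := by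
      have h3 : HasDerivAt (fun x : ℝ => 1 - x) (-1) x := by
        simpa using (hasDerivAt_id x).const_sub 1
      exact h3.log (by linarith [hx.2])
    have h4 : HasDerivAt (fun x : ℝ => 4 * x) 4 x := by
      simpa using (hasDerivAt_id x).const_mul 4
    have h5 := (h1.sub h2).sub h4
    have e : 1 / x - -1 / (1 - x) - 4 = 1 / x + 1 / (1 - x) - 4 := by ring
    rw [e] at h5
    exact h5
  apply monotoneOn_of_deriv_nonneg (convex_Ioo 0 1)
  · intro x hx
    exact (hderiv x hx).continuousAt.continuousWithinAt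
  · intro x hx
    rw [interior_Ioo] at hx
    exact (hderiv x hx).differentiableAt.differentiableWithinAt
  · intro x hx
    rw [interior_Ioo] at hx
    rw [(hderiv x hx).deriv]
    have h0 := hx.1
    have h1 : 0 < 1 - x := by linarith [hx.2]
    have e : 1 / x + 1 / (1 - x) - 4 = (1 - 2 * x) ^ 2 / (x * (1 - x)) := by
      field_simp
      ring
    rw [e]
    positivity

lemma cc_comm (u v : ℝ) : cc u v = cc v u := by
  unfold cc; ring

lemma cc_ge_sq_aux {u v : ℝ} (hv : 0 < v) (hu1 : u < 1) (hvu : v ≤ u) :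
    (u - v) ^ 2 ≤ cc u v := by
  have hm := logit_sub_mono (a := v) (b := u) ⟨hv, by linarith⟩ ⟨by linarith, hu1⟩ hvu
  simp only at hm
  unfold cc
  have h1 : 4 * (u - v) ≤ logit u - logit v := by linarith
  have h2 : 0 ≤ u - v := by linarith
  nlinarith

/-- logit has slope at least 4 -/
lemma cc_ge_sq {u v : ℝ} (hu : 0 < u) (hu1 : u < 1) (hv : 0 < v) (hv1 : v < 1) :
    (u - v) ^ 2 ≤ cc u v := by
  rcases le_total v u with h | h
  · exact cc_ge_sq_aux hv hu1 h
  · have := cc_ge_sq_aux hu hv1 h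
    rw [cc_comm]
    nlinarith

lemma cc_nonneg {u v : ℝ} (hu : 0 < u) (hu1 : u < 1) (hv : 0 < v) (hv1 : v < 1) : 0 ≤ cc u v :=
  (sq_nonneg _).trans (cc_ge_sq hu hu1 hv hv1)

/-- The auxiliary logarithm. -/
noncomputable def pp (t : ℝ) : ℝ := -Real.log (4 * t * (1 - t))

lemma pp_eq {t : ℝ} (h0 : 0 < t) (h1 : t < 1) :
    pp t = -(2 * Real.log 2) - Real.log t - Real.log (1 - t) := by
  unfold pp
  have h4 : Real.log 4 = 2 * Real.log 2 := by
    have : (4 : ℝ) = 2 ^ 2 := by norm_num
    rw [this, Real.log_pow]; norm_num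
  rw [Real.log_mul (by positivity) (by linarith), Real.log_mul (by norm_num) h0.ne', h4]
  ring

lemma pp_nonneg {t : ℝ} (h0 : 0 < t) (h1 : t < 1) : 0 ≤ pp t := by
  unfold pp
  have h2 : 0 < 4 * t * (1 - t) := by
    have : 0 < 1 - t := by linarith
    positivity
  have h3 : 4 * t * (1 - t) ≤ 1 := by nlinarith [sq_nonneg (2 * t - 1)]
  linarith [Real.log_nonpos h2.le h3]

lemma pp_one_sub (t : ℝ) : pp (1 - t) = pp t := by
  unfold pp
  congr 2
  ring

lemma logit_one_sub {t : ℝ} : logit (1 - t) = -logit t := by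
  unfold logit
  have : 1 - (1 - t) = t := by ring
  rw [this]
  ring

lemma pp_le_logit {u : ℝ} (h : 1 / 2 ≤ u) (h1 : u < 1) : pp u ≤ logit u := by
  have h0 : 0 < u := by linarith
  rw [pp_eq h0 h1]
  unfold logit
  have h2 : 0 ≤ Real.log (2 * u) := Real.log_nonneg (by linarith)
  rw [Real.log_mul (by norm_num) h0.ne'] at h2
  linarith

lemma pp_mono {u v : ℝ} (hv : 1 / 2 ≤ v) (hvu : v ≤ u) (hu : u < 1) : pp v ≤ pp u := by
  unfold pp
  have h0 : 0 < 4 * u * (1 - u) := by
    have : 0 < 1 - u := by linarith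
    have : 0 < u := by linarith
    positivity
  have h1 : 4 * u * (1 - u) ≤ 4 * v * (1 - v) := by nlinarith
  linarith [Real.log_le_log h0 h1]

/-- Convexity of logit on the upper half. -/
lemma logit_convexOn : ConvexOn ℝ (Set.Ico (1 / 2 : ℝ) 1) logit := by
  have hderiv : ∀ x ∈ Set.Ioo (0 : ℝ) 1, HasDerivAt logit (1 / x + 1 / (1 - x)) x := by
    intro x hx
    have h1 : HasDerivAt Real.log (1 / x) x := by
      simpa using Real.hasDerivAt_log hx.1.ne'
    have h2 : HasDerivAt (fun x : ℝ => Real.log (1 - x)) ((-1) / (1 - x)) x := by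
      have h3 : HasDerivAt (fun x : ℝ => 1 - x) (-1) x := by
        simpa using (hasDerivAt_id x).const_sub 1
      exact h3.log (by linarith [hx.2])
    have h5 := h1.sub h2
    have e : 1 / x - -1 / (1 - x) = 1 / x + 1 / (1 - x) := by ring
    rw [e] at h5
    exact h5
  apply MonotoneOn.convexOn_of_deriv (convex_Ico _ _)
  · intro x hx
    exact (hderiv x ⟨by linarith [hx.1], hx.2⟩).continuousAt.continuousWithinAt
  · rw [interior_Ico]
    intro x hx
    exact (hderiv x ⟨by linarith [hx.1], hx.2⟩).differentiableAt.differentiableWithinAt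
  · rw [interior_Ico]
    intro a ha b hb hab
    rw [(hderiv a ⟨by linarith [ha.1], ha.2⟩).deriv, (hderiv b ⟨by linarith [hb.1], hb.2⟩).deriv]
    have ha1 : 0 < a := by linarith [ha.1]
    have ha2 : 0 < 1 - a := by linarith [ha.2]
    have hb1 : 0 < b := by linarith [hb.1]
    have hb2 : 0 < 1 - b := by linarith [hb.2]
    have e1 : 1 / a + 1 / (1 - a) = 1 / (a * (1 - a)) := by field_simp; ring
    have e2 : 1 / b + 1 / (1 - b) = 1 / (b * (1 - b)) := by field_simp; ring
    rw [e1, e2]
    apply one_div_le_one_div_of_le (by positivity)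
    nlinarith [ha.1, hb.1]

lemma logit_half : logit (1 / 2) = 0 := by
  unfold logit
  norm_num

lemma logit_nonneg {u : ℝ} (h : 1 / 2 ≤ u) (h1 : u < 1) : 0 ≤ logit u := by
  have := pp_nonneg (t := u) (by linarith) h1
  exact this.trans (pp_le_logit h h1)

/-- The chord inequality on the upper half. -/
lemma logit_chord {u v : ℝ} (hv : 1 / 2 ≤ v) (hvu : v < u) (hu : u < 1) :
    2 * (u - v) * logit u ≤ logit u - logit v := by
  have hc := logit_convexOn
  have hpos : 0 < u - 1 / 2 := by linarith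
  set lam : ℝ := (u - v) / (u - 1 / 2) with hlam
  have h0 : 0 ≤ lam := by
    apply div_nonneg <;> linarith
  have h1 : lam ≤ 1 := by
    rw [hlam, div_le_one hpos]; linarith
  have hlm : lam * (u - 1 / 2) = u - v := by
    rw [hlam]; exact div_mul_cancel₀ _ hpos.ne'
  have hv' : v = lam * (1 / 2) + (1 - lam) * u := by
    linear_combination hlm
  have hconv := hc.2 (x := 1 / 2) (y := u) ⟨le_refl _, by norm_num⟩ ⟨by linarith, hu⟩ h0
    (by linarith : 0 ≤ 1 - lam) (by ring)
  simp only [smul_eq_mul, logit_half, mul_zero, zero_add] at hconv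
  rw [← hv'] at hconv
  have hL := logit_nonneg (u := u) (by linarith) hu
  have h2 : 2 * (u - v) ≤ lam := by
    rw [hlam, le_div_iff₀ hpos]
    have : u - 1 / 2 ≤ 1 / 2 := by linarith
    have h3 : 0 ≤ u - v := by linarith
    nlinarith
  have h3 : 2 * (u - v) * logit u ≤ lam * logit u := mul_le_mul_of_nonneg_right h2 hL
  have h4 : logit v ≤ (1 - lam) * logit u := by simpa using hconv
  nlinarith

/-- The main inequality between `pp` and `logit`. -/
lemma pp_logit_main {u v : ℝ} (hv0 : 0 < v) (hvu : v < u) (hu1 : u < 1) :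
    (u - v) * (pp u + pp v) ≤ logit u - logit v := by
  have hu0 : 0 < u := by linarith
  have hv1 : v < 1 := by linarith
  have hpu := pp_nonneg hu0 hu1
  have hpv := pp_nonneg hv0 hv1
  have hd : 0 < u - v := by linarith
  by_cases h1 : 1 / 2 ≤ v
  · have h2 := logit_chord h1 hvu hu1
    have h3 := pp_le_logit (u := u) (by linarith) hu1
    have h4 := pp_mono h1 hvu.le hu1
    have h5 : pp u + pp v ≤ 2 * logit u := by linarith
    have h6 := mul_le_mul_of_nonneg_left h5 hd.le
    nlinarith
  · push Not at h1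
    by_cases h2 : 1 / 2 ≤ u
    · have hle : u - v ≤ 1 := by linarith
      have h3 := pp_le_logit h2 hu1
      have h4 : pp v ≤ -logit v := by
        rw [pp_eq hv0 hv1]
        unfold logit
        have h5 : 0 ≤ Real.log (2 * (1 - v)) := Real.log_nonneg (by linarith)
        rw [Real.log_mul (by norm_num) (by linarith)] at h5
        linarith
      have h5 : (u - v) * (pp u + pp v) ≤ 1 * (pp u + pp v) :=
        mul_le_mul_of_nonneg_right hle (by linarith)
      linarith
    · push Not at h2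
      have h3 := logit_chord (u := 1 - v) (v := 1 - u) (by linarith) (by linarith) (by linarith)
      have h4 := pp_le_logit (u := 1 - v) (by linarith) (by linarith)
      have h5 := pp_mono (u := 1 - v) (v := 1 - u) (by linarith) (by linarith) (by linarith)
      rw [logit_one_sub, logit_one_sub] at h3
      rw [logit_one_sub, pp_one_sub] at h4
      rw [pp_one_sub, pp_one_sub] at h5
      have h6 : pp u + pp v ≤ 2 * (-logit v) := by linarith
      have h7 := mul_le_mul_of_nonneg_left h6 hd.le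
      have e : (1 - v) - (1 - u) = u - v := by ring
      rw [e] at h3
      nlinarith

lemma Hb_ge {u : ℝ} (h0 : 0 < u) (h1 : u < 1) : 2 * u * (1 - u) ≤ Hb u := by
  unfold Hb
  have h2 : Real.log u ≤ u - 1 := Real.log_le_sub_one_of_pos h0
  have h3 : Real.log (1 - u) ≤ (1 - u) - 1 := Real.log_le_sub_one_of_pos (by linarith)
  have h4 : 0 < 1 - u := by linarith
  nlinarith

/-- The bound on the logarithm of the sum of entropies. -/
lemma log_sum_le {u v : ℝ} (hu : 0 < u) (hu1 : u < 1) (hv : 0 < v) (hv1 : v < 1) :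
    Real.log (1 / (Hb u + Hb v)) ≤ (pp u + pp v) / 2 := by
  have hA : 0 < 4 * u * (1 - u) := by
    have : 0 < 1 - u := by linarith
    positivity
  have hB : 0 < 4 * v * (1 - v) := by
    have : 0 < 1 - v := by linarith
    positivity
  have hS : 0 < Hb u + Hb v := by linarith [Hb_pos hu hu1, Hb_pos hv hv1]
  have h1 : (4 * u * (1 - u) + 4 * v * (1 - v)) / 2 ≤ Hb u + Hb v := by
    linarith [Hb_ge hu hu1, Hb_ge hv hv1]
  have h2 : (4 * u * (1 - u)) * (4 * v * (1 - v)) ≤ (Hb u + Hb v) ^ 2 := by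
    have h3 : 0 ≤ (4 * u * (1 - u) + 4 * v * (1 - v)) / 2 := by positivity
    have h4 := pow_le_pow_left₀ h3 h1 2
    nlinarith [sq_nonneg (4 * u * (1 - u) - 4 * v * (1 - v))]
  have h3 := Real.log_le_log (by positivity) h2
  rw [Real.log_mul hA.ne' hB.ne', Real.log_pow] at h3
  rw [one_div, Real.log_inv]
  unfold pp
  push_cast at h3
  linarith

/-- the logarithmic pointwise bound -/
lemma cc_ge_log {u v : ℝ} (hu : 0 < u) (hu1 : u < 1) (hv : 0 < v) (hv1 : v < 1) :
    (u - v) ^ 2 / 2 * Real.log (1 / (Hb u + Hb v)) ≤ cc u v := by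
  have aux : ∀ {u v : ℝ}, 0 < v → v < u → u < 1 →
      (u - v) ^ 2 / 2 * Real.log (1 / (Hb u + Hb v)) ≤ cc u v := by
    intro u v hv hvu hu1
    have hu : 0 < u := by linarith
    have hv1 : v < 1 := by linarith
    have h1 := log_sum_le hu hu1 hv hv1
    have h2 := pp_logit_main hv hvu hu1
    have hd : 0 < u - v := by linarith
    have h3 : (u - v) ^ 2 / 2 * Real.log (1 / (Hb u + Hb v))
        ≤ (u - v) ^ 2 / 2 * ((pp u + pp v) / 2) :=
      mul_le_mul_of_nonneg_left h1 (by positivity)
    have h4 : (u - v) * ((u - v) * (pp u + pp v)) ≤ (u - v) * (logit u - logit v) :=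
      mul_le_mul_of_nonneg_left h2 hd.le
    unfold cc
    nlinarith
  rcases lt_trichotomy u v with h | h | h
  · have := aux hu h hv1
    rw [cc_comm, add_comm (Hb u)]
    have e : (u - v) ^ 2 = (v - u) ^ 2 := by ring
    rw [e]
    exact this
  · subst h
    simp [cc]
  · exact aux hv h hu1

end Vale.Agent.Lib.P322Low
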