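import Vale.Agent.Lib.P322Low.Flow
import Vale.Agent.Lib.P322Low.Pointwise
import Vale.Agent.Lib.P322Low.Induct

open Finset BigOperators

namespace Vale.Agent.Lib.P322Low

open Vale.Agent.Lib.P322

lemma omega_pos {n : ℕ} (f : (Fin n → Bool) → Bool) {ε : ℝ} (h0 : 0 < ε) (h1 : ε < 1 / 2)
    (ht : ∃ x, f x = true) (hf : ∃ x, f x = false) : 0 < omega f ε :=
  omega_pos_of (fun _ h h' => Hb_pos h h') f h0 h1 ht hf

/-- the integrated inequality -/
theorem omega_bound {n : ℕ} (f : (Fin n → Bool) → Bool) {ε : ℝ} (h0 : 0 < ε) (h1 : ε < 1 / 2)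
    (ht : ∃ x, f x = true) (hf : ∃ x, f x = false) :
    2 * ε * Psi (pOne f) (omega f ε) ≤ omega f ε ∧ 0 < omega f ε :=
  omega_bound_of (fun _ h h' => Hb_pos h h') (fun _ _ a b c d => cc_nonneg a b c d)
    (fun g hg => fi g hg) f h0 h1 ht hf

end Vale.Agent.Lib.P322Low
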