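import Vale.Agent.Lib.P322Low.FlowFinal

open Finset BigOperators

namespace Vale.Agent.Lib.P322Low

open Vale.Agent.Lib.P322

/-- General integrated flow bound: any antitone lower bound `G` of the energy along the flow. -/
theorem mg_flow {n : ℕ} (f : (Fin n → Bool) → Bool) {e : ℝ} (h0 : 0 < e) (h1 : e < 1 / 2)
    (ht : ∃ x, f x = true) (hf : ∃ x, f x = false) (G : ℝ → ℝ)
    (hG : ∀ w1 w2 : ℝ, 0 < w1 → w1 ≤ w2 → G w2 ≤ G w1)
    (hEn : ∀ s, 0 < s → s < e → G (omega f s) ≤ En (noise s (ind f true))) :
    2 * e * G (omega f e) ≤ omega f e := by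
  have hE0 : ∀ s, 0 < s → s < 1 / 2 → 0 ≤ En (noise s (ind f true)) := by
    intro s hs0 hs1
    have hu : ∀ y, 0 < noise s (ind f true) y ∧ noise s (ind f true) y < 1 := fun y =>
      ⟨noise_ind_pos f hs0 hs1 true ht y, noise_ind_lt_one f hs0 hs1 hf y⟩
    unfold En
    refine sum_nonneg fun i _ => avg_nonneg fun y => ?_
    exact cc_nonneg (hu y).1 (hu y).2 (hu _).1 (hu _).2
  have hderiv : ∀ s ∈ Set.Ioo (0 : ℝ) e,
      HasDerivAt (omega f) (2 / (1 - 2 * s) * En (noise s (ind f true))) s := fun s hs =>
    hasDerivAt_omega f hs.1 (by linarith [hs.2]) ht hf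
  have hmono : MonotoneOn (omega f) (Set.Icc 0 e) := by
    refine monotoneOn_of_deriv_nonneg (convex_Icc 0 e) (continuous_omega f).continuousOn ?_ ?_
    · rw [interior_Icc]
      exact fun s hs => (hderiv s hs).differentiableAt.differentiableWithinAt
    · rw [interior_Icc]
      intro s hs
      rw [(hderiv s hs).deriv]
      have hs1 : s < 1 / 2 := by linarith [hs.2]
      exact mul_nonneg (div_nonneg (by norm_num) (by linarith)) (hE0 s hs.1 hs1)
  obtain ⟨s, hs, hs'⟩ := exists_hasDerivAt_eq_slope (omega f)
    (fun s => 2 / (1 - 2 * s) * En (noise s (ind f true))) h0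
    (continuous_omega f).continuousOn hderiv
  have hs1 : s < 1 / 2 := by linarith [hs.2]
  have hE := hE0 s hs.1 hs1
  have hEP := hEn s hs.1 hs.2
  rw [omega_zero, sub_zero, sub_zero] at hs'
  have hanti : G (omega f e) ≤ G (omega f s) := by
    refine hG _ _ (omega_pos f hs.1 hs1 ht hf) ?_
    exact hmono ⟨hs.1.le, hs.2.le⟩ ⟨h0.le, le_refl e⟩ hs.2.le
  have h2 : 2 * En (noise s (ind f true)) ≤ 2 / (1 - 2 * s) * En (noise s (ind f true)) := by
    apply mul_le_mul_of_nonneg_right _ hE
    rw [le_div_iff₀ (by linarith)]
    nlinarith [hs.1]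
  have h3 : 2 * G (omega f e) ≤ omega f e / e := by
    rw [← hs']
    linarith
  rw [le_div_iff₀ h0] at h3
  linarith

/-- The level one difference decays by the factor `1 - 2 s` along the noise. -/
lemma mg_delta_noise {n : ℕ} (f : (Fin (n + 1) → Bool) → Bool) (s : ℝ) :
    avg (fun y : Fin n → Bool => noise s (ind f true) (Fin.cons true y))
        - avg (fun y : Fin n → Bool => noise s (ind f true) (Fin.cons false y))
      = (1 - 2 * s) * (avg (fun y : Fin n → Bool => ind f true (Fin.cons true y))
        - avg (fun y : Fin n → Bool => ind f true (Fin.cons false y))) := by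
  have e1 : (fun y : Fin n → Bool => noise s (ind f true) (Fin.cons true y))
      = noise s (fun x : Fin n → Bool => bsc s true true * ind f true (Fin.cons true x)
          + bsc s false true * ind f true (Fin.cons false x)) := by
    funext y
    exact noise_succ s _ true y
  have e2 : (fun y : Fin n → Bool => noise s (ind f true) (Fin.cons false y))
      = noise s (fun x : Fin n → Bool => bsc s true false * ind f true (Fin.cons true x)
          + bsc s false false * ind f true (Fin.cons false x)) := by
    funext y
    exact noise_succ s _ false y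
  rw [e1, e2, avg_noise, avg_noise, avg_add, avg_add, avg_const_mul, avg_const_mul,
    avg_const_mul, avg_const_mul]
  simp only [bsc]
  simp
  ring

/-- The conditional entropy in nats is at most one. -/
lemma mg_omega_le {n : ℕ} (f : (Fin n → Bool) → Bool) {s : ℝ} (h0 : 0 ≤ s) (h1 : s ≤ 1 / 2) :
    omega f s ≤ 1 := by
  have hk : ∀ y, noise s (ind f true) y ≤ 1 := by
    intro y
    have hsum : noise s (ind f true) y + noise s (ind f false) y = 1 := by
      unfold noise
      rw [← sum_add_distrib]
      have : ∀ x : Fin n → Bool,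
          (∏ i, bsc s (x i) (y i)) * ind f true x + (∏ i, bsc s (x i) (y i)) * ind f false x
            = ∏ i, bsc s (x i) (y i) := by
        intro x
        unfold ind
        cases f x <;> simp
      simp only [this]
      exact sum_kernel_x s y
    have hn : 0 ≤ noise s (ind f false) y := noise_nonneg h0 h1 (ind_nonneg f false) y
    linarith
  have hlog : Real.log 2 ≤ 1 := by
    have := Real.log_two_lt_d9
    linarith
  unfold omega avg
  rw [div_le_one (by positivity)]
  calc ∑ y : Fin n → Bool, Hb (noise s (ind f true) y)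
      ≤ ∑ _y : Fin n → Bool, (1 : ℝ) := by
        refine sum_le_sum fun y _ => ?_
        exact (Hb_le_log_two (noise_nonneg h0 h1 (ind_nonneg f true) y) (hk y)).trans hlog
    _ = 2 ^ n := by
        simp [Finset.card_univ]

end Vale.Agent.Lib.P322Low
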