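import Vale.Agent.Lib.P322Low.Flow
open Finset BigOperators
namespace Vale.Agent.Lib.P322Low
open Vale.Agent.Lib.P322

/-- Triangle inequality for the influence of the noisy function. -/
theorem mg_K_lower {n : ℕ} (f : (Fin (n + 1) → Bool) → Bool) (s : ℝ) :
    avg (fun y : Fin n → Bool => |ind f true (Fin.cons true y) - ind f true (Fin.cons false y)|)
      - 2 * avg (fun y => |noise s (ind f true) y - ind f true y|)
    ≤ avg (fun y : Fin n → Bool =>
        |noise s (ind f true) (Fin.cons true y) - noise s (ind f true) (Fin.cons false y)|) := by
  have e := avg_succ (fun y => |noise s (ind f true) y - ind f true y|)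
  rw [e]
  have hsum : ∀ (a b c : (Fin n → Bool) → ℝ), (∀ y, a y ≤ b y + c y + (a y - b y - c y)) →
      avg a = avg b + avg c + avg (fun y => a y - b y - c y) := by
    intro a b c _
    unfold avg
    rw [← add_div, ← add_div, ← Finset.sum_add_distrib, ← Finset.sum_add_distrib]
    congr 1
    exact Finset.sum_congr rfl fun y _ => by ring
  have hle : avg (fun y : Fin n → Bool => |ind f true (Fin.cons true y) - ind f true (Fin.cons false y)|
        - |noise s (ind f true) (Fin.cons true y) - ind f true (Fin.cons true y)|
        - |noise s (ind f true) (Fin.cons false y) - ind f true (Fin.cons false y)|)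
      ≤ avg (fun y : Fin n → Bool =>
        |noise s (ind f true) (Fin.cons true y) - noise s (ind f true) (Fin.cons false y)|) := by
    unfold avg
    apply div_le_div_of_nonneg_right _ (by positivity)
    refine Finset.sum_le_sum fun y _ => ?_
    set p := noise s (ind f true) (Fin.cons true y)
    set q := noise s (ind f true) (Fin.cons false y)
    set a := ind f true (Fin.cons true y)
    set b := ind f true (Fin.cons false y)
    have h1 : |a - b| ≤ |p - a| + |q - b| + |p - q| := by
      have e1 : a - b = -(p - a) + (q - b) + (p - q) := by ring
      rw [e1]
      calc |-(p - a) + (q - b) + (p - q)| ≤ |-(p - a) + (q - b)| + |p - q| := abs_add_le _ _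
        _ ≤ |-(p - a)| + |q - b| + |p - q| := by
            gcongr
            exact abs_add_le _ _
        _ = |p - a| + |q - b| + |p - q| := by rw [abs_neg]
    linarith
  have hs := hsum
    (fun y : Fin n → Bool => |ind f true (Fin.cons true y) - ind f true (Fin.cons false y)|)
    (fun y : Fin n → Bool => |noise s (ind f true) (Fin.cons true y) - ind f true (Fin.cons true y)|)
    (fun y : Fin n → Bool => |noise s (ind f true) (Fin.cons false y) - ind f true (Fin.cons false y)|)
    (fun y => by linarith)
  linarith

end Vale.Agent.Lib.P322Low
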