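import Vale.Agent.Lib.P322Low.Pointwise

open Finset BigOperators

namespace Vale.Agent.Lib.P322Low

open Vale.Agent.Lib.P322

lemma mg_Hb_ge_self {x : ℝ} (h0 : 0 < x) (h1 : x ≤ 1 / 2) : x ≤ Hb x := by
  have h2 : 0 < 1 - x := by linarith
  have h3 : - Real.log x ≥ 1 - x := by
    have := Real.log_le_sub_one_of_pos h0
    linarith
  have h4 : - Real.log (1 - x) ≥ x := by
    have := Real.log_le_sub_one_of_pos h2
    linarith
  unfold Hb
  have h5 : x * (1 - x) ≤ x * (- Real.log x) := mul_le_mul_of_nonneg_left h3 h0.le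
  have h6 : (1 - x) * x ≤ (1 - x) * (- Real.log (1 - x)) := mul_le_mul_of_nonneg_left h4 h2.le
  nlinarith

lemma mg_cc_linear_aux {u v mu : ℝ} (hu : 0 < u) (hu1 : u < 1) (hv : 0 < v) (hv1 : v < 1)
    (hmu : 0 < mu) (huv : v ≤ u) :
    (u - v) * (Real.log mu / 2) ≤ cc u v + mu * (Hb u + Hb v) / 2 := by
  have hcc : 0 ≤ cc u v := cc_nonneg hu hu1 hv hv1
  have hHu : 0 ≤ Hb u := Hb_nonneg hu.le hu1.le
  have hHv : 0 ≤ Hb v := Hb_nonneg hv.le hv1.le
  have hS0 : 0 ≤ u - v := by linarith
  have hS1 : u - v ≤ 1 := by linarith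
  have hlogmu : Real.log mu ≤ mu := by
    have := Real.log_le_sub_one_of_pos hmu
    linarith
  by_cases hv2 : 1 / 2 ≤ v
  · -- both above one half
    have hx := mg_Hb_ge_self (by linarith : 0 < 1 - v) (by linarith : 1 - v ≤ 1 / 2)
    have hHsymm : Hb (1 - v) = Hb v := by
      unfold Hb
      rw [show 1 - (1 - v) = v by ring]
      ring
    rw [hHsymm] at hx
    have h1 : (u - v) * (Real.log mu / 2) ≤ (u - v) * (mu / 2) :=
      mul_le_mul_of_nonneg_left (by linarith) hS0
    have h2 : (u - v) * (mu / 2) ≤ Hb v * (mu / 2) :=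
      mul_le_mul_of_nonneg_right (by linarith) (by positivity)
    have h3 : 0 ≤ mu * Hb u := mul_nonneg hmu.le hHu
    nlinarith
  rw [not_le] at hv2
  by_cases hu2 : u ≤ 1 / 2
  · have hx := mg_Hb_ge_self hu hu2
    have h1 : (u - v) * (Real.log mu / 2) ≤ (u - v) * (mu / 2) :=
      mul_le_mul_of_nonneg_left (by linarith) hS0
    have h2 : (u - v) * (mu / 2) ≤ Hb u * (mu / 2) :=
      mul_le_mul_of_nonneg_right (by linarith) (by positivity)
    have h3 : 0 ≤ mu * Hb v := mul_nonneg hmu.le hHv
    nlinarith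
  rw [not_le] at hu2
  -- the main case v < 1/2 < u
  set x : ℝ := 1 - u with hx
  have hx0 : 0 < x := by rw [hx]; linarith
  have hx2 : x < 1 / 2 := by rw [hx]; linarith
  have hHx : x ≤ Hb u := by
    have h := mg_Hb_ge_self hx0 hx2.le
    have hHsymm : Hb x = Hb u := by
      rw [hx]
      unfold Hb
      rw [show 1 - (1 - u) = u by ring]
      ring
    rwa [hHsymm] at h
  have hHy : v ≤ Hb v := mg_Hb_ge_self hv hv2.le
  -- logit bounds
  have hl1 : Real.log (1 / (2 * x)) ≤ logit u := by
    unfold logit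
    have : Real.log (1 / (2 * x)) = - Real.log 2 - Real.log x := by
      rw [one_div, Real.log_inv, Real.log_mul (by norm_num) hx0.ne']
      ring
    rw [this, hx]
    have hu' : Real.log (1 / 2) ≤ Real.log u := Real.log_le_log (by norm_num) hu2.le
    rw [one_div, Real.log_inv] at hu'
    linarith
  have hl2 : Real.log (1 / (2 * v)) ≤ - logit v := by
    unfold logit
    have : Real.log (1 / (2 * v)) = - Real.log 2 - Real.log v := by
      rw [one_div, Real.log_inv, Real.log_mul (by norm_num) hv.ne']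
      ring
    rw [this]
    have hu' : Real.log (1 / 2) ≤ Real.log (1 - v) := Real.log_le_log (by norm_num) (by linarith)
    rw [one_div, Real.log_inv] at hu'
    linarith
  have hccl : (u - v) / 4 * (Real.log (1 / (2 * x)) + Real.log (1 / (2 * v))) ≤ cc u v := by
    unfold cc
    have : (u - v) / 4 * (Real.log (1 / (2 * x)) + Real.log (1 / (2 * v)))
        ≤ (u - v) / 4 * (logit u - logit v) :=
      mul_le_mul_of_nonneg_left (by linarith) (by positivity)
    linarith
  set B : ℝ := Real.log mu / 2 - Real.log (1 / (2 * x)) / 4 - Real.log (1 / (2 * v)) / 4 with hB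
  have hmain : (u - v) * (Real.log mu / 2) ≤ cc u v + (u - v) * B := by
    have : (u - v) * (Real.log mu / 2)
        = (u - v) / 4 * (Real.log (1 / (2 * x)) + Real.log (1 / (2 * v))) + (u - v) * B := by
      rw [hB]
      ring
    linarith
  have hBle : B ≤ mu * (Hb u + Hb v) / 2 := by
    have e1 : Real.log (2 * mu * x) = Real.log mu - Real.log (1 / (2 * x)) := by
      rw [one_div, Real.log_inv, Real.log_mul (by positivity) hx0.ne',
        Real.log_mul (by norm_num) hmu.ne', Real.log_mul (by norm_num) hx0.ne']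
      ring
    have e2 : Real.log (2 * mu * v) = Real.log mu - Real.log (1 / (2 * v)) := by
      rw [one_div, Real.log_inv, Real.log_mul (by positivity) hv.ne',
        Real.log_mul (by norm_num) hmu.ne', Real.log_mul (by norm_num) hv.ne']
      ring
    have h1 : Real.log (2 * mu * x) ≤ 2 * mu * x - 1 :=
      Real.log_le_sub_one_of_pos (by positivity)
    have h2 : Real.log (2 * mu * v) ≤ 2 * mu * v - 1 :=
      Real.log_le_sub_one_of_pos (by positivity)
    have h3 : mu * x ≤ mu * Hb u := mul_le_mul_of_nonneg_left hHx hmu.le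
    have h4 : mu * v ≤ mu * Hb v := mul_le_mul_of_nonneg_left hHy hmu.le
    have hB' : B = (Real.log (2 * mu * x) + Real.log (2 * mu * v)) / 4 := by
      rw [e1, e2, hB]
      ring
    rw [hB']
    nlinarith
  have hfinal : (u - v) * B ≤ mu * (Hb u + Hb v) / 2 := by
    have hR : 0 ≤ mu * (Hb u + Hb v) / 2 := by positivity
    by_cases hB0 : B ≤ 0
    · have : (u - v) * B ≤ 0 := mul_nonpos_of_nonneg_of_nonpos hS0 hB0
      linarith
    · rw [not_le] at hB0
      have : (u - v) * B ≤ 1 * B := mul_le_mul_of_nonneg_right hS1 hB0.le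
      linarith
  linarith

/-- A linear lower bound for the edge energy. -/
lemma mg_cc_linear {u v mu : ℝ} (hu : 0 < u) (hu1 : u < 1) (hv : 0 < v) (hv1 : v < 1)
    (hmu : 0 < mu) :
    |u - v| * (Real.log mu / 2) ≤ cc u v + mu * (Hb u + Hb v) / 2 := by
  rcases le_total v u with h | h
  · rw [abs_of_nonneg (by linarith)]
    exact mg_cc_linear_aux hu hu1 hv hv1 hmu h
  · rw [abs_of_nonpos (by linarith), neg_sub, cc_comm, add_comm (Hb u)]
    exact mg_cc_linear_aux hv hv1 hu hu1 hmu h

/-- The averaged form. -/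
theorem mg_avg_cc_linear {n : ℕ} (A B : (Fin n → Bool) → ℝ) (hA : ∀ y, 0 < A y ∧ A y < 1)
    (hB : ∀ y, 0 < B y ∧ B y < 1) :
    avg (fun y => |A y - B y|) *
        (Real.log (1 / ((avg (fun y => Hb (A y)) + avg (fun y => Hb (B y))) / 2)) / 2) - 1
      ≤ avg (fun y => cc (A y) (B y)) := by
  set w : ℝ := (avg (fun y => Hb (A y)) + avg (fun y => Hb (B y))) / 2 with hw
  have hw1 : 0 < avg (fun y => Hb (A y)) := by
    unfold avg
    exact div_pos (sum_pos (fun y _ => Hb_pos (hA y).1 (hA y).2) univ_nonempty) (by positivity)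
  have hw2 : 0 < avg (fun y => Hb (B y)) := by
    unfold avg
    exact div_pos (sum_pos (fun y _ => Hb_pos (hB y).1 (hB y).2) univ_nonempty) (by positivity)
  have hwpos : 0 < w := by
    rw [hw]
    linarith
  have hmu : 0 < 1 / w := by positivity
  have hpt : ∀ y, |A y - B y| * (Real.log (1 / w) / 2)
      ≤ cc (A y) (B y) + (1 / w) * (Hb (A y) + Hb (B y)) / 2 := fun y =>
    mg_cc_linear (hA y).1 (hA y).2 (hB y).1 (hB y).2 hmu
  have hsum : avg (fun y => |A y - B y| * (Real.log (1 / w) / 2))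
      ≤ avg (fun y => cc (A y) (B y) + (1 / w) * (Hb (A y) + Hb (B y)) / 2) := by
    unfold avg
    apply div_le_div_of_nonneg_right _ (by positivity)
    exact sum_le_sum fun y _ => hpt y
  have e1 : avg (fun y => |A y - B y| * (Real.log (1 / w) / 2))
      = avg (fun y => |A y - B y|) * (Real.log (1 / w) / 2) := by
    unfold avg
    rw [← sum_mul]
    ring
  have e2 : avg (fun y => cc (A y) (B y) + (1 / w) * (Hb (A y) + Hb (B y)) / 2)
      = avg (fun y => cc (A y) (B y)) + (1 / w) * ((avg (fun y => Hb (A y)) + avg (fun y => Hb (B y))) / 2) := by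
    unfold avg
    rw [sum_add_distrib, add_div]
    congr 1
    have : ∀ y, (1 / w) * (Hb (A y) + Hb (B y)) / 2 = (1 / w) / 2 * Hb (A y) + (1 / w) / 2 * Hb (B y) := by
      intro y
      ring
    simp_rw [this]
    rw [sum_add_distrib, ← mul_sum, ← mul_sum]
    ring
  rw [e1, e2, ← hw] at hsum
  have e3 : (1 / w) * w = 1 := by
    field_simp
  linarith

end Vale.Agent.Lib.P322Low
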