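import Vale.Agent.Lib.P322Low.Induct
import Vale.Agent.Lib.P322Low.Linear

open Finset BigOperators

namespace Vale.Agent.Lib.P322Low

open Vale.Agent.Lib.P322

/-- The energy inequality with the linear margin term, in terms of the edge average `K`. -/
theorem mg_margin_K {n : ℕ} (g : (Fin (n + 1) → Bool) → ℝ) (hg : ∀ y, 0 < g y ∧ g y < 1) :
    Psi (avg g) (avg (fun y => Hb (g y)))
      + (avg (fun y : Fin n → Bool => |g (Fin.cons true y) - g (Fin.cons false y)|)
          - (avg (fun y : Fin n → Bool => g (Fin.cons true y))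
            - avg (fun y : Fin n → Bool => g (Fin.cons false y))) ^ 2) / 2
        * Real.log (1 / avg (fun y => Hb (g y))) - 1
      ≤ En g := by
  set g0 : (Fin n → Bool) → ℝ := fun y => g (Fin.cons true y) with hg0
  set g1 : (Fin n → Bool) → ℝ := fun y => g (Fin.cons false y) with hg1
  have h0 : ∀ y, 0 < g0 y ∧ g0 y < 1 := fun y => hg _
  have h1 : ∀ y, 0 < g1 y ∧ g1 y < 1 := fun y => hg _
  have ha := avg_pos' (fun y => (h0 y).1)
  have ha1 := avg_lt_one (fun y => (h0 y).2)
  have hb := avg_pos' (fun y => (h1 y).1)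
  have hb1 := avg_lt_one (fun y => (h1 y).2)
  have hw1 : 0 < avg (fun y => Hb (g0 y)) := avg_pos' (fun y => Hb_pos (h0 y).1 (h0 y).2)
  have hw2 : 0 < avg (fun y => Hb (g1 y)) := avg_pos' (fun y => Hb_pos (h1 y).1 (h1 y).2)
  have ea : avg g = (avg g0 + avg g1) / 2 := avg_succ g
  have ew : avg (fun y => Hb (g y))
      = (avg (fun y => Hb (g0 y)) + avg (fun y => Hb (g1 y))) / 2 :=
    avg_succ (fun y => Hb (g y))
  set w : ℝ := (avg (fun y => Hb (g0 y)) + avg (fun y => Hb (g1 y))) / 2 with hw
  have hwpos : 0 < w := by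
    rw [hw]
    linarith
  have hs : Psi ((avg g0 + avg g1) / 2) w ≤
      (avg g0 - avg g1) ^ 2 / 2 * Real.log (1 / (2 * Real.exp 1 * w))
        + Psi (avg g0) (avg (fun y => Hb (g0 y))) / 2 + Psi (avg g1) (avg (fun y => Hb (g1 y))) / 2 :=
    step ha ha1 hb hb1 hw1 hw2 (le_refl _)
  have i0 := fi g0 h0
  have i1 := fi g1 h1
  have hlin : avg (fun y => |g0 y - g1 y|) * (Real.log (1 / w) / 2) - 1
      ≤ avg (fun y => cc (g0 y) (g1 y)) := mg_avg_cc_linear g0 g1 h0 h1
  have hEn : En g = avg (fun y => cc (g0 y) (g1 y)) + En g0 / 2 + En g1 / 2 := En_succ g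
  have hlog : Real.log (1 / (2 * Real.exp 1 * w)) ≤ Real.log (1 / w) := by
    apply Real.log_le_log
    · positivity
    · apply one_div_le_one_div_of_le hwpos
      have he : 1 ≤ Real.exp 1 := Real.one_le_exp (by norm_num)
      nlinarith
  have hC : (avg g0 - avg g1) ^ 2 / 2 * Real.log (1 / (2 * Real.exp 1 * w))
      ≤ (avg g0 - avg g1) ^ 2 / 2 * Real.log (1 / w) :=
    mul_le_mul_of_nonneg_left hlog (by positivity)
  rw [ew, ea, hEn]
  have e1 : (avg (fun y => |g0 y - g1 y|) - (avg g0 - avg g1) ^ 2) / 2 * Real.log (1 / w)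
      = avg (fun y => |g0 y - g1 y|) * (Real.log (1 / w) / 2)
        - (avg g0 - avg g1) ^ 2 / 2 * Real.log (1 / w) := by
    ring
  rw [e1]
  linarith

/-- The energy inequality with the linear margin term, in terms of the mean difference `d`. -/
theorem mg_margin {n : ℕ} (g : (Fin (n + 1) → Bool) → ℝ) (hg : ∀ y, 0 < g y ∧ g y < 1) :
    Psi (avg g) (avg (fun y => Hb (g y)))
      + (|avg (fun y : Fin n → Bool => g (Fin.cons true y))
            - avg (fun y : Fin n → Bool => g (Fin.cons false y))|
          - (avg (fun y : Fin n → Bool => g (Fin.cons true y))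
            - avg (fun y : Fin n → Bool => g (Fin.cons false y))) ^ 2) / 2
        * Real.log (1 / avg (fun y => Hb (g y))) - 1
      ≤ En g := by
  refine le_trans ?_ (mg_margin_K g hg)
  have hK : |avg (fun y : Fin n → Bool => g (Fin.cons true y))
            - avg (fun y : Fin n → Bool => g (Fin.cons false y))|
      ≤ avg (fun y : Fin n → Bool => |g (Fin.cons true y) - g (Fin.cons false y)|) := by
    unfold avg
    rw [← sub_div, abs_div, abs_of_pos (by positivity : (0 : ℝ) < 2 ^ n), ← sum_sub_distrib]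
    apply div_le_div_of_nonneg_right _ (by positivity)
    exact abs_sum_le_sum_abs _ _
  have hw1 : avg (fun y => Hb (g y)) ≤ 1 := by
    unfold avg
    rw [div_le_one (by positivity)]
    have hle : ∀ y ∈ (univ : Finset (Fin (n + 1) → Bool)), Hb (g y) ≤ Real.log 2 := fun y _ =>
      Hb_le_log_two (hg y).1.le (hg y).2.le
    have h2 := sum_le_sum hle
    have h3 : ∑ _y : Fin (n + 1) → Bool, Real.log 2 = 2 ^ (n + 1) * Real.log 2 := by
      simp
    rw [h3] at h2
    have hlog2 : Real.log 2 ≤ 1 := by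
      have := Real.log_two_lt_d9
      linarith
    have h4 : (2 : ℝ) ^ (n + 1) * Real.log 2 ≤ 2 ^ (n + 1) * 1 :=
      mul_le_mul_of_nonneg_left hlog2 (by positivity)
    linarith
  have hw0 : 0 < avg (fun y => Hb (g y)) := avg_pos' (fun y => Hb_pos (hg y).1 (hg y).2)
  have hlog : 0 ≤ Real.log (1 / avg (fun y => Hb (g y))) := by
    apply Real.log_nonneg
    rw [le_div_iff₀ hw0]
    linarith
  have := mul_le_mul_of_nonneg_right
    (by linarith : (|avg (fun y : Fin n → Bool => g (Fin.cons true y))
            - avg (fun y : Fin n → Bool => g (Fin.cons false y))|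
          - (avg (fun y : Fin n → Bool => g (Fin.cons true y))
            - avg (fun y : Fin n → Bool => g (Fin.cons false y))) ^ 2) / 2
        ≤ (avg (fun y : Fin n → Bool => |g (Fin.cons true y) - g (Fin.cons false y)|)
          - (avg (fun y : Fin n → Bool => g (Fin.cons true y))
            - avg (fun y : Fin n → Bool => g (Fin.cons false y))) ^ 2) / 2) hlog
  linarith

end Vale.Agent.Lib.P322Low
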