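import Vale.Agent.Lib.P322Low.FlowGen
import Vale.Agent.Lib.P322Low.Link

open Finset BigOperators

namespace Vale.Agent.Lib.P322Low

open Vale.Agent.Lib.P322

/-- The improved potential, without the additive entropy term:
`c * (ln c - ln w - 2)` with `c = 2 p (1 - p)`. -/
noncomputable def Psi2 (p w : ℝ) : ℝ :=
  2 * p * (1 - p) * (Real.log (2 * p * (1 - p)) - Real.log w - 2)

/-- The recursion step: log sum inequality plus convexity of `c ln c`. -/
theorem step2 {a b w1 w2 C : ℝ} (ha : 0 < a) (ha1 : a < 1) (hb : 0 < b) (hb1 : b < 1)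
    (h1 : 0 < w1) (h2 : 0 < w2)
    (hC : (a - b) ^ 2 / 2 * Real.log (1 / (2 * Real.exp 1 * ((w1 + w2) / 2))) ≤ C) :
    Psi2 ((a + b) / 2) ((w1 + w2) / 2) ≤ C + Psi2 a w1 / 2 + Psi2 b w2 / 2 := by
  unfold Psi2
  set c1 : ℝ := 2 * a * (1 - a) with hc1
  set c2 : ℝ := 2 * b * (1 - b) with hc2
  set c0 : ℝ := 2 * ((a + b) / 2) * (1 - (a + b) / 2) with hc0
  have hc1p : 0 < c1 := by
    have : 0 < a * (1 - a) := mul_pos ha (by linarith)
    rw [hc1]; nlinarith
  have hc2p : 0 < c2 := by
    have : 0 < b * (1 - b) := mul_pos hb (by linarith)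
    rw [hc2]; nlinarith
  set m : ℝ := (c1 + c2) / 2 with hm
  have hmp : 0 < m := by rw [hm]; positivity
  have hc0m : c0 = m + (a - b) ^ 2 / 2 := by
    rw [hc0, hm, hc1, hc2]; ring
  have hc0p : 0 < c0 := by
    rw [hc0m]; positivity
  have hc0le : c0 ≤ 1 / 2 := by
    rw [hc0]; nlinarith [sq_nonneg (a + b - 1)]
  set w : ℝ := (w1 + w2) / 2 with hw
  have hwp : 0 < w := by rw [hw]; positivity
  -- log sum inequality
  have hls1 : m * c1 / c1 = m := by field_simp
  have hx1 : 0 < w1 * m / (c1 * w) := by positivity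
  have hx2 : 0 < w2 * m / (c2 * w) := by positivity
  have hl1 := Real.log_le_sub_one_of_pos hx1
  have hl2 := Real.log_le_sub_one_of_pos hx2
  have he1 : Real.log (w1 * m / (c1 * w))
      = Real.log w1 + Real.log m - Real.log c1 - Real.log w := by
    rw [Real.log_div (by positivity) (by positivity), Real.log_mul h1.ne' hmp.ne',
      Real.log_mul hc1p.ne' hwp.ne']
    ring
  have he2 : Real.log (w2 * m / (c2 * w))
      = Real.log w2 + Real.log m - Real.log c2 - Real.log w := by
    rw [Real.log_div (by positivity) (by positivity), Real.log_mul h2.ne' hmp.ne',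
      Real.log_mul hc2p.ne' hwp.ne']
    ring
  rw [he1] at hl1
  rw [he2] at hl2
  have hsum : w1 * m / w + w2 * m / w = 2 * m := by
    rw [hw]; field_simp
  have hA1 : c1 * (Real.log w1 + Real.log m - Real.log c1 - Real.log w) ≤ w1 * m / w - c1 := by
    have h3 := mul_le_mul_of_nonneg_left hl1 hc1p.le
    have e3 : c1 * (w1 * m / (c1 * w) - 1) = w1 * m / w - c1 := by field_simp
    rwa [e3] at h3
  have hA2 : c2 * (Real.log w2 + Real.log m - Real.log c2 - Real.log w) ≤ w2 * m / w - c2 := by
    have h3 := mul_le_mul_of_nonneg_left hl2 hc2p.le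
    have e3 : c2 * (w2 * m / (c2 * w) - 1) = w2 * m / w - c2 := by field_simp
    rwa [e3] at h3
  have hlogsum : m * (Real.log m - Real.log w)
      ≤ (c1 * (Real.log c1 - Real.log w1) + c2 * (Real.log c2 - Real.log w2)) / 2 := by
    have hmeq : c1 + c2 = 2 * m := by rw [hm]; ring
    have e4 : c1 * (Real.log w1 + Real.log m - Real.log c1 - Real.log w)
        + c2 * (Real.log w2 + Real.log m - Real.log c2 - Real.log w)
        = (c1 + c2) * (Real.log m - Real.log w)
          - (c1 * (Real.log c1 - Real.log w1) + c2 * (Real.log c2 - Real.log w2)) := by ring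
    rw [hmeq] at e4
    linarith
  -- convexity in c
  have hx0 : 0 < c0 / m := by positivity
  have hl0 := Real.log_le_sub_one_of_pos hx0
  have he0 : Real.log (c0 / m) = Real.log c0 - Real.log m := Real.log_div hc0p.ne' hmp.ne'
  rw [he0] at hl0
  have hB := mul_le_mul_of_nonneg_left hl0 hmp.le
  have hm0 : m * (c0 / m - 1) = c0 - m := by field_simp
  rw [hm0] at hB
  -- the logarithm of the constant
  have hlogc0 : Real.log c0 ≤ - Real.log 2 := by
    have := Real.log_le_log hc0p hc0le
    rwa [one_div, Real.log_inv] at this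
  have hkey : Real.log (1 / (2 * Real.exp 1 * w)) = - Real.log 2 - 1 - Real.log w := by
    rw [one_div, Real.log_inv, Real.log_mul (by positivity) hwp.ne',
      Real.log_mul (by norm_num) (Real.exp_pos 1).ne', Real.log_exp]
    ring
  rw [hkey] at hC
  have hd : 0 ≤ (a - b) ^ 2 / 2 := by positivity
  have hC2 : (a - b) ^ 2 / 2 * (Real.log c0 - Real.log w - 1) ≤ C := by
    refine le_trans (mul_le_mul_of_nonneg_left ?_ hd) hC
    linarith
  have hdd : c0 - m = (a - b) ^ 2 / 2 := by rw [hc0m]; ring
  have hmain : c0 * (Real.log c0 - Real.log w - 2)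
      ≤ m * (Real.log m - Real.log w - 2) + (a - b) ^ 2 / 2 * (Real.log c0 - Real.log w - 1) := by
    rw [← hdd]
    nlinarith
  have hmeq2 : m * (Real.log m - Real.log w - 2) = m * (Real.log m - Real.log w) - 2 * m := by ring
  have hend : (c1 * (Real.log c1 - Real.log w1 - 2) / 2 + c2 * (Real.log c2 - Real.log w2 - 2) / 2)
      = (c1 * (Real.log c1 - Real.log w1) + c2 * (Real.log c2 - Real.log w2)) / 2 - 2 * m := by
    rw [hm]; ring
  linarith

/-- Base of the induction. -/
lemma Psi2_self_le {u : ℝ} (h0 : 0 < u) (h1 : u < 1) : Psi2 u (Hb u) ≤ 0 := by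
  unfold Psi2
  have hc : 0 < 2 * u * (1 - u) := by
    have : 0 < u * (1 - u) := mul_pos h0 (by linarith)
    nlinarith
  have hle := Real.log_le_log hc (Hb_ge h0 h1)
  exact mul_nonpos_of_nonneg_of_nonpos hc.le (by linarith)

/-- The functional inequality with the improved potential. -/
theorem fi2 {n : ℕ} (g : (Fin n → Bool) → ℝ) (hg : ∀ y, 0 < g y ∧ g y < 1) :
    Psi2 (avg g) (avg (fun y => Hb (g y))) ≤ En g := by
  induction n with
  | zero =>
    have e0 : ∀ (k : (Fin 0 → Bool) → ℝ), avg k = k default := by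
      intro k
      unfold avg
      simp
      congr 1
      exact Subsingleton.elim _ _
    have hE : En g = 0 := by
      unfold En
      simp
    rw [hE, e0 g, e0 (fun y => Hb (g y))]
    exact Psi2_self_le (hg _).1 (hg _).2
  | succ n ih =>
    set g0 : (Fin n → Bool) → ℝ := fun y => g (Fin.cons true y) with hg0
    set g1 : (Fin n → Bool) → ℝ := fun y => g (Fin.cons false y) with hg1
    have h0 : ∀ y, 0 < g0 y ∧ g0 y < 1 := fun y => hg _
    have h1 : ∀ y, 0 < g1 y ∧ g1 y < 1 := fun y => hg _
    have ha := avg_pos' (fun y => (h0 y).1)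
    have ha1 := avg_lt_one (fun y => (h0 y).2)
    have hb := avg_pos' (fun y => (h1 y).1)
    have hb1 := avg_lt_one (fun y => (h1 y).2)
    have hw1 : 0 < avg (fun y => Hb (g0 y)) := avg_pos' (fun y => Hb_pos (h0 y).1 (h0 y).2)
    have hw2 : 0 < avg (fun y => Hb (g1 y)) := avg_pos' (fun y => Hb_pos (h1 y).1 (h1 y).2)
    have hk := key g0 g1 h0 h1
    have hs := step2 ha ha1 hb hb1 hw1 hw2 hk
    have i0 := ih g0 h0
    have i1 := ih g1 h1
    have ea : avg g = (avg g0 + avg g1) / 2 := avg_succ g
    have ew : avg (fun y => Hb (g y))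
        = (avg (fun y => Hb (g0 y)) + avg (fun y => Hb (g1 y))) / 2 :=
      avg_succ (fun y => Hb (g y))
    rw [ea, ew, En_succ g]
    linarith

/-- The integrated inequality with the improved potential. -/
theorem omega_bound2 {n : ℕ} (f : (Fin n → Bool) → Bool) {e : ℝ} (h0 : 0 < e) (h1 : e < 1 / 2)
    (ht : ∃ x, f x = true) (hf : ∃ x, f x = false) :
    2 * e * Psi2 (pOne f) (omega f e) ≤ omega f e := by
  have hp := pOne_mem f
  refine mg_flow f h0 h1 ht hf (fun w => Psi2 (pOne f) w) ?_ ?_
  · intro w1 w2 hw1 hw12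
    unfold Psi2
    have hc : 0 ≤ 2 * pOne f * (1 - pOne f) := by
      have : 0 ≤ pOne f * (1 - pOne f) := mul_nonneg hp.1 (by linarith [hp.2])
      nlinarith
    have hl := Real.log_le_log hw1 hw12
    exact mul_le_mul_of_nonneg_left (by linarith) hc
  · intro s hs0 hse
    have hs1 : s < 1 / 2 := by linarith
    have hu : ∀ y, 0 < noise s (ind f true) y ∧ noise s (ind f true) y < 1 := fun y =>
      ⟨noise_ind_pos f hs0 hs1 true ht y, noise_ind_lt_one f hs0 hs1 hf y⟩
    have := fi2 (noise s (ind f true)) hu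
    have e1 : avg (noise s (ind f true)) = pOne f := by
      rw [avg_noise, avg_ind_true]
    rw [e1] at this
    exact this

/-- Multiplicative lower bound for the conditional entropy, uniform in the mean. -/
theorem omega_mult {n : ℕ} (f : (Fin n → Bool) → Bool) {e : ℝ} (h0 : 0 < e) (h1 : e < 1 / 2) :
    4 * pOne f * (1 - pOne f) *
        (e * (Real.log (1 / e) - Real.log (1 + Real.log (1 / e)) - Real.log 2 - 2)) ≤ omega f e := by
  have hp := pOne_mem f
  have hΛ : 0 < Real.log (1 / e) := Real.log_pos (by rw [lt_div_iff₀ h0]; linarith)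
  set Λ : ℝ := Real.log (1 / e) with hΛd
  have hw0 : 0 ≤ omega f e := by
    unfold omega
    refine avg_nonneg fun y => Hb_nonneg ?_ ?_
    · exact noise_nonneg h0.le h1.le (ind_nonneg f true) y
    · have h2 := noise_nonneg h0.le h1.le (ind_nonneg f false) y
      rw [noise_ind_false] at h2
      linarith
  by_cases ht : ∃ x, f x = true
  swap
  · have hc : ∀ x, f x = false := fun x => by
      cases hx : f x
      · rfl
      · exact absurd ⟨x, hx⟩ ht
    have h00 : pOne f = 0 := by
      rw [← avg_ind_true]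
      unfold avg ind
      simp [hc]
    rw [h00]
    simpa using hw0
  by_cases hf : ∃ x, f x = false
  swap
  · have hc : ∀ x, f x = true := fun x => by
      cases hx : f x
      · exact absurd ⟨x, hx⟩ hf
      · rfl
    have h11 : pOne f = 1 := by
      rw [← avg_ind_true]
      unfold avg ind
      simp [hc]
    rw [h11]
    simpa using hw0
  have hbound := omega_bound2 f h0 h1 ht hf
  have hwp : 0 < omega f e := omega_pos f h0 h1 ht hf
  set w : ℝ := omega f e with hw
  set c : ℝ := 2 * pOne f * (1 - pOne f) with hc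
  have hc0 : 0 ≤ c := by
    have : 0 ≤ pOne f * (1 - pOne f) := mul_nonneg hp.1 (by linarith [hp.2])
    rw [hc]; nlinarith
  have hlog1 : 0 ≤ Real.log (1 + Λ) := Real.log_nonneg (by linarith)
  have hlog2 : 0 < Real.log 2 := Real.log_pos (by norm_num)
  have hgoal : 4 * pOne f * (1 - pOne f) * (e * (Λ - Real.log (1 + Λ) - Real.log 2 - 2))
      = 2 * e * (c * (Λ - Real.log (1 + Λ) - Real.log 2 - 2)) := by
    rw [hc]; ring
  rw [hgoal]
  by_cases hcase : 2 * e * (c * (1 + Λ)) ≤ w
  · refine le_trans ?_ hcase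
    apply mul_le_mul_of_nonneg_left _ (by positivity)
    apply mul_le_mul_of_nonneg_left _ hc0
    linarith
  rw [not_le] at hcase
  have hcp : 0 < c := by
    rcases hc0.eq_or_lt with h | h
    · rw [← h] at hcase
      simp at hcase
      linarith
    · exact h
  have hlogw : Real.log w ≤ Real.log (2 * e * (c * (1 + Λ))) :=
    Real.log_le_log hwp hcase.le
  have hexp : Real.log (2 * e * (c * (1 + Λ)))
      = Real.log 2 - Λ + Real.log c + Real.log (1 + Λ) := by
    have h1L : (1 + Λ) ≠ 0 := by linarith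
    rw [Real.log_mul (by positivity) (by positivity), Real.log_mul (by norm_num) h0.ne',
      Real.log_mul hcp.ne' h1L, hΛd, one_div e, Real.log_inv]
    ring
  rw [hexp] at hlogw
  have hPsi : c * (Λ - Real.log (1 + Λ) - Real.log 2 - 2) ≤ Psi2 (pOne f) w := by
    unfold Psi2
    rw [← hc]
    apply mul_le_mul_of_nonneg_left _ hc0
    linarith
  exact (mul_le_mul_of_nonneg_left hPsi (by positivity)).trans hbound

end Vale.Agent.Lib.P322Low
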