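import Vale.Agent.Lib.P322Low.ExplicitBound
import Mathlib.Analysis.SpecialFunctions.BinaryEntropy

open Finset BigOperators

namespace Vale.Agent.Lib.P322Low.NearDict

open Vale.Agent.Lib.P322 Vale.Agent.Lib.P322Low

lemma Hb_eq_binEntropy (u : ℝ) : Hb u = Real.binEntropy u := by
  unfold Hb Real.binEntropy
  rw [Real.log_inv, Real.log_inv]
  ring

lemma Hb_zero : Hb 0 = 0 := by
  unfold Hb
  simp

lemma Hb_one : Hb 1 = 0 := by
  unfold Hb
  simp

lemma Hb_conc {x y a b : ℝ} (hx : x ∈ Set.Icc (0 : ℝ) 1) (hy : y ∈ Set.Icc (0 : ℝ) 1)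
    (ha : 0 ≤ a) (hb : 0 ≤ b) (hab : a + b = 1) :
    a * Hb x + b * Hb y ≤ Hb (a * x + b * y) := by
  simp only [Hb_eq_binEntropy]
  have := Real.strictConcave_binEntropy.concaveOn.2 hx hy ha hb hab
  simpa [smul_eq_mul] using this

lemma self_le_Hb {t : ℝ} (h0 : 0 ≤ t) (h1 : t ≤ 1 / 2) : t ≤ Hb t := by
  rcases h0.eq_or_lt with rfl | h
  · rw [Hb_zero]
  · have := Hb_ge h (by linarith : t < 1)
    nlinarith

/-- Z-channel bound, small input. -/
lemma star_low {t ε δ : ℝ} (ht0 : 0 < t) (ht1 : t ≤ 1 / 2) (he0 : 0 < ε) (he1 : ε < 1 / 2)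
    (hd0 : 0 < δ) (hd1 : δ ≤ 1) :
    (1 - δ) * Hb t - ε * (1 + Real.log (1 / δ)) ≤ Hb (t + (1 - t) * ε) - (1 - t) * Hb ε := by
  obtain ⟨a, ha⟩ : ∃ a, a = (1 - t) * ε := ⟨_, rfl⟩
  rw [← ha]
  have h1t : 0 < 1 - t := by linarith
  have h1e : 0 < 1 - ε := by linarith
  have ha0 : 0 < a := by rw [ha]; positivity
  have hae : a ≤ ε := by rw [ha]; nlinarith
  have hid : Hb (t + a) - (1 - t) * Hb ε
      = Hb t - (t * Real.log ((t + a) / t) + a * Real.log ((t + a) / a)) := by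
    have e1 : 1 - (t + a) = (1 - t) * (1 - ε) := by rw [ha]; ring
    have l1 : Real.log (1 - (t + a)) = Real.log (1 - t) + Real.log (1 - ε) := by
      rw [e1, Real.log_mul h1t.ne' h1e.ne']
    have l2 : Real.log a = Real.log (1 - t) + Real.log ε := by
      rw [ha, Real.log_mul h1t.ne' he0.ne']
    have l3 : Real.log ((t + a) / t) = Real.log (t + a) - Real.log t :=
      Real.log_div (by positivity) ht0.ne'
    have l4 : Real.log ((t + a) / a) = Real.log (t + a) - Real.log a :=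
      Real.log_div (by positivity) ha0.ne'
    unfold Hb
    rw [l1, l3, l4, e1, l2]
    generalize Real.log (t + a) = X
    rw [ha]
    ring
  rw [hid]
  have hlog1 : t * Real.log ((t + a) / t) ≤ a := by
    have h := Real.log_le_sub_one_of_pos (div_pos (by positivity : 0 < t + a) ht0)
    have h2 := mul_le_mul_of_nonneg_left h ht0.le
    have e : t * ((t + a) / t - 1) = a := by
      field_simp
      ring
    linarith
  have hlogd : 0 ≤ Real.log (1 / δ) := by
    apply Real.log_nonneg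
    rw [le_div_iff₀ hd0]
    linarith
  have hlog2 : a * Real.log ((t + a) / a) ≤ δ * (t + a) + a * (Real.log (1 / δ) - 1) := by
    have hy : 0 < (t + a) / a := div_pos (by positivity) ha0
    have h := Real.log_le_sub_one_of_pos (mul_pos hd0 hy)
    rw [Real.log_mul hd0.ne' hy.ne'] at h
    have e0 : Real.log (1 / δ) = - Real.log δ := by
      rw [one_div, Real.log_inv]
    have h2 : Real.log ((t + a) / a) ≤ δ * ((t + a) / a) - 1 + Real.log (1 / δ) := by
      rw [e0]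
      linarith
    have h3 := mul_le_mul_of_nonneg_left h2 ha0.le
    have e : a * (δ * ((t + a) / a) - 1 + Real.log (1 / δ))
        = δ * (t + a) + a * (Real.log (1 / δ) - 1) := by
      field_simp
      ring
    linarith
  have hs := self_le_Hb ht0.le ht1
  have h5 : δ * t ≤ δ * Hb t := mul_le_mul_of_nonneg_left hs hd0.le
  have h6 : δ * a ≤ ε := by nlinarith
  have h7 : a * Real.log (1 / δ) ≤ ε * Real.log (1 / δ) :=
    mul_le_mul_of_nonneg_right hae hlogd
  nlinarith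

/-- Z-channel bound, large input. -/
lemma star_high {t ε δ : ℝ} (ht0 : 1 / 2 ≤ t) (ht1 : t ≤ 1) (he0 : 0 < ε) (he1 : ε < 1 / 2)
    (hd : ε + Hb ε ≤ δ) :
    (1 - δ) * Hb t ≤ Hb (t + (1 - t) * ε) - (1 - t) * Hb ε := by
  have hτ0 : 0 ≤ 1 - t := by linarith
  have hτ1 : 1 - t ≤ 1 / 2 := by linarith
  have e : t + (1 - t) * ε = 1 - ((1 - ε) * (1 - t) + ε * 0) := by ring
  have h1 : (1 - ε) * Hb (1 - t) + ε * Hb 0 ≤ Hb ((1 - ε) * (1 - t) + ε * 0) :=
    Hb_conc ⟨hτ0, by linarith⟩ ⟨le_refl _, by norm_num⟩ (by linarith) he0.le (by ring)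
  rw [Hb_zero] at h1
  rw [e, Hb_symm]
  have e2 : Hb t = Hb (1 - t) := (Hb_symm t).symm
  rw [e2]
  have hH : 0 ≤ Hb ε := Hb_nonneg he0.le (by linarith)
  have hs := self_le_Hb hτ0 hτ1
  have hH1 : 0 ≤ Hb (1 - t) := le_trans hτ0 hs
  have h3 : (1 - t) * Hb ε ≤ Hb (1 - t) * Hb ε := mul_le_mul_of_nonneg_right hs hH
  have h4 : (ε + Hb ε) * Hb (1 - t) ≤ δ * Hb (1 - t) := mul_le_mul_of_nonneg_right hd hH1
  nlinarith

/-- The Z-channel bound. -/
lemma star {t ε δ : ℝ} (ht0 : 0 ≤ t) (ht1 : t ≤ 1) (he0 : 0 < ε) (he1 : ε < 1 / 2)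
    (hd0 : 0 < δ) (hd1 : δ ≤ 1) (hd : ε + Hb ε ≤ δ) :
    (1 - δ) * Hb t - ε * (1 + Real.log (1 / δ)) ≤ Hb (t + (1 - t) * ε) - (1 - t) * Hb ε := by
  have hlogd : 0 ≤ Real.log (1 / δ) := by
    apply Real.log_nonneg
    rw [le_div_iff₀ hd0]
    linarith
  have hK : 0 ≤ ε * (1 + Real.log (1 / δ)) := by positivity
  rcases ht0.eq_or_lt with rfl | h
  · rw [Hb_zero]
    have e : (0 : ℝ) + (1 - 0) * ε = ε := by ring
    rw [e]
    nlinarith
  · rcases le_total t (1 / 2) with h2 | h2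
    · exact star_low h h2 he0 he1 hd0 hd1
    · have := star_high h2 ht1 he0 he1 hd
      linarith

/-- The mixture bound with a general third weight. -/
lemma mix {s t ε δ : ℝ} (hs0 : 0 ≤ s) (ht0 : 0 ≤ t) (hst : s + t ≤ 1) (he0 : 0 < ε) (he1 : ε < 1 / 2)
    (hd0 : 0 < δ) (hd1 : δ ≤ 1) (hd : ε + Hb ε ≤ δ) :
    (1 - s - t) * Hb ε + (1 - δ) * Hb t - ε * (1 + Real.log (1 / δ))
      ≤ Hb (ε * (1 - s) + (1 - ε) * t) := by
  have ht1 : t ≤ 1 := by linarith
  have hlogd : 0 ≤ Real.log (1 / δ) := by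
    apply Real.log_nonneg
    rw [le_div_iff₀ hd0]
    linarith
  have hK : 0 ≤ 1 + Real.log (1 / δ) := by positivity
  have hHt : 0 ≤ Hb t := Hb_nonneg ht0 ht1
  have hH : 0 ≤ Hb ε := Hb_nonneg he0.le (by linarith)
  rcases (by linarith : 0 ≤ 1 - s - t).eq_or_lt with hk | hk
  · have e : ε * (1 - s) + (1 - ε) * t = t := by
      have : 1 - s = t := by linarith
      rw [this]
      ring
    rw [e, ← hk]
    have : 0 ≤ ε * (1 + Real.log (1 / δ)) := by positivity
    nlinarith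
  · have h1t : 0 < 1 - t := by linarith
    obtain ⟨lam, hlam⟩ : ∃ lam, lam = (1 - s - t) / (1 - t) := ⟨_, rfl⟩
    have hl0 : 0 < lam := by rw [hlam]; positivity
    have hl1 : lam ≤ 1 := by
      rw [hlam, div_le_one h1t]
      linarith
    have hk' : 1 - s - t = lam * (1 - t) := by
      rw [hlam]
      field_simp
    have hu0 : 0 ≤ t + (1 - t) * ε := by positivity
    have hu1 : t + (1 - t) * ε ≤ 1 := by nlinarith
    have hc := Hb_conc (x := t) (y := t + (1 - t) * ε) (a := 1 - lam) (b := lam) ⟨ht0, ht1⟩ ⟨hu0, hu1⟩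
      (by linarith) hl0.le (by ring)
    have e : (1 - lam) * t + lam * (t + (1 - t) * ε) = ε * (1 - s) + (1 - ε) * t := by
      have : lam * ((1 - t) * ε) = (1 - s - t) * ε := by rw [hk']; ring
      nlinarith
    rw [e] at hc
    have hst' := star ht0 ht1 he0 he1 hd0 hd1 hd
    have h2 := mul_le_mul_of_nonneg_left hst' hl0.le
    have h3 : lam * (ε * (1 + Real.log (1 / δ))) ≤ ε * (1 + Real.log (1 / δ)) := by
      have : 0 ≤ ε * (1 + Real.log (1 / δ)) := by positivity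
      nlinarith
    have h4 : lam * ((1 - t) * Hb ε) = (1 - s - t) * Hb ε := by rw [hk']; ring
    have h5 : (1 - lam) * ((1 - δ) * Hb t) ≤ (1 - lam) * Hb t :=
      mul_le_mul_of_nonneg_left (by nlinarith) (by linarith)
    nlinarith

/-- The pointwise inequality. -/
lemma pointwise {s t ε δ : ℝ} (hs0 : 0 ≤ s) (hs1 : s ≤ 1) (ht0 : 0 ≤ t) (ht1 : t ≤ 1)
    (he0 : 0 < ε) (he1 : ε < 1 / 2) (hd0 : 0 < δ) (hd1 : δ ≤ 1) (hd : ε + Hb ε ≤ δ) :
    (1 - δ) * Hb s + (1 - δ) * Hb t + 2 * (1 - s - t) * Hb ε - 2 * (ε * (1 + Real.log (1 / δ)))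
      ≤ Hb (ε * (1 - s) + (1 - ε) * t) + Hb (ε * (1 - t) + (1 - ε) * s) := by
  have hlogd : 0 ≤ Real.log (1 / δ) := by
    apply Real.log_nonneg
    rw [le_div_iff₀ hd0]
    linarith
  have hK : 0 ≤ ε * (1 + Real.log (1 / δ)) := by positivity
  have hHt : 0 ≤ Hb t := Hb_nonneg ht0 ht1
  have hHs : 0 ≤ Hb s := Hb_nonneg hs0 hs1
  have hH : 0 ≤ Hb ε := Hb_nonneg he0.le (by linarith)
  rcases le_total (s + t) 1 with h | h
  · have h1 := mix hs0 ht0 h he0 he1 hd0 hd1 hd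
    have h2 := mix ht0 hs0 (by linarith : t + s ≤ 1) he0 he1 hd0 hd1 hd
    nlinarith
  · have c1 := Hb_conc (x := 1 - s) (y := t) (a := ε) (b := 1 - ε) ⟨by linarith, by linarith⟩
      ⟨ht0, ht1⟩ he0.le (by linarith) (by ring)
    have c2 := Hb_conc (x := 1 - t) (y := s) (a := ε) (b := 1 - ε) ⟨by linarith, by linarith⟩
      ⟨hs0, hs1⟩ he0.le (by linarith) (by ring)
    rw [Hb_symm] at c1 c2
    have h3 : (1 - s - t) * Hb ε ≤ 0 := mul_nonpos_of_nonpos_of_nonneg (by linarith) hH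
    have h4 : δ * Hb s ≥ 0 := by positivity
    have h5 : δ * Hb t ≥ 0 := by positivity
    nlinarith

lemma noise_lin (ε a b : ℝ) {n : ℕ} (g h : (Fin n → Bool) → ℝ) (y : Fin n → Bool) :
    noise ε (fun x => a * g x + b * h x) y = a * noise ε g y + b * noise ε h y := by
  unfold noise
  rw [mul_sum, mul_sum, ← sum_add_distrib]
  refine sum_congr rfl fun x _ => ?_
  ring

/-- The two restrictions of a function. -/
lemma noise_cons (ε : ℝ) {n : ℕ} (f : (Fin (n + 1) → Bool) → Bool) (c : Bool) (y : Fin n → Bool) :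
    noise ε (ind f true) (Fin.cons c y)
      = bsc ε true c * noise ε (ind (fun x => f (Fin.cons true x)) true) y
        + bsc ε false c * noise ε (ind (fun x => f (Fin.cons false x)) true) y := by
  rw [noise_succ]
  exact noise_lin ε _ _ _ _ y

/-- The decomposition of the conditional entropy along the first coordinate. -/
lemma omega_succ {n : ℕ} (f : (Fin (n + 1) → Bool) → Bool) (ε : ℝ) :
    omega f ε = avg (fun y =>
      Hb (ε * (1 - noise ε (ind (fun x => f (Fin.cons false x)) true) y)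
          + (1 - ε) * (1 - noise ε (ind (fun x => f (Fin.cons true x)) true) y))
      + Hb (ε * (1 - (1 - noise ε (ind (fun x => f (Fin.cons true x)) true) y))
          + (1 - ε) * noise ε (ind (fun x => f (Fin.cons false x)) true) y)) / 2 := by
  unfold omega
  rw [avg_succ, avg_add]
  congr 2
  · congr 1
    funext y
    rw [noise_cons, ← Hb_symm]
    congr 1
    simp only [bsc, if_true, Bool.false_eq_true, if_false]
    ring
  · congr 1
    funext y
    rw [noise_cons]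
    congr 1
    simp only [bsc, Bool.true_eq_false, if_false, if_true]
    ring

/-- The main inequality: entropy of `f` from that of its restrictions. -/
theorem omega_ge {n : ℕ} (f : (Fin (n + 1) → Bool) → Bool) {ε δ : ℝ} (he0 : 0 < ε) (he1 : ε < 1 / 2)
    (hd0 : 0 < δ) (hd1 : δ ≤ 1) (hd : ε + Hb ε ≤ δ) :
    (1 - δ) / 2 * (omega (fun x => f (Fin.cons false x)) ε + omega (fun x => f (Fin.cons true x)) ε)
      + (pOne (fun x => f (Fin.cons true x)) - pOne (fun x => f (Fin.cons false x))) * Hb ε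
      - ε * (1 + Real.log (1 / δ)) ≤ omega f ε := by
  rw [omega_succ]
  set P1 := noise ε (ind (fun x => f (Fin.cons true x)) true) with hP1
  set P0 := noise ε (ind (fun x => f (Fin.cons false x)) true) with hP0
  have hP0' : ∀ y, 0 ≤ P0 y ∧ P0 y ≤ 1 := fun y => by
    have h1 := noise_nonneg he0.le he1.le (ind_nonneg (fun x => f (Fin.cons false x)) true) y
    have h2 := noise_nonneg he0.le he1.le (ind_nonneg (fun x => f (Fin.cons false x)) false) y
    rw [noise_ind_false] at h2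
    exact ⟨h1, by rw [hP0]; linarith⟩
  have hP1' : ∀ y, 0 ≤ P1 y ∧ P1 y ≤ 1 := fun y => by
    have h1 := noise_nonneg he0.le he1.le (ind_nonneg (fun x => f (Fin.cons true x)) true) y
    have h2 := noise_nonneg he0.le he1.le (ind_nonneg (fun x => f (Fin.cons true x)) false) y
    rw [noise_ind_false] at h2
    exact ⟨h1, by rw [hP1]; linarith⟩
  have hpt : ∀ y, (1 - δ) * Hb (P0 y) + (1 - δ) * Hb (P1 y) + (-(2 * Hb ε)) * P0 y
        + (2 * Hb ε) * P1 y + (-(2 * (ε * (1 + Real.log (1 / δ)))))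
      ≤ Hb (ε * (1 - P0 y) + (1 - ε) * (1 - P1 y))
        + Hb (ε * (1 - (1 - P1 y)) + (1 - ε) * P0 y) := fun y => by
    have h := pointwise (s := P0 y) (t := 1 - P1 y) (hP0' y).1 (hP0' y).2 (by linarith [(hP1' y).2])
      (by linarith [(hP1' y).1]) he0 he1 hd0 hd1 hd
    rw [Hb_symm] at h
    nlinarith
  have hav := avg_mono' hpt
  rw [avg_add, avg_add, avg_add, avg_add, avg_const_mul, avg_const_mul, avg_const_mul, avg_const_mul,
    avg_const'] at hav
  have e0 : avg P0 = pOne (fun x => f (Fin.cons false x)) := by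
    rw [hP0, avg_noise, avg_ind_true]
  have e1 : avg P1 = pOne (fun x => f (Fin.cons true x)) := by
    rw [hP1, avg_noise, avg_ind_true]
  rw [e0, e1] at hav
  have o0 : avg (fun y => Hb (P0 y)) = omega (fun x => f (Fin.cons false x)) ε := rfl
  have o1 : avg (fun y => Hb (P1 y)) = omega (fun x => f (Fin.cons true x)) ε := rfl
  rw [o0, o1] at hav
  linarith

end Vale.Agent.Lib.P322Low.NearDict

namespace Vale.Agent.Lib.P322Low.NearDict

open Vale.Agent.Lib.P322 Vale.Agent.Lib.P322Low Vale.Agent.Results.P322.LowNoiseExplicit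

lemma Hb_le_two_sqrt {e : ℝ} (h0 : 0 < e) (h1 : e < 1) : Hb e ≤ 2 * Real.sqrt e := by
  refine (Hb_le_small h1 h0).trans ?_
  set s : ℝ := Real.sqrt e with hs
  have hs0 : 0 < s := Real.sqrt_pos.mpr h0
  have hs2 : s ^ 2 = e := Real.sq_sqrt h0.le
  have hlog : Real.log (1 / e) ≤ 2 * (1 / s - 1) := by
    have e1 : 1 / e = (1 / s) ^ 2 := by
      rw [← hs2]
      field_simp
    rw [e1, Real.log_pow]
    have := Real.log_le_sub_one_of_pos (by positivity : 0 < 1 / s)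
    push_cast
    linarith
  have h2 : e * (1 + Real.log (1 / e)) ≤ e * (1 + 2 * (1 / s - 1)) :=
    mul_le_mul_of_nonneg_left (by linarith) h0.le
  have h3 : e * (1 + 2 * (1 / s - 1)) = 2 * s - s ^ 2 := by
    rw [← hs2]
    field_simp
    ring
  nlinarith

lemma Hb_ge_log {e : ℝ} (h0 : 0 < e) (h1 : e < 1) : e * Real.log (1 / e) ≤ Hb e := by
  unfold Hb
  rw [one_div, Real.log_inv]
  have h2 : Real.log (1 - e) ≤ 0 := Real.log_nonpos (by linarith) (by linarith)
  have h3 : 0 ≤ (1 - e) := by linarith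
  nlinarith [mul_nonneg h3 (neg_nonneg.mpr h2)]

/-- conclusion of the Courtade-Kumar inequality from the entropy bound -/
lemma ck_of_omega {n : ℕ} (f : (Fin n → Bool) → Bool) {ε : ℝ} (h0 : 0 < ε) (h1 : ε < 1 / 2)
    (h : Hb ε ≤ omega f ε) : mutualInfo (jointFull f ε) ≤ 1 - h2 ε := by
  have hlog2 : 0 < Real.log 2 := Real.log_pos (by norm_num)
  have hmi := mi_eq f h0.le h1.le
  have hp := pOne_mem f
  have h3 := Hb_le_log_two hp.1 hp.2
  have h4 : Hb ε = h2 ε * Real.log 2 := Hb_eq_h2 ε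
  have h5 : mutualInfo (jointFull f ε) * Real.log 2 ≤ (1 - h2 ε) * Real.log 2 := by
    rw [hmi]
    nlinarith
  exact le_of_mul_le_mul_right h5 hlog2

lemma core_real {δ H p0 p1 w0 w1 w E K : ℝ}
    (hd0 : 0 < δ) (hd1 : δ < 1) (hHpos : 0 < H) (hE : 0 ≤ E)
    (hw0 : 4 * p0 * (1 - p0) * H - E ≤ w0) (hw1 : 4 * p1 * (1 - p1) * H - E ≤ w1)
    (hmain : (1 - δ) / 2 * (w0 + w1) + (p1 - p0) * H - K ≤ w)
    (hg0 : δ * p0 ≤ 2 * (1 - δ) * (p0 * (1 - p0)) - p0)
    (hg1 : δ * (1 - p1) ≤ 2 * (1 - δ) * (p1 * (1 - p1)) - (1 - p1))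
    (hfin : E + K ≤ δ * ((p0 + (1 - p1)) * H)) : H ≤ w := by
  have hdd : 0 < 1 - δ := by linarith
  have hsum : (1 - δ) / 2 * ((4 * p0 * (1 - p0) * H - E) + (4 * p1 * (1 - p1) * H - E))
      ≤ (1 - δ) / 2 * (w0 + w1) :=
    mul_le_mul_of_nonneg_left (by linarith) (by positivity)
  have hE2 : (1 - δ) * E ≤ E := by nlinarith [mul_nonneg hd0.le hE]
  have hgH : (δ * p0 + δ * (1 - p1)) * H
      ≤ ((2 * (1 - δ) * (p0 * (1 - p0)) - p0) + (2 * (1 - δ) * (p1 * (1 - p1)) - (1 - p1))) * H :=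
    mul_le_mul_of_nonneg_right (by linarith) hHpos.le
  have hexp : (1 - δ) / 2 * ((4 * p0 * (1 - p0) * H - E) + (4 * p1 * (1 - p1) * H - E))
      = (2 * (1 - δ) * (p0 * (1 - p0)) + 2 * (1 - δ) * (p1 * (1 - p1))) * H - (1 - δ) * E := by ring
  rw [hexp] at hsum
  have e3 : δ * ((p0 + (1 - p1)) * H) = (δ * p0 + δ * (1 - p1)) * H := by ring
  rw [e3] at hfin
  have e4 : ((2 * (1 - δ) * (p0 * (1 - p0)) - p0) + (2 * (1 - δ) * (p1 * (1 - p1)) - (1 - p1))) * H
      = (2 * (1 - δ) * (p0 * (1 - p0)) + 2 * (1 - δ) * (p1 * (1 - p1))) * H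
        + (p1 - p0) * H - H := by ring
  rw [e4] at hgH
  linarith

lemma hfin_scalar {D l : ℝ} (hD : 0 ≤ D) (hl0 : 0 ≤ l) (hl2 : Real.log 2 < 0.7) :
    2 + 9 * Real.log 2 + l + (1 + D) ≤ (10 + D) * (1 + l) := by
  nlinarith [mul_nonneg hD hl0]

lemma hgen_real {a α₁ γ δ : ℝ} (hγ : γ = 1 / 2 - α₁) (hδ : δ = γ / (1 + γ)) (hγ0 : 0 < γ)
    (h1d : 1 - δ = 1 / (1 + γ)) (hd1 : δ < 1) (ha0 : 0 ≤ a) (ha1 : a ≤ α₁) :
    δ * a ≤ 2 * (1 - δ) * (a * (1 - a)) - a := by
  have h1 : 1 + δ ≤ 2 * (1 - δ) * (1 - a) := by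
    have h2 : (1 + 2 * γ) * (1 - δ) ≤ 2 * (1 - δ) * (1 - a) := by
      have h3 : 0 < 1 - δ := by linarith
      have h4 : 1 + 2 * γ ≤ 2 * (1 - a) := by rw [hγ]; linarith
      nlinarith
    have h5 : (1 + 2 * γ) * (1 - δ) = 1 + δ := by
      rw [h1d, hδ]
      field_simp
      ring
    linarith
  nlinarith

/-- First form: explicit threshold on the distance. -/
theorem threshold_form (α₁ : ℝ) (hα₁ : α₁ < 1 / 2) :
    ∃ C ε₀ : ℝ, 0 < C ∧ 0 < ε₀ ∧ ∀ (n : ℕ) (f : (Fin (n + 1) → Bool) → Bool) (ε : ℝ), 0 < ε → ε < ε₀ →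
      pOne (fun x => f (Fin.cons false x)) ≤ α₁ →
      1 - pOne (fun x => f (Fin.cons true x)) ≤ α₁ →
      C * (1 + Real.log (1 + Real.log (1 / ε)))
        ≤ (pOne (fun x => f (Fin.cons false x)) + (1 - pOne (fun x => f (Fin.cons true x))))
            * Real.log (1 / ε) →
      mutualInfo (jointFull f ε) ≤ 1 - h2 ε := by
  obtain ⟨γ, hγ⟩ : ∃ γ, γ = 1 / 2 - α₁ := ⟨_, rfl⟩
  have hγ0 : 0 < γ := by rw [hγ]; linarith
  obtain ⟨δ, hδ⟩ : ∃ δ, δ = γ / (1 + γ) := ⟨_, rfl⟩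
  have hd0 : 0 < δ := by rw [hδ]; positivity
  have hd1 : δ < 1 := by
    rw [hδ, div_lt_one (by linarith)]
    linarith
  have h1d : 1 - δ = 1 / (1 + γ) := by
    rw [hδ]
    field_simp
    ring
  have hlogd : 0 ≤ Real.log (1 / δ) := by
    apply Real.log_nonneg
    rw [le_div_iff₀ hd0]
    linarith
  refine ⟨(10 + Real.log (1 / δ)) / δ, min (1 / 4) ((δ / 3) ^ 2), by positivity,
    lt_min (by norm_num) (by positivity), ?_⟩
  intro n f ε he0 heps hp0 hp1 hthr
  have he1 : ε < 1 / 4 := lt_of_lt_of_le heps (min_le_left _ _)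
  have he2 : ε < (δ / 3) ^ 2 := lt_of_lt_of_le heps (min_le_right _ _)
  have he12 : ε < 1 / 2 := by linarith
  have hsq : Real.sqrt ε < δ / 3 := by
    rw [Real.sqrt_lt' (by positivity)]
    exact he2
  have hes : ε ≤ Real.sqrt ε := by
    have h := Real.sq_sqrt he0.le
    have hs0 : 0 < Real.sqrt ε := Real.sqrt_pos.mpr he0
    have hs1 : Real.sqrt ε < 1 := by
      rw [Real.sqrt_lt' (by norm_num)]
      linarith
    nlinarith
  have hd : ε + Hb ε ≤ δ := by
    have := Hb_le_two_sqrt he0 (by linarith : ε < 1)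
    linarith
  have hmain := omega_ge f he0 he12 hd0 hd1.le hd
  have hLpos : 0 < Real.log (1 / ε) := Real.log_pos (by rw [lt_div_iff₀ he0]; linarith)
  have hl0 : 0 ≤ Real.log (1 + Real.log (1 / ε)) := Real.log_nonneg (by linarith)
  have hw0 := omega_explicit (fun x => f (Fin.cons false x)) he0 he12
  have hw1 := omega_explicit (fun x => f (Fin.cons true x)) he0 he12
  have hp0m := pOne_mem (fun x => f (Fin.cons false x))
  have hp1m := pOne_mem (fun x => f (Fin.cons true x))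
  have hHL : ε * Real.log (1 / ε) ≤ Hb ε := Hb_ge_log he0 (by linarith)
  have hHpos : 0 < Hb ε := lt_of_lt_of_le (by positivity) hHL
  have hg0 := hgen_real hγ hδ hγ0 h1d hd1 hp0m.1 hp0
  have hg1 := hgen_real hγ hδ hγ0 h1d hd1 (by linarith [hp1m.2]) hp1
  have e1 : (1 - pOne (fun x => f (Fin.cons true x))) * (1 - (1 - pOne (fun x => f (Fin.cons true x))))
      = pOne (fun x => f (Fin.cons true x)) * (1 - pOne (fun x => f (Fin.cons true x))) := by ring
  rw [e1] at hg1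
  have hl2 : Real.log 2 < 0.7 := by
    have := Real.log_two_lt_d9
    linarith
  have hl2' : 0 < Real.log 2 := Real.log_pos (by norm_num)
  have hthr2 : (10 + Real.log (1 / δ)) * (1 + Real.log (1 + Real.log (1 / ε)))
      ≤ δ * ((pOne (fun x => f (Fin.cons false x)) + (1 - pOne (fun x => f (Fin.cons true x))))
            * Real.log (1 / ε)) := by
    have := mul_le_mul_of_nonneg_left hthr hd0.le
    have e : δ * ((10 + Real.log (1 / δ)) / δ * (1 + Real.log (1 + Real.log (1 / ε))))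
        = (10 + Real.log (1 / δ)) * (1 + Real.log (1 + Real.log (1 / ε))) := by
      field_simp
    rw [e] at this
    exact this
  have hfin := hfin_scalar hlogd hl0 hl2
  have hpp : 0 ≤ pOne (fun x => f (Fin.cons false x)) + (1 - pOne (fun x => f (Fin.cons true x))) := by
    linarith [hp0m.1, hp1m.2]
  have hHL2 := mul_le_mul_of_nonneg_left (mul_le_mul_of_nonneg_left hHL hpp) hd0.le
  have h1 := mul_le_mul_of_nonneg_left (hfin.trans hthr2) he0.le
  have hE : 0 ≤ ε * (2 + 9 * Real.log 2 + Real.log (1 + Real.log (1 / ε))) := by positivity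
  apply ck_of_omega f he0 he12
  refine core_real hd0 hd1 hHpos hE hw0 hw1 hmain hg0 hg1 ?_
  refine le_trans (le_of_eq ?_) (h1.trans (le_trans (le_of_eq ?_) hHL2))
  · ring
  · ring

/-- Second form: a fixed range of distances. -/
theorem range_form (α₀ α₁ : ℝ) (hα₀ : 0 < α₀) (hα₁ : α₁ < 1 / 2) :
    ∃ ε₀ : ℝ, 0 < ε₀ ∧ ∀ (n : ℕ) (f : (Fin (n + 1) → Bool) → Bool) (ε : ℝ), 0 < ε → ε < ε₀ →
      pOne (fun x => f (Fin.cons false x)) ≤ α₁ →
      1 - pOne (fun x => f (Fin.cons true x)) ≤ α₁ →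
      α₀ ≤ pOne (fun x => f (Fin.cons false x)) + (1 - pOne (fun x => f (Fin.cons true x))) →
      mutualInfo (jointFull f ε) ≤ 1 - h2 ε := by
  obtain ⟨C, ε₁, hC, hε₁, hmain⟩ := threshold_form α₁ hα₁
  obtain ⟨R₀, hR₀⟩ : ∃ R₀ : ℝ, R₀ = max 2 (4 * C / α₀) := ⟨_, rfl⟩
  have hR2 : 2 ≤ R₀ := by rw [hR₀]; exact le_max_left _ _
  have hRC : 4 * C / α₀ ≤ R₀ := by rw [hR₀]; exact le_max_right _ _
  refine ⟨min ε₁ (min (1 / 2) (Real.exp (-(R₀ ^ 2)))), lt_min hε₁ (lt_min (by norm_num) (Real.exp_pos _)), ?_⟩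
  intro n f ε he0 heps hp0 hp1 hsum
  have he1 : ε < ε₁ := lt_of_lt_of_le heps (min_le_left _ _)
  have he2 : ε < min (1 / 2) (Real.exp (-(R₀ ^ 2))) := lt_of_lt_of_le heps (min_le_right _ _)
  have he3 : ε < 1 / 2 := lt_of_lt_of_le he2 (min_le_left _ _)
  have he4 : ε < Real.exp (-(R₀ ^ 2)) := lt_of_lt_of_le he2 (min_le_right _ _)
  refine hmain n f ε he0 he1 hp0 hp1 ?_
  set L : ℝ := Real.log (1 / ε) with hL
  have hLgt : R₀ ^ 2 < L := by
    have h1 : Real.log ε < -(R₀ ^ 2) := by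
      rw [← Real.log_exp (-(R₀ ^ 2))]
      exact Real.log_lt_log he0 he4
    rw [hL, one_div, Real.log_inv]
    linarith
  have hLpos : 0 < L := lt_trans (by positivity) hLgt
  set R : ℝ := Real.sqrt (1 + L) with hR
  have hRsq : R ^ 2 = 1 + L := Real.sq_sqrt (by linarith)
  have hR0 : 0 < R := Real.sqrt_pos.mpr (by linarith)
  have hRR : R₀ ≤ R := by
    have : R₀ ^ 2 ≤ R ^ 2 := by rw [hRsq]; linarith
    by_contra hc
    rw [not_le] at hc
    nlinarith
  have hlogle : Real.log (1 + L) ≤ 2 * (R - 1) := by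
    rw [← hRsq, Real.log_pow]
    have := Real.log_le_sub_one_of_pos hR0
    push_cast
    linarith
  have hR2' : 2 ≤ R := hR2.trans hRR
  have hCR : 4 * C ≤ α₀ * R := by
    have h1 : 4 * C / α₀ ≤ R := hRC.trans hRR
    rw [div_le_iff₀ hα₀] at h1
    linarith
  have hL2 : R ^ 2 / 2 ≤ L := by nlinarith
  have h1 : C * (1 + Real.log (1 + L)) ≤ C * (2 * R) :=
    mul_le_mul_of_nonneg_left (by linarith) hC.le
  have h2 : α₀ * L ≤ (pOne (fun x => f (Fin.cons false x)) + (1 - pOne (fun x => f (Fin.cons true x)))) * L :=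
    mul_le_mul_of_nonneg_right hsum hLpos.le
  have h3 : C * (2 * R) ≤ α₀ * L := by
    have h4 : α₀ * (R ^ 2 / 2) ≤ α₀ * L := mul_le_mul_of_nonneg_left hL2 hα₀.le
    nlinarith
  linarith

/-- `pOne` splits along the first coordinate. -/
lemma pOne_split {n : ℕ} (f : (Fin (n + 1) → Bool) → Bool) :
    pOne f = (pOne (fun x => f (Fin.cons true x)) + pOne (fun x => f (Fin.cons false x))) / 2 := by
  rw [← avg_ind_true, ← avg_ind_true, ← avg_ind_true, avg_succ]
  rfl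

/-- Third form: balanced functions with first-level Fourier coefficient in a compact interval. -/
theorem balanced_form (lo hi : ℝ) (hlo : 0 < lo) (hhi : hi < 1) :
    ∃ ε₀ : ℝ, 0 < ε₀ ∧ ∀ (n : ℕ) (f : (Fin (n + 1) → Bool) → Bool) (ε : ℝ), 0 < ε → ε < ε₀ →
      pOne f = 1 / 2 →
      lo ≤ pOne (fun x => f (Fin.cons true x)) - pOne (fun x => f (Fin.cons false x)) →
      pOne (fun x => f (Fin.cons true x)) - pOne (fun x => f (Fin.cons false x)) ≤ hi →
      mutualInfo (jointFull f ε) ≤ 1 - h2 ε := by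
  obtain ⟨ε₀, h0, hmain⟩ := range_form (1 - hi) ((1 - lo) / 2) (by linarith) (by linarith)
  refine ⟨ε₀, h0, ?_⟩
  intro n f ε he0 he1 hbal h1 h2'
  have hs := pOne_split f
  rw [hbal] at hs
  exact hmain n f ε he0 he1 (by linarith) (by linarith) (by linarith)

end Vale.Agent.Lib.P322Low.NearDict
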