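import Vale.Agent.Lib.P322Low.TinyCore
import Vale.Agent.Lib.P322Low.TinyCover2

open Finset BigOperators

namespace Vale.Agent.Lib.P322Low.NearDict

open Vale.Agent.Lib.P322 Vale.Agent.Lib.P322Low

theorem tiny_all : ∃ ε₂ : ℝ, 0 < ε₂ ∧ ∀ (n : ℕ) (g : (Fin n → Bool) → Bool) (ε : ℝ), 0 < ε → ε < ε₂ →
      pOne g ≤ 1 / 16 → 0 ≤ avg (fun y => QQ ε (noise ε (ind g true) y)) := by
  obtain ⟨e2, h0, _, h⟩ := Vale.Agent.Lib.P322Low.TinyCover.tiny_cover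
  exact ⟨e2, h0, fun n g ε he0 he1 hp => h n g ε he0 he1 hp⟩

/-- Near (not nec. balanced) dictators satisfy the entropy bound: `a0, a1 ≤ α₁ < 1/2`. -/
theorem near_dictator (α₁ : ℝ) (hα₁ : α₁ < 1 / 2) : ∃ ε₀ : ℝ, 0 < ε₀ ∧
    ∀ (n : ℕ) (f : (Fin (n + 1) → Bool) → Bool) (ε : ℝ),
      0 < ε → ε < ε₀ → pOne (fun x => f (Fin.cons false x)) ≤ α₁ →
      1 - pOne (fun x => f (Fin.cons true x)) ≤ α₁ → Hb ε ≤ omega f ε :=
  near_dictator_of_tiny tiny_all α₁ hα₁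

end Vale.Agent.Lib.P322Low.NearDict
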