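import Vale.Agent.Lib.P322Low.FlowFinal

open Finset BigOperators

namespace Vale.Agent.Lib.P322Low

open Vale.Agent.Lib.P322

lemma mg_bsc_comp (t : ℝ) (a a' : Bool) :
    ∑ b : Bool, bsc t a b * bsc t a' b = bsc (2 * t * (1 - t)) a a' := by
  cases a <;> cases a' <;> simp [bsc, Fintype.sum_bool] <;> ring

lemma mg_kernel_comp (t : ℝ) {n : ℕ} (x x' : Fin n → Bool) :
    ∑ y : Fin n → Bool, (∏ i, bsc t (x i) (y i)) * (∏ i, bsc t (x' i) (y i))
      = ∏ i, bsc (2 * t * (1 - t)) (x i) (x' i) := by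
  have h := Finset.prod_univ_sum (fun _ : Fin n => (univ : Finset Bool))
    (fun i b => bsc t (x i) b * bsc t (x' i) b)
  simp only [Fintype.piFinset_univ] at h
  simp_rw [← prod_mul_distrib]
  rw [← h]
  exact prod_congr rfl fun i _ => mg_bsc_comp _ _ _

lemma mg_avg_sq {n : ℕ} (g : (Fin n → Bool) → ℝ) (t : ℝ) :
    avg (fun y => noise t g y * noise t g y)
      = avg (fun y => g y * noise (2 * t * (1 - t)) g y) := by
  unfold avg
  congr 1
  unfold noise
  have hL : ∀ y : Fin n → Bool, (∑ x, (∏ i, bsc t (x i) (y i)) * g x)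
        * (∑ x', (∏ i, bsc t (x' i) (y i)) * g x')
      = ∑ x, ∑ x', ((∏ i, bsc t (x i) (y i)) * (∏ i, bsc t (x' i) (y i))) * (g x * g x') := by
    intro y
    rw [sum_mul_sum]
    refine sum_congr rfl fun x _ => sum_congr rfl fun x' _ => by ring
  simp_rw [hL]
  have e1 : ∑ y : Fin n → Bool, ∑ x : Fin n → Bool, ∑ x' : Fin n → Bool,
        ((∏ i, bsc t (x i) (y i)) * (∏ i, bsc t (x' i) (y i))) * (g x * g x')
      = ∑ x : Fin n → Bool, ∑ x' : Fin n → Bool,
        (∏ i, bsc (2 * t * (1 - t)) (x i) (x' i)) * (g x * g x') := by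
    rw [sum_comm]
    refine sum_congr rfl fun x _ => ?_
    rw [sum_comm]
    refine sum_congr rfl fun x' _ => ?_
    rw [← sum_mul, mg_kernel_comp]
  rw [e1]
  have e2 : ∑ y : Fin n → Bool, g y * ∑ x, (∏ i, bsc (2 * t * (1 - t)) (x i) (y i)) * g x
      = ∑ x : Fin n → Bool, ∑ y : Fin n → Bool,
        (∏ i, bsc (2 * t * (1 - t)) (x i) (y i)) * (g x * g y) := by
    simp_rw [mul_sum]
    rw [sum_comm]
    refine sum_congr rfl fun x _ => sum_congr rfl fun y _ => by ring
  rw [e2]

lemma mg_Hb_ge {u : ℝ} (h0 : 0 ≤ u) (h1 : u ≤ 1) : 2 * u * (1 - u) ≤ Hb u := by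
  rcases h0.eq_or_lt with rfl | h0'
  · unfold Hb
    simp
  rcases h1.eq_or_lt with rfl | h1'
  · unfold Hb
    simp
  exact Hb_ge h0' h1'

lemma mg_noise_le_one {n : ℕ} (f : (Fin n → Bool) → Bool) {s : ℝ} (h0 : 0 ≤ s) (h1 : s ≤ 1 / 2)
    (y : Fin n → Bool) : noise s (ind f true) y ≤ 1 := by
  have h := noise_nonneg h0 h1 (ind_nonneg f false) y
  have e : noise s (ind f false) y = 1 - noise s (ind f true) y := by
    have hs := sum_kernel_x s y
    unfold noise
    rw [eq_sub_iff_add_eq, ← sum_add_distrib, ← hs]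
    refine sum_congr rfl fun x _ => ?_
    rw [← mul_add, add_comm (ind f false x), ind_add, mul_one]
  rw [e] at h
  linarith

/-- Noise sensitivity is controlled by the conditional entropy at a smaller noise. -/
theorem mg_ns {n : ℕ} (f : (Fin n → Bool) → Bool) {s : ℝ} (h0 : 0 ≤ s) (h1 : s ≤ 1 / 2) :
    ∃ s' : ℝ, 0 ≤ s' ∧ s' ≤ s ∧
      avg (fun y => |noise s (ind f true) y - ind f true y|) ≤ omega f s' := by
  set r : ℝ := Real.sqrt (1 - 2 * s) with hr
  have hr0 : 0 ≤ r := Real.sqrt_nonneg _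
  have hr2 : r ^ 2 = 1 - 2 * s := Real.sq_sqrt (by linarith)
  have hr1 : r ≤ 1 := by
    by_contra hc
    rw [not_le] at hc
    nlinarith
  set t : ℝ := (1 - r) / 2 with ht
  have ht0 : 0 ≤ t := by
    rw [ht]
    linarith
  have hts : t ≤ s := by
    have : s - t = r * (1 - r) / 2 := by
      rw [ht]
      nlinarith
    have h3 : 0 ≤ r * (1 - r) / 2 := by
      have := mul_nonneg hr0 (by linarith : 0 ≤ 1 - r)
      linarith
    linarith
  have ht12 : t ≤ 1 / 2 := by
    rw [ht]
    linarith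
  have hcomp : 2 * t * (1 - t) = s := by
    rw [ht]
    nlinarith
  refine ⟨t, ht0, hts, ?_⟩
  set u := noise t (ind f true) with hu
  set v := noise s (ind f true) with hv
  have hv0 : ∀ y, 0 ≤ v y := fun y => noise_nonneg h0 h1 (ind_nonneg f true) y
  have hv1 : ∀ y, v y ≤ 1 := fun y => mg_noise_le_one f h0 h1 y
  have hu0 : ∀ y, 0 ≤ u y := fun y => noise_nonneg ht0 ht12 (ind_nonneg f true) y
  have hu1 : ∀ y, u y ≤ 1 := fun y => mg_noise_le_one f ht0 ht12 y
  have hpoint : ∀ y, |v y - ind f true y| = ind f true y + (v y + (-2) * (ind f true y * v y)) := by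
    intro y
    unfold ind
    split_ifs
    · rw [abs_of_nonpos (by linarith [hv1 y])]
      ring
    · rw [sub_zero, abs_of_nonneg (hv0 y)]
      ring
  have hsq := mg_avg_sq (ind f true) t
  rw [hcomp] at hsq
  have hL : avg (fun y => |v y - ind f true y|) = 2 * pOne f + (-2) * avg (fun y => u y * u y) := by
    rw [funext hpoint, avg_add, avg_add, avg_const_mul, avg_ind_true, hsq, hv, avg_noise, avg_ind_true]
    ring
  have hR : avg (fun y => 2 * u y * (1 - u y)) = 2 * pOne f + (-2) * avg (fun y => u y * u y) := by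
    have e : (fun y => 2 * u y * (1 - u y)) = fun y => 2 * u y + (-2) * (u y * u y) := by
      funext y
      ring
    rw [e, avg_add, avg_const_mul, avg_const_mul, hu, avg_noise, avg_ind_true]
  rw [hL, ← hR]
  unfold omega avg
  apply div_le_div_of_nonneg_right _ (by positivity)
  exact sum_le_sum fun y _ => mg_Hb_ge (hu0 y) (hu1 y)

/-- Monotonicity of the conditional entropy in the noise. -/
theorem mg_omega_mono {n : ℕ} (f : (Fin n → Bool) → Bool) (ht : ∃ x, f x = true)
    (hf : ∃ x, f x = false) {a b : ℝ} (ha : 0 ≤ a) (hab : a ≤ b) (hb : b < 1 / 2) :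
    omega f a ≤ omega f b := by
  have hderiv : ∀ s ∈ Set.Ioo (0 : ℝ) b,
      HasDerivAt (omega f) (2 / (1 - 2 * s) * En (noise s (ind f true))) s := fun s hs =>
    hasDerivAt_omega f hs.1 (by linarith [hs.2]) ht hf
  have hmono : MonotoneOn (omega f) (Set.Icc 0 b) := by
    refine monotoneOn_of_deriv_nonneg (convex_Icc 0 b) (continuous_omega f).continuousOn ?_ ?_
    · rw [interior_Icc]
      exact fun s hs => (hderiv s hs).differentiableAt.differentiableWithinAt
    · rw [interior_Icc]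
      intro s hs
      rw [(hderiv s hs).deriv]
      have hs1 : s < 1 / 2 := by linarith [hs.2]
      refine mul_nonneg (div_nonneg (by norm_num) (by linarith)) ?_
      unfold En
      refine sum_nonneg fun i _ => avg_nonneg fun y => ?_
      exact cc_nonneg (noise_ind_pos f hs.1 hs1 true ht y) (noise_ind_lt_one f hs.1 hs1 hf y)
        (noise_ind_pos f hs.1 hs1 true ht _) (noise_ind_lt_one f hs.1 hs1 hf _)
  exact hmono ⟨ha, hab⟩ ⟨ha.trans hab, le_refl b⟩ hab

end Vale.Agent.Lib.P322Low
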