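import Vale.Agent.Lib.P322Low.Pointwise

open Finset BigOperators

namespace Vale.Agent.Lib.P322Low

open Vale.Agent.Lib.P322

lemma tb_mono {f f' : ℝ → ℝ} (hc : ContinuousOn f (Set.Icc 0 1))
    (hd : ∀ x ∈ Set.Ioo (0 : ℝ) 1, HasDerivAt f (f' x) x)
    (hn : ∀ x ∈ Set.Ioo (0 : ℝ) 1, 0 ≤ f' x) : ∀ x ∈ Set.Icc (0 : ℝ) 1, f 0 ≤ f x := by
  have hm := monotoneOn_of_deriv_nonneg (convex_Icc (0 : ℝ) 1) hc
    (fun x hx => (hd x (by simpa using hx)).differentiableAt.differentiableWithinAt)
    (fun x hx => by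
      rw [(hd x (by simpa using hx)).deriv]
      exact hn x (by simpa using hx))
  exact fun x hx => hm (Set.left_mem_Icc.2 zero_le_one) hx hx.1

/-- Second order lower bound for the even part of `(1+b)^p`. -/
lemma tb_even {p b : ℝ} (hp1 : 1 < p) (hp2 : p < 2) (hb : b ∈ Set.Icc (0 : ℝ) 1) :
    1 + p * (p - 1) / 2 * b ^ 2 ≤ ((1 + b) ^ p + (1 - b) ^ p) / 2 := by
  have hcont1 : Continuous fun x : ℝ => (1 + x) ^ (p - 1) :=
    (continuous_const.add continuous_id).rpow_const (fun _ => Or.inr (by linarith))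
  have hcont2 : Continuous fun x : ℝ => (1 - x) ^ (p - 1) :=
    (continuous_const.sub continuous_id).rpow_const (fun _ => Or.inr (by linarith))
  have hcont3 : Continuous fun x : ℝ => (1 + x) ^ p :=
    (continuous_const.add continuous_id).rpow_const (fun _ => Or.inr (by linarith))
  have hcont4 : Continuous fun x : ℝ => (1 - x) ^ p :=
    (continuous_const.sub continuous_id).rpow_const (fun _ => Or.inr (by linarith))
  -- first derivative is nonnegative
  have h1 : ∀ x ∈ Set.Icc (0 : ℝ) 1,
      0 ≤ p * (1 + x) ^ (p - 1) - p * (1 - x) ^ (p - 1) - 2 * p * (p - 1) * x := by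
    have := tb_mono
      (f := fun x : ℝ => p * (1 + x) ^ (p - 1) - p * (1 - x) ^ (p - 1) - 2 * p * (p - 1) * x)
      (f' := fun x : ℝ => p * (p - 1) * ((1 + x) ^ (p - 2) + (1 - x) ^ (p - 2) - 2))
      (Continuous.continuousOn (by fun_prop))
      (fun x hx => by
        have h1x : (1 + x) ≠ 0 := by have := hx.1; linarith
        have h2x : (1 - x) ≠ 0 := by have := hx.2; linarith
        have d1 : HasDerivAt (fun y : ℝ => (1 + y) ^ (p - 1)) (1 * (p - 1) * (1 + x) ^ (p - 1 - 1)) x :=
          ((hasDerivAt_id x).const_add 1).rpow_const (Or.inl h1x)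
        have d2 : HasDerivAt (fun y : ℝ => (1 - y) ^ (p - 1)) ((-1) * (p - 1) * (1 - x) ^ (p - 1 - 1)) x :=
          ((hasDerivAt_id x).const_sub 1).rpow_const (Or.inl h2x)
        have d3 : HasDerivAt (fun y : ℝ => 2 * p * (p - 1) * y) (2 * p * (p - 1) * 1) x :=
          (hasDerivAt_id x).const_mul _
        have d : HasDerivAt (fun y : ℝ => p * (1 + y) ^ (p - 1) - p * (1 - y) ^ (p - 1) - 2 * p * (p - 1) * y)
            (p * (1 * (p - 1) * (1 + x) ^ (p - 1 - 1)) - p * ((-1) * (p - 1) * (1 - x) ^ (p - 1 - 1))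
              - 2 * p * (p - 1) * 1) x := ((d1.const_mul p).sub (d2.const_mul p)).sub d3
        have e : p - 1 - 1 = p - 2 := by ring
        refine d.congr_deriv ?_
        rw [e]
        ring)
      (fun x hx => by
        have hx1 : 0 < 1 + x := by have := hx.1; linarith
        have hx2 : 0 < 1 - x := by have := hx.2; linarith
        have ha : 0 < (1 + x) ^ (p - 2) := Real.rpow_pos_of_pos hx1 _
        have hb' : 0 < (1 - x) ^ (p - 2) := Real.rpow_pos_of_pos hx2 _
        have hprod : 1 ≤ (1 + x) ^ (p - 2) * (1 - x) ^ (p - 2) := by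
          rw [← Real.mul_rpow hx1.le hx2.le]
          apply Real.one_le_rpow_of_pos_of_le_one_of_nonpos (by positivity) _ (by linarith)
          have := hx.1
          nlinarith
        have hsum : 2 ≤ (1 + x) ^ (p - 2) + (1 - x) ^ (p - 2) := by
          nlinarith [sq_nonneg ((1 + x) ^ (p - 2) - (1 - x) ^ (p - 2))]
        apply mul_nonneg (mul_nonneg (by linarith) (by linarith)) (by linarith))
    intro x hx
    have h := this x hx
    simpa using h
  have h2 := tb_mono
    (f := fun x : ℝ => (1 + x) ^ p + (1 - x) ^ p - 2 - p * (p - 1) * x ^ 2)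
    (f' := fun x : ℝ => p * (1 + x) ^ (p - 1) - p * (1 - x) ^ (p - 1) - 2 * p * (p - 1) * x)
    (Continuous.continuousOn (by fun_prop))
    (fun x hx => by
      have h1x : (1 + x) ≠ 0 := by have := hx.1; linarith
      have h2x : (1 - x) ≠ 0 := by have := hx.2; linarith
      have d1 : HasDerivAt (fun y : ℝ => (1 + y) ^ p) (1 * p * (1 + x) ^ (p - 1)) x :=
        ((hasDerivAt_id x).const_add 1).rpow_const (Or.inl h1x)
      have d2 : HasDerivAt (fun y : ℝ => (1 - y) ^ p) ((-1) * p * (1 - x) ^ (p - 1)) x :=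
        ((hasDerivAt_id x).const_sub 1).rpow_const (Or.inl h2x)
      have d3 : HasDerivAt (fun y : ℝ => p * (p - 1) * y ^ 2) (p * (p - 1) * (2 * x)) x := by
        have := (hasDerivAt_pow 2 x).const_mul (p * (p - 1))
        simpa using this
      have d : HasDerivAt (fun y : ℝ => (1 + y) ^ p + (1 - y) ^ p - 2 - p * (p - 1) * y ^ 2)
          (1 * p * (1 + x) ^ (p - 1) + (-1) * p * (1 - x) ^ (p - 1) - p * (p - 1) * (2 * x)) x :=
        ((d1.add d2).sub_const 2).sub d3
      refine d.congr_deriv ?_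
      ring)
    (fun x hx => h1 x ⟨hx.1.le, hx.2.le⟩)
    b hb
  simp only [add_zero, sub_zero, Real.one_rpow] at h2
  norm_num at h2
  linarith

/-- Two point inequality, normalized. -/
lemma tb_two_point_aux {p u v : ℝ} (hp1 : 1 < p) (hp2 : p < 2) (hv : 0 ≤ v) (huv : v ≤ u) (hu : 0 < u) :
    (p / 4) * (u ^ 2 + v ^ 2) + ((2 - p) / 2) * (u * v) ≤ ((u ^ p + v ^ p) / 2) ^ (2 / p) := by
  set m := (u + v) / 2 with hm
  have hmpos : 0 < m := by rw [hm]; linarith
  set b := (u - v) / (u + v) with hb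
  have huv' : 0 < u + v := by linarith
  have hb0 : 0 ≤ b := by rw [hb]; apply div_nonneg <;> linarith
  have hb1 : b ≤ 1 := by
    rw [hb, div_le_one huv']
    linarith
  have eu : u = m * (1 + b) := by
    rw [hm, hb]
    field_simp
    ring
  have ev : v = m * (1 - b) := by
    rw [hm, hb]
    field_simp
    ring
  have h1b : 0 ≤ 1 + b := by linarith
  have h2b : 0 ≤ 1 - b := by linarith
  have hW : (u ^ p + v ^ p) / 2 = m ^ p * (((1 + b) ^ p + (1 - b) ^ p) / 2) := by
    rw [eu, ev, Real.mul_rpow hmpos.le h1b, Real.mul_rpow hmpos.le h2b]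
    ring
  have hX := tb_even hp1 hp2 (b := b) ⟨hb0, hb1⟩
  have hp0 : 0 < p := by linarith
  set X := ((1 + b) ^ p + (1 - b) ^ p) / 2 with hXdef
  have hXnn : 0 ≤ X := by
    have : 0 ≤ p * (p - 1) / 2 * b ^ 2 := mul_nonneg (by nlinarith) (sq_nonneg b)
    linarith
  have hpow : (m ^ p * X) ^ (2 / p) = m ^ (2 : ℝ) * X ^ (2 / p) := by
    rw [Real.mul_rpow (by positivity) hXnn, ← Real.rpow_mul hmpos.le]
    congr 2
    field_simp
  have hbern : 1 + (2 / p) * (p * (p - 1) / 2 * b ^ 2) ≤ (1 + p * (p - 1) / 2 * b ^ 2) ^ (2 / p) := by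
    apply one_add_mul_self_le_rpow_one_add
    · have : 0 ≤ p * (p - 1) / 2 * b ^ 2 := mul_nonneg (by nlinarith) (sq_nonneg b)
      linarith
    · rw [le_div_iff₀ hp0]
      linarith
  have hmono : (1 + p * (p - 1) / 2 * b ^ 2) ^ (2 / p) ≤ X ^ (2 / p) := by
    apply Real.rpow_le_rpow _ hX (by positivity)
    have : 0 ≤ p * (p - 1) / 2 * b ^ 2 := mul_nonneg (by nlinarith) (sq_nonneg b)
    linarith
  have hfin : 1 + (p - 1) * b ^ 2 ≤ X ^ (2 / p) := by
    have e : (2 / p) * (p * (p - 1) / 2 * b ^ 2) = (p - 1) * b ^ 2 := by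
      field_simp
    rw [e] at hbern
    linarith
  rw [hW, hpow, Real.rpow_two]
  have hL : (p / 4) * (u ^ 2 + v ^ 2) + ((2 - p) / 2) * (u * v) = m ^ 2 * (1 + (p - 1) * b ^ 2) := by
    rw [eu, ev]
    ring
  rw [hL]
  exact mul_le_mul_of_nonneg_left hfin (by positivity)

lemma tb_two_point {p u v : ℝ} (hp1 : 1 < p) (hp2 : p < 2) (hu : 0 ≤ u) (hv : 0 ≤ v) :
    (p / 4) * (u ^ 2 + v ^ 2) + ((2 - p) / 2) * (u * v) ≤ ((u ^ p + v ^ p) / 2) ^ (2 / p) := by
  have hp0 : 0 < p := by linarith
  rcases le_total v u with h | h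
  · rcases hu.eq_or_lt with h0 | h0
    · have hv0 : v = 0 := le_antisymm (by linarith) hv
      subst hv0
      rw [← h0]
      simp [Real.zero_rpow hp0.ne', Real.zero_rpow (div_pos two_pos hp0).ne']
    · exact tb_two_point_aux hp1 hp2 hv h h0
  · rcases hv.eq_or_lt with h0 | h0
    · have hu0 : u = 0 := le_antisymm (by linarith) hu
      subst hu0
      rw [← h0]
      simp [Real.zero_rpow hp0.ne', Real.zero_rpow (div_pos two_pos hp0).ne']
    · have := tb_two_point_aux hp1 hp2 hu h h0
      have e1 : (p / 4) * (u ^ 2 + v ^ 2) + ((2 - p) / 2) * (u * v)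
          = (p / 4) * (v ^ 2 + u ^ 2) + ((2 - p) / 2) * (v * u) := by ring
      rw [e1, add_comm (u ^ p) (v ^ p)]
      exact this

lemma tb_noise_lin {n : ℕ} (e α β : ℝ) (F G : (Fin n → Bool) → ℝ) (y : Fin n → Bool) :
    noise e (fun x => α * F x + β * G x) y = α * noise e F y + β * noise e G y := by
  unfold noise
  rw [mul_sum, mul_sum, ← sum_add_distrib]
  refine sum_congr rfl fun x _ => ?_
  ring

lemma tb_avg4 {n : ℕ} (a b c d : ℝ) (f1 f2 f3 f4 : (Fin n → Bool) → ℝ) :
    avg (fun y => a * f1 y + b * f2 y + c * f3 y + d * f4 y)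
      = a * avg f1 + b * avg f2 + c * avg f3 + d * avg f4 := by
  unfold avg
  rw [sum_add_distrib, sum_add_distrib, sum_add_distrib, ← mul_sum, ← mul_sum, ← mul_sum, ← mul_sum]
  ring

/-- Two-function Bonami inequality for nonnegative functions. -/
theorem tb_main {e : ℝ} (h0 : 0 < e) (h1 : e < 1 / 2) (n : ℕ) :
    ∀ F G : (Fin n → Bool) → ℝ, (∀ x, 0 ≤ F x) → (∀ x, 0 ≤ G x) →
      avg (fun y => noise e F y * noise e G y)
        ≤ (avg (fun x => F x ^ (1 + (1 - 2 * e) ^ 2))) ^ (1 / (1 + (1 - 2 * e) ^ 2))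
          * (avg (fun x => G x ^ (1 + (1 - 2 * e) ^ 2))) ^ (1 / (1 + (1 - 2 * e) ^ 2)) := by
  set t : ℝ := (1 - 2 * e) ^ 2 with ht
  have ht0 : 0 < t := by
    rw [ht]
    have : 0 < 1 - 2 * e := by linarith
    positivity
  have ht1 : t < 1 := by
    rw [ht]
    nlinarith
  set p : ℝ := 1 + t with hp
  have hp1 : 1 < p := by rw [hp]; linarith
  have hp2 : p < 2 := by rw [hp]; linarith
  have hp0 : 0 < p := by linarith
  induction n with
  | zero =>
    intro F G hF hG
    have key : ∀ H : (Fin 0 → Bool) → ℝ, (∀ x, 0 ≤ H x) → ∀ y,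
        noise e H y = H y ∧ avg (fun x => H x ^ p) = H y ^ p := by
      intro H _ y
      have hy : ∀ x : Fin 0 → Bool, x = y := fun x => Subsingleton.elim _ _
      constructor
      · unfold noise
        rw [Fintype.sum_subsingleton _ y]
        simp
      · unfold avg
        rw [Fintype.sum_subsingleton _ y]
        simp
    have y0 : Fin 0 → Bool := fun i => i.elim0
    have e1 : avg (fun y => noise e F y * noise e G y) = F y0 * G y0 := by
      unfold avg
      rw [Fintype.sum_subsingleton _ y0, (key F hF y0).1, (key G hG y0).1]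
      simp
    rw [e1, (key F hF y0).2, (key G hG y0).2]
    have h2 : ∀ a : ℝ, 0 ≤ a → (a ^ p) ^ (1 / p) = a := by
      intro a ha
      rw [← Real.rpow_mul ha, mul_one_div_cancel hp0.ne', Real.rpow_one]
    rw [h2 _ (hF y0), h2 _ (hG y0)]
  | succ n ih =>
    intro F G hF hG
    set F1 : (Fin n → Bool) → ℝ := fun x => F (Fin.cons true x) with hF1
    set F0 : (Fin n → Bool) → ℝ := fun x => F (Fin.cons false x) with hF0
    set G1 : (Fin n → Bool) → ℝ := fun x => G (Fin.cons true x) with hG1
    set G0 : (Fin n → Bool) → ℝ := fun x => G (Fin.cons false x) with hG0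
    have hF1n : ∀ x, 0 ≤ F1 x := fun x => hF _
    have hF0n : ∀ x, 0 ≤ F0 x := fun x => hF _
    have hG1n : ∀ x, 0 ≤ G1 x := fun x => hG _
    have hG0n : ∀ x, 0 ≤ G0 x := fun x => hG _
    -- norms
    have hnorm : ∀ H : (Fin n → Bool) → ℝ, (∀ x, 0 ≤ H x) →
        ((avg (fun x => H x ^ p)) ^ (1 / p)) ^ p = avg (fun x => H x ^ p) := by
      intro H hH
      have hh : 0 ≤ avg (fun x => H x ^ p) := avg_nonneg fun x => Real.rpow_nonneg (hH x) _
      rw [← Real.rpow_mul hh, one_div_mul_cancel hp0.ne', Real.rpow_one]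
    set u1 := (avg (fun x => F1 x ^ p)) ^ (1 / p) with hu1
    set u0 := (avg (fun x => F0 x ^ p)) ^ (1 / p) with hu0
    set v1 := (avg (fun x => G1 x ^ p)) ^ (1 / p) with hv1
    set v0 := (avg (fun x => G0 x ^ p)) ^ (1 / p) with hv0
    have hu1n : 0 ≤ u1 := Real.rpow_nonneg (avg_nonneg fun x => Real.rpow_nonneg (hF1n x) _) _
    have hu0n : 0 ≤ u0 := Real.rpow_nonneg (avg_nonneg fun x => Real.rpow_nonneg (hF0n x) _) _
    have hv1n : 0 ≤ v1 := Real.rpow_nonneg (avg_nonneg fun x => Real.rpow_nonneg (hG1n x) _) _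
    have hv0n : 0 ≤ v0 := Real.rpow_nonneg (avg_nonneg fun x => Real.rpow_nonneg (hG0n x) _) _
    -- right hand side
    have hrF : avg (fun x => F x ^ p) = (u1 ^ p + u0 ^ p) / 2 := by
      rw [avg_succ, hu1, hu0, hnorm F1 hF1n, hnorm F0 hF0n]
    have hrG : avg (fun x => G x ^ p) = (v1 ^ p + v0 ^ p) / 2 := by
      rw [avg_succ, hv1, hv0, hnorm G1 hG1n, hnorm G0 hG0n]
    -- noise on the two half cubes
    have hN : ∀ H : (Fin (n + 1) → Bool) → ℝ, ∀ y : Fin n → Bool,
        noise e H (Fin.cons true y) = (1 - e) * noise e (fun x => H (Fin.cons true x)) y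
            + e * noise e (fun x => H (Fin.cons false x)) y
        ∧ noise e H (Fin.cons false y) = e * noise e (fun x => H (Fin.cons true x)) y
            + (1 - e) * noise e (fun x => H (Fin.cons false x)) y := by
      intro H y
      constructor
      · rw [noise_succ, ← tb_noise_lin]
        simp [bsc]
      · rw [noise_succ, ← tb_noise_lin]
        simp [bsc]
    -- left hand side
    have hL : avg (fun y => noise e F y * noise e G y)
        = (p / 4) * (avg (fun y => noise e F1 y * noise e G1 y)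
              + avg (fun y => noise e F0 y * noise e G0 y))
          + ((2 - p) / 4) * (avg (fun y => noise e F1 y * noise e G0 y)
              + avg (fun y => noise e F0 y * noise e G1 y)) := by
      have hp4 : p / 4 = ((1 - e) ^ 2 + e ^ 2) / 2 := by
        rw [hp, ht]
        ring
      have hq4 : (2 - p) / 4 = e * (1 - e) := by
        rw [hp, ht]
        ring
      have hFt : ∀ y, noise e F (Fin.cons true y) = (1 - e) * noise e F1 y + e * noise e F0 y :=
        fun y => (hN F y).1
      have hFf : ∀ y, noise e F (Fin.cons false y) = e * noise e F1 y + (1 - e) * noise e F0 y :=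
        fun y => (hN F y).2
      have hGt : ∀ y, noise e G (Fin.cons true y) = (1 - e) * noise e G1 y + e * noise e G0 y :=
        fun y => (hN G y).1
      have hGf : ∀ y, noise e G (Fin.cons false y) = e * noise e G1 y + (1 - e) * noise e G0 y :=
        fun y => (hN G y).2
      have hs : avg (fun y => noise e F y * noise e G y)
          = (avg (fun x : Fin n → Bool => noise e F (Fin.cons true x) * noise e G (Fin.cons true x))
            + avg (fun x : Fin n → Bool => noise e F (Fin.cons false x) * noise e G (Fin.cons false x))) / 2 :=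
        avg_succ _
      have e1 : (fun x : Fin n → Bool => noise e F (Fin.cons true x) * noise e G (Fin.cons true x))
          = fun y => (1 - e) ^ 2 * (noise e F1 y * noise e G1 y) + e ^ 2 * (noise e F0 y * noise e G0 y)
            + ((1 - e) * e) * (noise e F1 y * noise e G0 y)
            + (e * (1 - e)) * (noise e F0 y * noise e G1 y) := by
        funext y
        rw [hFt, hGt]
        ring
      have e2 : (fun x : Fin n → Bool => noise e F (Fin.cons false x) * noise e G (Fin.cons false x))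
          = fun y => e ^ 2 * (noise e F1 y * noise e G1 y) + (1 - e) ^ 2 * (noise e F0 y * noise e G0 y)
            + (e * (1 - e)) * (noise e F1 y * noise e G0 y)
            + ((1 - e) * e) * (noise e F0 y * noise e G1 y) := by
        funext y
        rw [hFf, hGf]
        ring
      rw [hs, e1, e2, tb_avg4, tb_avg4, hp4, hq4]
      ring
    have iA := ih F1 G1 hF1n hG1n
    have iB := ih F0 G0 hF0n hG0n
    have iC := ih F1 G0 hF1n hG0n
    have iD := ih F0 G1 hF0n hG1n
    have hBB : avg (fun y => noise e F y * noise e G y)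
        ≤ (p / 4) * (u1 * v1 + u0 * v0) + ((2 - p) / 4) * (u1 * v0 + u0 * v1) := by
      rw [hL]
      have hk1 : 0 ≤ p / 4 := by positivity
      have hk2 : 0 ≤ (2 - p) / 4 := by
        apply div_nonneg <;> linarith
      have a1 := mul_le_mul_of_nonneg_left (add_le_add iA iB) hk1
      have a2 := mul_le_mul_of_nonneg_left (add_le_add iC iD) hk2
      linarith
    -- two point inequality and Cauchy-Schwarz
    rw [hrF, hrG]
    have tU := tb_two_point hp1 hp2 hu1n hu0n
    have tV := tb_two_point hp1 hp2 hv1n hv0n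
    set WU := (u1 ^ p + u0 ^ p) / 2 with hWU
    set WV := (v1 ^ p + v0 ^ p) / 2 with hWV
    have hWUn : 0 ≤ WU := by
      rw [hWU]
      have := Real.rpow_nonneg hu1n p
      have := Real.rpow_nonneg hu0n p
      positivity
    have hWVn : 0 ≤ WV := by
      rw [hWV]
      have := Real.rpow_nonneg hv1n p
      have := Real.rpow_nonneg hv0n p
      positivity
    have sqU : (WU ^ (1 / p)) ^ 2 = WU ^ (2 / p) := by
      rw [← Real.rpow_natCast, ← Real.rpow_mul hWUn]
      congr 1
      push_cast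
      ring
    have sqV : (WV ^ (1 / p)) ^ 2 = WV ^ (2 / p) := by
      rw [← Real.rpow_natCast, ← Real.rpow_mul hWVn]
      congr 1
      push_cast
      ring
    rw [← sqU] at tU
    rw [← sqV] at tV
    set NU := WU ^ (1 / p) with hNU
    set NV := WV ^ (1 / p) with hNV
    have hNUn : 0 ≤ NU := Real.rpow_nonneg hWUn _
    have hNVn : 0 ≤ NV := Real.rpow_nonneg hWVn _
    set QU := (p / 4) * (u1 ^ 2 + u0 ^ 2) + ((2 - p) / 2) * (u1 * u0) with hQU
    set QV := (p / 4) * (v1 ^ 2 + v0 ^ 2) + ((2 - p) / 2) * (v1 * v0) with hQV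
    set BB := (p / 4) * (u1 * v1 + u0 * v0) + ((2 - p) / 4) * (u1 * v0 + u0 * v1) with hBBdef
    have hQUn : 0 ≤ QU := by
      rw [hQU]
      have : 0 ≤ (2 - p) / 2 := by apply div_nonneg <;> linarith
      positivity
    have hQVn : 0 ≤ QV := by
      rw [hQV]
      have : 0 ≤ (2 - p) / 2 := by apply div_nonneg <;> linarith
      positivity
    have hCS : BB ^ 2 ≤ QU * QV := by
      have e1 : QU * QV - BB ^ 2
          = (p - 1) / 16 * ((u1 + u0) * (v1 - v0) - (v1 + v0) * (u1 - u0)) ^ 2 := by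
        rw [hQU, hQV, hBBdef]
        ring
      have e2 : 0 ≤ (p - 1) / 16 * ((u1 + u0) * (v1 - v0) - (v1 + v0) * (u1 - u0)) ^ 2 := by
        apply mul_nonneg _ (sq_nonneg _)
        apply div_nonneg <;> linarith
      linarith
    have hfin : BB ≤ NU * NV := by
      have h3 : QU * QV ≤ NU ^ 2 * NV ^ 2 := mul_le_mul tU tV hQVn (by positivity)
      have h4 : BB ^ 2 ≤ (NU * NV) ^ 2 := by
        rw [mul_pow]
        linarith
      exact abs_le_of_sq_le_sq' h4 (mul_nonneg hNUn hNVn) |>.2
    linarith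

/-- The hypercontractive bound for noisy indicators. -/
theorem tiny_bonami {n : ℕ} (g h : (Fin n → Bool) → Bool) {e : ℝ} (h0 : 0 < e) (h1 : e < 1 / 2) :
    avg (fun y => noise e (ind g true) y * noise e (ind h true) y)
      ≤ (pOne g * pOne h) ^ (1 / (1 + (1 - 2 * e) ^ 2)) := by
  have hm := tb_main h0 h1 n (ind g true) (ind h true) (ind_nonneg g true) (ind_nonneg h true)
  have hp0 : 0 < 1 + (1 - 2 * e) ^ 2 := by positivity
  have hind : ∀ f : (Fin n → Bool) → Bool,
      avg (fun x => ind f true x ^ (1 + (1 - 2 * e) ^ 2)) = pOne f := by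
    intro f
    rw [← avg_ind_true]
    congr 1
    funext x
    unfold ind
    split_ifs
    · exact Real.one_rpow _
    · exact Real.zero_rpow hp0.ne'
  rw [hind g, hind h] at hm
  have hpg : 0 ≤ pOne g := by
    unfold pOne
    positivity
  rw [Real.mul_rpow hpg (by unfold pOne; positivity)]
  exact hm

end Vale.Agent.Lib.P322Low
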