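import Vale.Agent.Lib.P322Low.NearDict

open Finset BigOperators

namespace Vale.Agent.Lib.P322Low.NearDict

open Vale.Agent.Lib.P322 Vale.Agent.Lib.P322Low

/-- increments of a concave function -/
lemma Hb_incr {x y d : ℝ} (hx : 0 ≤ x) (hxy : x ≤ y) (hd : 0 ≤ d) (hy : y + d ≤ 1) :
    Hb x + Hb (y + d) ≤ Hb y + Hb (x + d) := by
  rcases (by linarith : 0 ≤ y - x + d).eq_or_lt with h | h
  · have h1 : d = 0 := by linarith
    have h2 : y = x := by linarith
    subst h1; subst h2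
    simp
  · obtain ⟨m, hm⟩ : ∃ m, m = d / (y - x + d) := ⟨_, rfl⟩
    have hm0 : 0 ≤ m := by rw [hm]; positivity
    have hm1 : m ≤ 1 := by
      rw [hm, div_le_one h]
      linarith
    have hmd : m * (y - x + d) = d := by
      rw [hm]; field_simp
    have hX : x ∈ Set.Icc (0 : ℝ) 1 := ⟨hx, by linarith⟩
    have hY : y + d ∈ Set.Icc (0 : ℝ) 1 := ⟨by linarith, hy⟩
    have c1 := Hb_conc hX hY hm0 (by linarith : 0 ≤ 1 - m) (by ring)
    have c2 := Hb_conc hX hY (by linarith : 0 ≤ 1 - m) hm0 (by ring)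
    have e1 : m * x + (1 - m) * (y + d) = y := by nlinarith
    have e2 : (1 - m) * x + m * (y + d) = x + d := by nlinarith
    rw [e1] at c1
    rw [e2] at c2
    nlinarith

/-- the defect `Q` of a single set -/
noncomputable def QQ (ε s : ℝ) : ℝ := Hb (ε * (1 - s)) + Hb (s + (1 - s) * ε) - 2 * Hb ε

/-- superadditivity -/
lemma psi_ge_QQ {s t ε : ℝ} (hs0 : 0 ≤ s) (hs1 : s ≤ 1) (ht0 : 0 ≤ t) (ht1 : t ≤ 1) (he0 : 0 < ε)
    (he1 : ε < 1 / 2) :
    QQ ε s + QQ ε t + 2 * Hb ε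
      ≤ Hb (ε * (1 - s) + (1 - ε) * t) + Hb (ε * (1 - t) + (1 - ε) * s) := by
  have hxs : ∀ u : ℝ, 0 ≤ u → u ≤ 1 → 0 ≤ ε * (1 - u) ∧ ε * (1 - u) ≤ ε := fun u h0 h1 =>
    ⟨mul_nonneg he0.le (by linarith), by nlinarith⟩
  have h1 := Hb_incr (x := ε * (1 - s)) (y := ε) (d := (1 - ε) * t) (hxs s hs0 hs1).1 (hxs s hs0 hs1).2
    (mul_nonneg (by linarith) ht0) (by nlinarith)
  have h2 := Hb_incr (x := ε * (1 - t)) (y := ε) (d := (1 - ε) * s) (hxs t ht0 ht1).1 (hxs t ht0 ht1).2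
    (mul_nonneg (by linarith) hs0) (by nlinarith)
  have e1 : ε + (1 - ε) * t = t + (1 - t) * ε := by ring
  have e2 : ε + (1 - ε) * s = s + (1 - s) * ε := by ring
  rw [e1] at h1
  rw [e2] at h2
  unfold QQ
  linarith

/-- Assembly: if both minority sets are good, the Courtade-Kumar bound holds. -/
theorem omega_ge_of_QQ {n : ℕ} (f : (Fin (n + 1) → Bool) → Bool) {ε : ℝ} (he0 : 0 < ε) (he1 : ε < 1 / 2)
    (h0 : 0 ≤ avg (fun y => QQ ε (noise ε (ind (fun x => f (Fin.cons false x)) true) y)))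
    (h1 : 0 ≤ avg (fun y => QQ ε (noise ε (ind (fun x => !f (Fin.cons true x)) true) y))) :
    Hb ε ≤ omega f ε := by
  rw [omega_succ]
  set P1 := noise ε (ind (fun x => f (Fin.cons true x)) true) with hP1
  set P0 := noise ε (ind (fun x => f (Fin.cons false x)) true) with hP0
  have hneg : ∀ y, noise ε (ind (fun x => !f (Fin.cons true x)) true) y = 1 - P1 y := fun y => by
    have e : ind (fun x => !f (Fin.cons true x)) true = ind (fun x => f (Fin.cons true x)) false := by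
      funext x
      unfold ind
      cases h : f (Fin.cons true x) <;> simp [h]
    rw [e, noise_ind_false]
  simp_rw [hneg] at h1
  have hP0' : ∀ y, 0 ≤ P0 y ∧ P0 y ≤ 1 := fun y => by
    have h1 := noise_nonneg he0.le he1.le (ind_nonneg (fun x => f (Fin.cons false x)) true) y
    have h2 := noise_nonneg he0.le he1.le (ind_nonneg (fun x => f (Fin.cons false x)) false) y
    rw [noise_ind_false] at h2
    exact ⟨h1, by rw [hP0]; linarith⟩
  have hP1' : ∀ y, 0 ≤ P1 y ∧ P1 y ≤ 1 := fun y => by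
    have h1 := noise_nonneg he0.le he1.le (ind_nonneg (fun x => f (Fin.cons true x)) true) y
    have h2 := noise_nonneg he0.le he1.le (ind_nonneg (fun x => f (Fin.cons true x)) false) y
    rw [noise_ind_false] at h2
    exact ⟨h1, by rw [hP1]; linarith⟩
  have hpt : ∀ y, QQ ε (P0 y) + QQ ε (1 - P1 y) + 2 * Hb ε
      ≤ Hb (ε * (1 - P0 y) + (1 - ε) * (1 - P1 y))
        + Hb (ε * (1 - (1 - P1 y)) + (1 - ε) * P0 y) := fun y =>
    psi_ge_QQ (hP0' y).1 (hP0' y).2 (by linarith [(hP1' y).2]) (by linarith [(hP1' y).1]) he0 he1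
  have hav := avg_mono' hpt
  rw [avg_add, avg_add, avg_const'] at hav
  linarith

/-- the Z-channel information -/
noncomputable def II (ε s : ℝ) : ℝ := Hb (s + (1 - s) * ε) - (1 - s) * Hb ε

lemma QQ_ge_II {s ε : ℝ} (hs0 : 0 ≤ s) (hs1 : s ≤ 1) (he0 : 0 < ε) (he1 : ε < 1 / 2) :
    II ε s - 2 * s * Hb ε ≤ QQ ε s := by
  have c := Hb_conc (x := ε) (y := 0) (a := 1 - s) (b := s) ⟨he0.le, by linarith⟩ ⟨le_refl _, by norm_num⟩
    (by linarith) hs0 (by ring)
  rw [Hb_zero] at c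
  have e : (1 - s) * ε + s * 0 = ε * (1 - s) := by ring
  rw [e] at c
  unfold II QQ
  nlinarith

lemma II_nonneg {s ε : ℝ} (hs0 : 0 ≤ s) (hs1 : s ≤ 1) (he0 : 0 < ε) (he1 : ε < 1 / 2) :
    0 ≤ II ε s := by
  have c := Hb_conc (x := ε) (y := 1) (a := 1 - s) (b := s) ⟨he0.le, by linarith⟩ ⟨by norm_num, le_refl _⟩
    (by linarith) hs0 (by ring)
  rw [Hb_one] at c
  have e : (1 - s) * ε + s * 1 = s + (1 - s) * ε := by ring
  rw [e] at c
  unfold II
  nlinarith

lemma Hb_mono {t u : ℝ} (ht0 : 0 ≤ t) (htu : t ≤ u) (hu : u ≤ 1 - t) : Hb t ≤ Hb u := by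
  rcases (by linarith : 0 ≤ 1 - 2 * t).eq_or_lt with h | h
  · have : u = t := by linarith
    rw [this]
  · obtain ⟨m, hm⟩ : ∃ m, m = (1 - t - u) / (1 - 2 * t) := ⟨_, rfl⟩
    have hm0 : 0 ≤ m := by
      rw [hm]
      exact div_nonneg (by linarith) h.le
    have hm1 : m ≤ 1 := by
      rw [hm, div_le_one h]
      linarith
    have hmd : m * (1 - 2 * t) = 1 - t - u := by
      rw [hm, div_mul_cancel₀ _ h.ne']
    have c := Hb_conc (x := t) (y := 1 - t) (a := m) (b := 1 - m) ⟨ht0, by linarith⟩ ⟨by linarith, by linarith⟩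
      hm0 (by linarith) (by ring)
    have e : m * t + (1 - m) * (1 - t) = u := by nlinarith
    rw [e, Hb_symm] at c
    have e2 : m * Hb t + (1 - m) * Hb t = Hb t := by ring
    linarith

/-- Truncated Z-channel bound in the small range `t ≤ t₁`. -/
lemma star_trunc {t ε c : ℝ} (ht0 : 0 < t) (ht1 : t ≤ 1 / 2) (he0 : 0 < ε) (he1 : ε < 1 / 2)
    (h1 : t ≤ ε → c * Real.log (1 / t) ≤ Real.log (1 / ε) - 2)
    (h2 : ε < t → 2 ≤ (1 - c) * Real.log (1 / t)) (hc : c ≤ 1) :
    c * Hb t ≤ II ε t := by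
  obtain ⟨a, ha⟩ : ∃ a, a = (1 - t) * ε := ⟨_, rfl⟩
  have h1t : 0 < 1 - t := by linarith
  have h1e : 0 < 1 - ε := by linarith
  have ha0 : 0 < a := by rw [ha]; positivity
  have hae : a ≤ ε := by rw [ha]; nlinarith
  have hid : II ε t = Hb t - (t * Real.log ((t + a) / t) + a * Real.log ((t + a) / a)) := by
    unfold II
    rw [← ha]
    have e1 : 1 - (t + a) = (1 - t) * (1 - ε) := by rw [ha]; ring
    have l1 : Real.log (1 - (t + a)) = Real.log (1 - t) + Real.log (1 - ε) := by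
      rw [e1, Real.log_mul h1t.ne' h1e.ne']
    have l2 : Real.log a = Real.log (1 - t) + Real.log ε := by
      rw [ha, Real.log_mul h1t.ne' he0.ne']
    have l3 : Real.log ((t + a) / t) = Real.log (t + a) - Real.log t :=
      Real.log_div (by positivity) ht0.ne'
    have l4 : Real.log ((t + a) / a) = Real.log (t + a) - Real.log a :=
      Real.log_div (by positivity) ha0.ne'
    unfold Hb
    rw [l1, l3, l4, e1, l2]
    generalize Real.log (t + a) = X
    rw [ha]
    ring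
  rw [hid]
  -- second term at most `t`
  have h3 : a * Real.log ((t + a) / a) ≤ t := by
    have h := Real.log_le_sub_one_of_pos (div_pos (by positivity : 0 < t + a) ha0)
    have h2 := mul_le_mul_of_nonneg_left h ha0.le
    have e : a * ((t + a) / a - 1) = t := by
      field_simp
      ring
    linarith
  have hL : Real.log (1 / t) = - Real.log t := by rw [one_div, Real.log_inv]
  have hHb : t * Real.log (1 / t) ≤ Hb t := by
    have := Hb_ge_log ht0 (by linarith : t < 1)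
    exact this
  have hLt : 0 < Real.log (1 / t) := Real.log_pos (by rw [lt_div_iff₀ ht0]; linarith)
  -- first term
  have h4 : Real.log ((t + a) / t) + 1 ≤ (1 - c) * Real.log (1 / t) := by
    rcases le_or_gt t ε with hte | hte
    · have h5 : (t + a) / t ≤ 2 * ε * (1 / t) := by
        rw [div_le_iff₀ ht0]
        field_simp
        linarith
      have h6 : Real.log ((t + a) / t) ≤ Real.log (2 * ε * (1 / t)) :=
        Real.log_le_log (by positivity) h5
      rw [Real.log_mul (by positivity) (by positivity), Real.log_mul (by norm_num) he0.ne'] at h6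
      have h7 : Real.log 2 < 1 := by
        have := Real.log_two_lt_d9
        linarith
      have h8 := h1 hte
      have h9 : Real.log (1 / ε) = - Real.log ε := by rw [one_div, Real.log_inv]
      nlinarith
    · have h5 : (t + a) / t ≤ 2 := by
        rw [div_le_iff₀ ht0]
        linarith
      have h6 : Real.log ((t + a) / t) ≤ Real.log 2 := Real.log_le_log (by positivity) h5
      have h7 : Real.log 2 < 1 := by
        have := Real.log_two_lt_d9
        linarith
      have h8 := h2 hte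
      linarith
  have h5 := mul_le_mul_of_nonneg_left h4 ht0.le
  have h6 : (1 - c) * (t * Real.log (1 / t)) ≤ (1 - c) * Hb t :=
    mul_le_mul_of_nonneg_left hHb (by linarith)
  nlinarith

/-- `ε` is tiny when `L ≥ 818`. -/
lemma eps_tiny {ε : ℝ} (he0 : 0 < ε) (heL : 818 ≤ Real.log (1 / ε)) : ε ≤ 1 / 300000 := by
  have h1 : Real.exp (Real.log (1 / ε)) = 1 / ε := Real.exp_log (by positivity)
  have h2 := Real.quadratic_le_exp_of_nonneg (x := Real.log (1 / ε)) (by linarith)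
  rw [h1] at h2
  have h3 : (300000 : ℝ) ≤ 1 / ε := by nlinarith
  rw [le_div_iff₀ he0] at h3
  linarith

lemma II_trunc {s ε : ℝ} (hs0 : 0 ≤ s) (hs1 : s ≤ 1) (he0 : 0 < ε) (heL : 818 ≤ Real.log (1 / ε)) :
    71 / 100 * Hb s - Hb (Real.exp (-(281 / 200 * Real.log (1 / ε)))) ≤ II ε s := by
  have htiny := eps_tiny he0 heL
  have he1 : ε < 1 / 2 := by linarith
  set L := Real.log (1 / ε) with hL
  set s₀ := Real.exp (-(281 / 200 * L)) with hs₀
  have hs00 : 0 < s₀ := Real.exp_pos _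
  have he : (2 : ℝ) ≤ Real.exp 1 := by
    have := Real.add_one_le_exp (1 : ℝ)
    linarith
  have hs0half : s₀ ≤ 1 / 2 := by
    have h1 : s₀ ≤ Real.exp (-1) := Real.exp_le_exp.2 (by linarith)
    rw [Real.exp_neg] at h1
    have h2 : (Real.exp 1)⁻¹ ≤ 2⁻¹ := inv_anti₀ (by norm_num) he
    norm_num at h2 ⊢
    linarith
  have hHs0 : 0 ≤ Hb s₀ := Hb_nonneg hs00.le (by linarith)
  have hHs : 0 ≤ Hb s := Hb_nonneg hs0 hs1
  have hdd : ε + Hb ε ≤ 1 / 10 := by
    have h1 := Hb_le_two_sqrt he0 (by linarith : ε < 1)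
    have h2 : Real.sqrt ε < 1 / 100 := by
      rw [Real.sqrt_lt' (by norm_num)]
      norm_num
      linarith
    linarith
  rcases lt_or_ge s s₀ with h1 | h1
  · have h2 := II_nonneg hs0 hs1 he0 he1
    have h3 := Hb_mono hs0 h1.le (by linarith)
    nlinarith
  · have hs_pos : 0 < s := lt_of_lt_of_le hs00 h1
    rcases le_or_gt (1 / 2) s with h2 | h2
    · have h3 := star_high (δ := 1 / 10) h2 hs1 he0 he1 hdd
      unfold II
      nlinarith
    · rcases le_or_gt s (Real.exp (-7)) with h3 | h3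
      · have hl1 : Real.log (1 / s) ≤ 281 / 200 * L := by
          rw [one_div, Real.log_inv]
          have := Real.log_le_log hs00 h1
          rw [hs₀, Real.log_exp] at this
          linarith
        have hl2 : 7 ≤ Real.log (1 / s) := by
          rw [one_div, Real.log_inv]
          have := Real.log_le_log hs_pos h3
          rw [Real.log_exp] at this
          linarith
        have h4 := star_trunc (c := 71 / 100) hs_pos h2.le he0 he1
          (fun _ => by linarith) (fun _ => by linarith) (by norm_num)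
        linarith
      · have h4 := star_low (δ := 1 / 10) hs_pos h2.le he0 he1 (by norm_num) (by norm_num)
        have h5 : Real.log (1 / (1 / 10 : ℝ)) ≤ 9 := by
          have := Real.log_le_sub_one_of_pos (by norm_num : (0 : ℝ) < 1 / (1 / 10))
          norm_num at this ⊢
          linarith
        have h6 := self_le_Hb hs_pos.le h2.le
        have h7 : 1 / 1100 ≤ s := by
          have h8 : Real.exp (-7) = (Real.exp 1 ^ 7)⁻¹ := by
            rw [Real.exp_neg, ← Real.exp_nat_mul]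
            norm_num
          have h9 : Real.exp 1 ^ 7 ≤ (2.7182818286 : ℝ) ^ 7 :=
            pow_le_pow_left₀ (Real.exp_pos 1).le Real.exp_one_lt_d9.le 7
          have h10 : (1 : ℝ) / 1100 ≤ (Real.exp 1 ^ 7)⁻¹ := by
            rw [one_div]
            apply inv_anti₀ (by positivity)
            refine h9.trans ?_
            norm_num
          rw [h8] at h3
          linarith
        have h11 : ε * (1 + Real.log (1 / (1 / 10 : ℝ))) ≤ ε * 10 :=
          mul_le_mul_of_nonneg_left (by linarith) he0.le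
        unfold II
        nlinarith

/-- Mid range: the flow bound implies that the set is good. -/
theorem good_mid {n : ℕ} (g : (Fin n → Bool) → Bool) {ε : ℝ} (he0 : 0 < ε)
    (heL : 818 ≤ Real.log (1 / ε))
    (ha : Real.exp (-(2 / 5 * Real.log (1 / ε))) ≤ pOne g)
    (hw : 29 / 10 * pOne g * Hb ε ≤ omega g ε) :
    0 ≤ avg (fun y => QQ ε (noise ε (ind g true) y)) := by
  have htiny := eps_tiny he0 heL
  have he1 : ε < 1 / 2 := by linarith
  set L := Real.log (1 / ε) with hL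
  have hs : ∀ y, 0 ≤ noise ε (ind g true) y ∧ noise ε (ind g true) y ≤ 1 := fun y => by
    have h1 := noise_nonneg he0.le he1.le (ind_nonneg g true) y
    have h2 := noise_nonneg he0.le he1.le (ind_nonneg g false) y
    rw [noise_ind_false] at h2
    exact ⟨h1, by linarith⟩
  set s₀ := Real.exp (-(281 / 200 * L)) with hs₀
  have hpt : ∀ y, 71 / 100 * Hb (noise ε (ind g true) y) + (-(2 * Hb ε)) * noise ε (ind g true) y
      + (- Hb s₀) ≤ QQ ε (noise ε (ind g true) y) := fun y => by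
    have h1 := II_trunc (hs y).1 (hs y).2 he0 heL
    have h2 := QQ_ge_II (hs y).1 (hs y).2 he0 he1
    nlinarith
  have hav := avg_mono' hpt
  rw [avg_add, avg_add, avg_const_mul, avg_const_mul, avg_const', avg_noise, avg_ind_true] at hav
  have ho : avg (fun y => Hb (noise ε (ind g true) y)) = omega g ε := rfl
  rw [ho] at hav
  -- estimates
  have hLpos : 0 < L := by linarith
  have hHL : ε * L ≤ Hb ε := Hb_ge_log he0 (by linarith)
  have hεexp : ε = Real.exp (-L) := by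
    rw [hL, Real.exp_neg, Real.exp_log (by positivity)]
    field_simp
  have hs01 : s₀ < 1 := by
    rw [hs₀, Real.exp_lt_one_iff]
    nlinarith
  have hs00 : 0 < s₀ := Real.exp_pos _
  have hb := Hb_le_small hs01 hs00
  have hl0 : Real.log (1 / s₀) = 281 / 200 * L := by
    rw [one_div, Real.log_inv, hs₀, Real.log_exp]
    ring
  rw [hl0] at hb
  have hprod : Real.exp (-(7 / 5 * L)) * L ≤ pOne g * Hb ε := by
    have e1 : Real.exp (-(7 / 5 * L)) = Real.exp (-(2 / 5 * L)) * ε := by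
      rw [hεexp, ← Real.exp_add]
      congr 1
      ring
    rw [e1, mul_assoc]
    exact mul_le_mul ha hHL (by positivity) (le_trans (Real.exp_pos _).le ha)
  have hsplit : s₀ = Real.exp (-(7 / 5 * L)) * Real.exp (-(1 / 200 * L)) := by
    rw [hs₀, ← Real.exp_add]
    congr 1
    ring
  have hsmall : Real.exp (-(1 / 200 * L)) ≤ 1 / 50 := by
    have h1 : Real.exp (-(1 / 200 * L)) ≤ Real.exp (-4) := Real.exp_le_exp.2 (by linarith)
    have h2 : Real.exp (-4) = (Real.exp 1 ^ 4)⁻¹ := by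
      rw [Real.exp_neg, ← Real.exp_nat_mul]
      norm_num
    have h3 : (2.7 : ℝ) ^ 4 ≤ Real.exp 1 ^ 4 :=
      pow_le_pow_left₀ (by norm_num) (by linarith [Real.exp_one_gt_d9]) 4
    have h4 : (Real.exp 1 ^ 4)⁻¹ ≤ 1 / 50 := by
      rw [one_div]
      apply inv_anti₀ (by norm_num)
      norm_num at h3 ⊢
      linarith
    linarith
  have hb2 : Hb s₀ ≤ 59 / 1000 * (Real.exp (-(7 / 5 * L)) * L) := by
    have e0 : 0 < Real.exp (-(7 / 5 * L)) := Real.exp_pos _
    have h1 : s₀ ≤ Real.exp (-(7 / 5 * L)) * (1 / 50) := by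
      rw [hsplit]
      exact mul_le_mul_of_nonneg_left hsmall e0.le
    have h2 : s₀ * (1 + 281 / 200 * L) ≤ Real.exp (-(7 / 5 * L)) * (1 / 50) * (1 + 281 / 200 * L) :=
      mul_le_mul_of_nonneg_right h1 (by positivity)
    have h3 : Real.exp (-(7 / 5 * L)) * (1 / 50) * (1 + 281 / 200 * L)
        ≤ 59 / 1000 * (Real.exp (-(7 / 5 * L)) * L) := by
      have : 1 / 50 * (1 + 281 / 200 * L) ≤ 59 / 1000 * L := by linarith
      have := mul_le_mul_of_nonneg_left this e0.le
      nlinarith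
    linarith
  nlinarith

end Vale.Agent.Lib.P322Low.NearDict

namespace Vale.Agent.Lib.P322Low.NearDict

open Vale.Agent.Lib.P322 Vale.Agent.Lib.P322Low Vale.Agent.Results.P322.LowNoiseExplicit

/-- for large `L`, `C (1 + ln (1 + L)) ≤ b L`. -/
lemma exists_small (C b : ℝ) (hC : 0 < C) (hb : 0 < b) : ∃ ε₀ : ℝ, 0 < ε₀ ∧ ε₀ ≤ 1 / 2 ∧ ∀ ε : ℝ, 0 < ε → ε < ε₀ →
    C * (1 + Real.log (1 + Real.log (1 / ε))) ≤ b * Real.log (1 / ε) := by
  obtain ⟨R₀, hR₀⟩ : ∃ R₀ : ℝ, R₀ = max 2 (4 * C / b) := ⟨_, rfl⟩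
  have hR2 : 2 ≤ R₀ := by rw [hR₀]; exact le_max_left _ _
  have hRC : 4 * C / b ≤ R₀ := by rw [hR₀]; exact le_max_right _ _
  refine ⟨min (1 / 2) (Real.exp (-(R₀ ^ 2))), lt_min (by norm_num) (Real.exp_pos _), min_le_left _ _, ?_⟩
  intro ε he0 he2
  have he4 : ε < Real.exp (-(R₀ ^ 2)) := lt_of_lt_of_le he2 (min_le_right _ _)
  set L : ℝ := Real.log (1 / ε) with hL
  have hLgt : R₀ ^ 2 < L := by
    have h1 : Real.log ε < -(R₀ ^ 2) := by
      rw [← Real.log_exp (-(R₀ ^ 2))]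
      exact Real.log_lt_log he0 he4
    rw [hL, one_div, Real.log_inv]
    linarith
  have hLpos : 0 < L := lt_trans (by positivity) hLgt
  set R : ℝ := Real.sqrt (1 + L) with hR
  have hRsq : R ^ 2 = 1 + L := Real.sq_sqrt (by linarith)
  have hR0 : 0 < R := Real.sqrt_pos.mpr (by linarith)
  have hRR : R₀ ≤ R := by
    have : R₀ ^ 2 ≤ R ^ 2 := by rw [hRsq]; linarith
    by_contra hc
    rw [not_le] at hc
    nlinarith
  have hlogle : Real.log (1 + L) ≤ 2 * (R - 1) := by
    rw [← hRsq, Real.log_pow]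
    have := Real.log_le_sub_one_of_pos hR0
    push_cast
    linarith
  have hR2' : 2 ≤ R := hR2.trans hRR
  have hCR : 4 * C ≤ b * R := by
    have h1 : 4 * C / b ≤ R := hRC.trans hRR
    rw [div_le_iff₀ hb] at h1
    linarith
  have hL2 : R ^ 2 / 2 ≤ L := by nlinarith
  have h1 : C * (1 + Real.log (1 + L)) ≤ C * (2 * R) :=
    mul_le_mul_of_nonneg_left (by linarith) hC.le
  have h3 : C * (2 * R) ≤ b * L := by
    have h4 : b * (R ^ 2 / 2) ≤ b * L := mul_le_mul_of_nonneg_left hL2 hb.le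
    nlinarith
  linarith

lemma good_real {δ H a ω E K A : ℝ} (hd0 : 0 < δ) (hd1 : δ < 1) (hH : 0 < H) (hE : 0 ≤ E) (ha : 0 ≤ a)
    (hav : (1 - δ) * ω + (-(2 * H)) * a + (-K) ≤ A)
    (hw : 4 * a * (1 - a) * H - E ≤ ω)
    (hg : δ * a ≤ 2 * (1 - δ) * (a * (1 - a)) - a)
    (hfin : E + K ≤ δ * a * H) : 0 ≤ A := by
  have h1 : (1 - δ) * (4 * a * (1 - a) * H - E) ≤ (1 - δ) * ω :=
    mul_le_mul_of_nonneg_left hw (by linarith)
  have h2 := mul_le_mul_of_nonneg_right hg hH.le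
  have h3 : 0 ≤ δ * E := mul_nonneg hd0.le hE
  have h4 : 0 ≤ δ * a * H := by positivity
  have e1 : (1 - δ) * (4 * a * (1 - a) * H - E)
      = 2 * (2 * (1 - δ) * (a * (1 - a)) * H) - E + δ * E := by ring
  have e2 : (2 * (1 - δ) * (a * (1 - a)) - a) * H = 2 * (1 - δ) * (a * (1 - a)) * H - a * H := by ring
  have e3 : δ * a * H = δ * a * H := rfl
  rw [e1] at h1
  rw [e2] at h2
  have e4 : (-(2 * H)) * a = -(2 * (a * H)) := by ring
  rw [e4] at hav
  linarith

lemma good_fin {ε δ α₀ a H E₀ K₀ L : ℝ} (he0 : 0 < ε) (hd0 : 0 < δ) (hα : 0 < α₀) (hH : 0 < H)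
    (hHL : ε * L ≤ H) (ha : α₀ ≤ a) (h : E₀ + K₀ ≤ δ * α₀ * L) :
    ε * E₀ + ε * K₀ ≤ δ * a * H := by
  have h1 := mul_le_mul_of_nonneg_left h he0.le
  have h2 : δ * α₀ * (ε * L) ≤ δ * α₀ * H := mul_le_mul_of_nonneg_left hHL (by positivity)
  have h3 : δ * α₀ * H ≤ δ * a * H :=
    mul_le_mul_of_nonneg_right (mul_le_mul_of_nonneg_left ha hd0.le) hH.le
  have e1 : ε * (E₀ + K₀) = ε * E₀ + ε * K₀ := by ring
  have e2 : ε * (δ * α₀ * L) = δ * α₀ * (ε * L) := by ring
  rw [e1, e2] at h1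
  linarith

lemma good_pt {s ε δ : ℝ} (hs0 : 0 ≤ s) (hs1 : s ≤ 1) (he0 : 0 < ε) (he12 : ε < 1 / 2) (hd0 : 0 < δ) (hd1 : δ ≤ 1)
    (hd : ε + Hb ε ≤ δ) :
    (1 - δ) * Hb s + (-(2 * Hb ε)) * s + (-(ε * (1 + Real.log (1 / δ)))) ≤ QQ ε s := by
  have h1 := star hs0 hs1 he0 he12 hd0 hd1 hd
  have h2 := QQ_ge_II hs0 hs1 he0 he12
  unfold II at h2
  linarith

lemma good_avg {n : ℕ} (g : (Fin n → Bool) → Bool) {ε δ : ℝ} (he0 : 0 < ε) (he12 : ε < 1 / 2) (hd0 : 0 < δ)
    (hd1 : δ ≤ 1) (hd : ε + Hb ε ≤ δ) :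
    (1 - δ) * omega g ε + (-(2 * Hb ε)) * pOne g + (-(ε * (1 + Real.log (1 / δ))))
      ≤ avg (fun y => QQ ε (noise ε (ind g true) y)) := by
  have hs : ∀ y, 0 ≤ noise ε (ind g true) y ∧ noise ε (ind g true) y ≤ 1 := fun y => by
    have h1 := noise_nonneg he0.le he12.le (ind_nonneg g true) y
    have h2 := noise_nonneg he0.le he12.le (ind_nonneg g false) y
    rw [noise_ind_false] at h2
    exact ⟨h1, by linarith⟩
  have hav := avg_mono' (fun y => good_pt (hs y).1 (hs y).2 he0 he12 hd0 hd1 hd)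
  rw [avg_add, avg_add, avg_const_mul, avg_const_mul, avg_const', avg_noise, avg_ind_true] at hav
  exact hav

/-- Constant size sets are good (below measure `1/2`). -/
theorem good_range (α₀ α₁ : ℝ) (hα₀ : 0 < α₀) (hα₁ : α₁ < 1 / 2) : ∃ ε₀ : ℝ, 0 < ε₀ ∧
    ∀ (n : ℕ) (g : (Fin n → Bool) → Bool) (ε : ℝ), 0 < ε → ε < ε₀ → α₀ ≤ pOne g → pOne g ≤ α₁ →
      0 ≤ avg (fun y => QQ ε (noise ε (ind g true) y)) := by
  obtain ⟨γ, hγ⟩ : ∃ γ, γ = 1 / 2 - α₁ := ⟨_, rfl⟩
  have hγ0 : 0 < γ := by rw [hγ]; linarith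
  obtain ⟨δ, hδ⟩ : ∃ δ, δ = γ / (1 + γ) := ⟨_, rfl⟩
  have hd0 : 0 < δ := by rw [hδ]; positivity
  have hd1 : δ < 1 := by
    rw [hδ, div_lt_one (by linarith)]
    linarith
  have h1d : 1 - δ = 1 / (1 + γ) := by
    rw [hδ]
    field_simp
    ring
  have hlogd : 0 ≤ Real.log (1 / δ) := by
    apply Real.log_nonneg
    rw [le_div_iff₀ hd0]
    linarith
  obtain ⟨ε₁, h1pos, h1le, h1⟩ := exists_small (10 + Real.log (1 / δ)) (δ * α₀) (by positivity) (by positivity)
  refine ⟨min ε₁ (min (1 / 4) ((δ / 3) ^ 2)), lt_min h1pos (lt_min (by norm_num) (by positivity)), ?_⟩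
  intro n g ε he0 heps ha0 ha1
  have he' : ε < ε₁ := lt_of_lt_of_le heps (min_le_left _ _)
  have he'' : ε < min (1 / 4) ((δ / 3) ^ 2) := lt_of_lt_of_le heps (min_le_right _ _)
  have he1 : ε < 1 / 4 := lt_of_lt_of_le he'' (min_le_left _ _)
  have he2 : ε < (δ / 3) ^ 2 := lt_of_lt_of_le he'' (min_le_right _ _)
  have he12 : ε < 1 / 2 := by linarith
  have hsq : Real.sqrt ε < δ / 3 := by
    rw [Real.sqrt_lt' (by positivity)]
    exact he2
  have hes : ε ≤ Real.sqrt ε := by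
    have h := Real.sq_sqrt he0.le
    have hs0 : 0 < Real.sqrt ε := Real.sqrt_pos.mpr he0
    have hs1 : Real.sqrt ε < 1 := by
      rw [Real.sqrt_lt' (by norm_num)]
      linarith
    nlinarith
  have hd : ε + Hb ε ≤ δ := by
    have := Hb_le_two_sqrt he0 (by linarith : ε < 1)
    linarith
  have hav := good_avg g he0 he12 hd0 hd1.le hd
  have hw := omega_explicit g he0 he12
  have hp := pOne_mem g
  have hHL : ε * Real.log (1 / ε) ≤ Hb ε := Hb_ge_log he0 (by linarith)
  have hLpos : 0 < Real.log (1 / ε) := Real.log_pos (by rw [lt_div_iff₀ he0]; linarith)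
  have hHpos : 0 < Hb ε := lt_of_lt_of_le (by positivity) hHL
  have hg := hgen_real hγ hδ hγ0 h1d hd1 hp.1 ha1
  have hl0 : 0 ≤ Real.log (1 + Real.log (1 / ε)) := Real.log_nonneg (by linarith)
  have hl2 : Real.log 2 < 0.7 := by
    have := Real.log_two_lt_d9
    linarith
  have hl2' : 0 < Real.log 2 := Real.log_pos (by norm_num)
  have hfin := hfin_scalar hlogd hl0 hl2
  have hthr := h1 ε he0 he'
  have hE : 0 ≤ ε * (2 + 9 * Real.log 2 + Real.log (1 + Real.log (1 / ε))) := by positivity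
  exact good_real hd0 hd1 hHpos hE hp.1 hav hw hg
    (good_fin he0 hd0 hα₀ hHpos hHL ha0 (hfin.trans hthr))

/-- `!f` has measure `1 - pOne f`. -/
lemma pOne_not {n : ℕ} (f : (Fin n → Bool) → Bool) : pOne (fun x => !f x) = 1 - pOne f := by
  rw [← avg_ind_true, ← avg_ind_false]
  congr 1
  funext x
  unfold ind
  cases h : f x <;> simp [h]

/-- `!f` has the same conditional entropy. -/
lemma omega_not {n : ℕ} (f : (Fin n → Bool) → Bool) (ε : ℝ) : omega (fun x => !f x) ε = omega f ε := by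
  unfold omega
  congr 1
  funext y
  have e : ind (fun x => !f x) true = ind f false := by
    funext x
    unfold ind
    cases h : f x <;> simp [h]
  rw [e, noise_ind_false, Hb_symm]

/-- The conclusion, given goodness of all small sets. -/
theorem near_dictator_of_tiny
    (htiny : ∃ ε₂ : ℝ, 0 < ε₂ ∧ ∀ (n : ℕ) (g : (Fin n → Bool) → Bool) (ε : ℝ), 0 < ε → ε < ε₂ →
      pOne g ≤ 1 / 16 → 0 ≤ avg (fun y => QQ ε (noise ε (ind g true) y)))
    (α₁ : ℝ) (hα₁ : α₁ < 1 / 2) : ∃ ε₀ : ℝ, 0 < ε₀ ∧ ∀ (n : ℕ) (f : (Fin (n + 1) → Bool) → Bool) (ε : ℝ),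
      0 < ε → ε < ε₀ → pOne (fun x => f (Fin.cons false x)) ≤ α₁ →
      1 - pOne (fun x => f (Fin.cons true x)) ≤ α₁ → Hb ε ≤ omega f ε := by
  obtain ⟨ε₂, h2pos, h2⟩ := htiny
  obtain ⟨ε₃, h3pos, h3⟩ := good_range (1 / 16) α₁ (by norm_num) hα₁
  refine ⟨min ε₂ (min ε₃ (1 / 2)), lt_min h2pos (lt_min h3pos (by norm_num)), ?_⟩
  intro n f ε he0 heps hp0 hp1
  have he2 : ε < ε₂ := lt_of_lt_of_le heps (min_le_left _ _)
  have he' : ε < min ε₃ (1 / 2) := lt_of_lt_of_le heps (min_le_right _ _)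
  have he3 : ε < ε₃ := lt_of_lt_of_le he' (min_le_left _ _)
  have he12 : ε < 1 / 2 := lt_of_lt_of_le he' (min_le_right _ _)
  have good : ∀ (g : (Fin n → Bool) → Bool), pOne g ≤ α₁ →
      0 ≤ avg (fun y => QQ ε (noise ε (ind g true) y)) := by
    intro g hg
    rcases le_total (pOne g) (1 / 16) with h | h
    · exact h2 n g ε he0 he2 h
    · exact h3 n g ε he0 he3 h hg
  apply omega_ge_of_QQ f he0 he12 (good _ hp0) (good _ _)
  rw [pOne_not]
  exact hp1

end Vale.Agent.Lib.P322Low.NearDict
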