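import Vale.Agent.Lib.P322Low.NearDict

open Finset BigOperators

namespace Vale.Agent.Lib.P322Low.TinyCover

open Vale.Agent.Lib.P322 Vale.Agent.Lib.P322Low Vale.Agent.Lib.P322Low.NearDict

/-- The gain function. -/
noncomputable def tcQ (e s : ℝ) : ℝ := Hb (e * (1 - s)) + Hb (s + (1 - s) * e) - 2 * Hb e

/-- Indicator of a set of the cube. -/
noncomputable def tcInd {n : ℕ} (S : Finset (Fin n → Bool)) (x : Fin n → Bool) : ℝ :=
  if x ∈ S then 1 else 0

/-- The averaged gain of a set. -/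
noncomputable def tcD (e : ℝ) {n : ℕ} (S : Finset (Fin n → Bool)) : ℝ :=
  avg (fun y => tcQ e (noise e (tcInd S) y))

lemma Hb_four {x y z w : ℝ} (hz : 0 ≤ z) (hzx : z ≤ x) (hzy : z ≤ y) (hxw : x ≤ w) (hyw : y ≤ w)
    (hw : w ≤ 1) (h : x + y = z + w) : Hb z + Hb w ≤ Hb x + Hb y := by
  rcases (hzx.trans hxw).eq_or_lt with hzw | hzw
  · have hx : x = z := by linarith
    have hy : y = z := by linarith
    rw [hx, hy, ← hzw]
  have hd : 0 < w - z := by linarith
  set t : ℝ := (x - z) / (w - z) with ht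
  have ht0 : 0 ≤ t := div_nonneg (by linarith) hd.le
  have ht1 : t ≤ 1 := by
    rw [ht, div_le_one hd]
    linarith
  have hx : (1 - t) * z + t * w = x := by
    rw [ht]
    field_simp
    ring
  have hy : t * z + (1 - t) * w = y := by
    have : y = z + w - x := by linarith
    rw [this, ← hx]
    ring
  have hzI : z ∈ Set.Icc (0 : ℝ) 1 := ⟨hz, by linarith⟩
  have hwI : w ∈ Set.Icc (0 : ℝ) 1 := ⟨by linarith, hw⟩
  have h1 := Hb_conc hzI hwI (by linarith : 0 ≤ 1 - t) ht0 (by ring)
  have h2 := Hb_conc hzI hwI ht0 (by linarith : 0 ≤ 1 - t) (by ring)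
  rw [hx] at h1
  rw [hy] at h2
  nlinarith

lemma tcQ_four {e x y z w : ℝ} (he0 : 0 ≤ e) (he1 : e ≤ 1) (hz : 0 ≤ z) (hzx : z ≤ x) (hzy : z ≤ y)
    (hxw : x ≤ w) (hyw : y ≤ w) (hw : w ≤ 1) (h : x + y = z + w) :
    tcQ e z + tcQ e w ≤ tcQ e x + tcQ e y := by
  unfold tcQ
  have h1 : Hb (e * (1 - w)) + Hb (e * (1 - z)) ≤ Hb (e * (1 - x)) + Hb (e * (1 - y)) := by
    apply Hb_four
    · exact mul_nonneg he0 (by linarith)
    · exact mul_le_mul_of_nonneg_left (by linarith) he0
    · exact mul_le_mul_of_nonneg_left (by linarith) he0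
    · exact mul_le_mul_of_nonneg_left (by linarith) he0
    · exact mul_le_mul_of_nonneg_left (by linarith) he0
    · have : 1 - z ≤ 1 := by linarith
      nlinarith
    · nlinarith
  have h2 : Hb (z + (1 - z) * e) + Hb (w + (1 - w) * e) ≤ Hb (x + (1 - x) * e) + Hb (y + (1 - y) * e) := by
    apply Hb_four
    · have : 0 ≤ (1 - z) * e := mul_nonneg (by linarith) he0
      linarith
    · nlinarith
    · nlinarith
    · nlinarith
    · nlinarith
    · nlinarith
    · nlinarith
  linarith

lemma tc_noise_mono {n : ℕ} {e : ℝ} (h0 : 0 ≤ e) (h1 : e ≤ 1 / 2) {A B : Finset (Fin n → Bool)}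
    (h : A ⊆ B) (y : Fin n → Bool) : noise e (tcInd A) y ≤ noise e (tcInd B) y := by
  unfold noise
  refine sum_le_sum fun x _ => mul_le_mul_of_nonneg_left ?_ (kernel_nonneg h0 h1 x y)
  unfold tcInd
  by_cases hx : x ∈ A
  · simp [hx, h hx]
  · simp only [hx, if_false]
    split_ifs <;> norm_num

lemma tc_noise_nonneg {n : ℕ} {e : ℝ} (h0 : 0 ≤ e) (h1 : e ≤ 1 / 2) (A : Finset (Fin n → Bool))
    (y : Fin n → Bool) : 0 ≤ noise e (tcInd A) y := by
  refine noise_nonneg h0 h1 (fun x => ?_) y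
  unfold tcInd
  split_ifs <;> norm_num

lemma tc_noise_le_one {n : ℕ} {e : ℝ} (h0 : 0 ≤ e) (h1 : e ≤ 1 / 2) (A : Finset (Fin n → Bool))
    (y : Fin n → Bool) : noise e (tcInd A) y ≤ 1 := by
  have h2 : noise e (tcInd A) y ≤ ∑ x : Fin n → Bool, ∏ i, bsc e (x i) (y i) := by
    unfold noise
    refine sum_le_sum fun x _ => ?_
    have h3 : tcInd A x ≤ 1 := by
      unfold tcInd
      split_ifs <;> norm_num
    have := mul_le_mul_of_nonneg_left h3 (kernel_nonneg h0 h1 x y)
    linarith
  rwa [sum_kernel_x] at h2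

lemma tc_noise_add {n : ℕ} (e : ℝ) (A B : Finset (Fin n → Bool)) (y : Fin n → Bool) :
    noise e (tcInd A) y + noise e (tcInd B) y
      = noise e (tcInd (A ∩ B)) y + noise e (tcInd (A ∪ B)) y := by
  unfold noise
  rw [← sum_add_distrib, ← sum_add_distrib]
  refine sum_congr rfl fun x _ => ?_
  rw [← mul_add, ← mul_add]
  congr 1
  unfold tcInd
  by_cases ha : x ∈ A <;> by_cases hb : x ∈ B <;> simp [ha, hb]

/-- Submodularity. -/
lemma tcD_sub {n : ℕ} {e : ℝ} (h0 : 0 ≤ e) (h1 : e ≤ 1 / 2) (A B : Finset (Fin n → Bool)) :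
    tcD e (A ∩ B) + tcD e (A ∪ B) ≤ tcD e A + tcD e B := by
  unfold tcD
  rw [← avg_add, ← avg_add]
  refine avg_mono' fun y => ?_
  exact tcQ_four h0 (by linarith) (tc_noise_nonneg h0 h1 _ y)
    (tc_noise_mono h0 h1 inter_subset_left y) (tc_noise_mono h0 h1 inter_subset_right y)
    (tc_noise_mono h0 h1 subset_union_left y) (tc_noise_mono h0 h1 subset_union_right y)
    (tc_noise_le_one h0 h1 _ y) (tc_noise_add e A B y)

lemma tcD_empty {n : ℕ} (e : ℝ) : tcD e (∅ : Finset (Fin n → Bool)) = 0 := by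
  unfold tcD
  have h : ∀ y : Fin n → Bool, noise e (tcInd (∅ : Finset (Fin n → Bool))) y = 0 := by
    intro y
    unfold noise tcInd
    simp
  simp only [h]
  have : tcQ e 0 = 0 := by
    unfold tcQ
    simp
    ring
  rw [this]
  exact avg_const' 0

/-- Xor shift of the cube. -/
def tcShift {n : ℕ} (z : Fin n → Bool) : (Fin n → Bool) ≃ (Fin n → Bool) where
  toFun x := fun i => xor (x i) (z i)
  invFun x := fun i => xor (x i) (z i)
  left_inv x := by
    funext i
    show xor (xor (x i) (z i)) (z i) = x i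
    cases x i <;> cases z i <;> rfl
  right_inv x := by
    funext i
    show xor (xor (x i) (z i)) (z i) = x i
    cases x i <;> cases z i <;> rfl

lemma tcShift_self {n : ℕ} (z x : Fin n → Bool) : tcShift z (tcShift z x) = x :=
  (tcShift z).left_inv x

lemma tc_bsc_xor (e : ℝ) (a b c : Bool) : bsc e (xor a c) b = bsc e a (xor b c) := by
  cases a <;> cases b <;> cases c <;> simp [bsc]

/-- Translate of a set. -/
noncomputable def tcTr {n : ℕ} (z : Fin n → Bool) (S : Finset (Fin n → Bool)) : Finset (Fin n → Bool) :=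
  S.map (tcShift z).toEmbedding

lemma tcTr_card {n : ℕ} (z : Fin n → Bool) (S : Finset (Fin n → Bool)) :
    (tcTr z S).card = S.card := by
  unfold tcTr
  exact card_map _

lemma tcTr_mem {n : ℕ} (z : Fin n → Bool) (S : Finset (Fin n → Bool)) (x : Fin n → Bool) :
    x ∈ tcTr z S ↔ tcShift z x ∈ S := by
  unfold tcTr
  simp only [mem_map, Equiv.coe_toEmbedding]
  constructor
  · rintro ⟨a, ha, rfl⟩
    rwa [tcShift_self]
  · intro h
    exact ⟨_, h, tcShift_self z x⟩

lemma tc_noise_tr {n : ℕ} (e : ℝ) (z : Fin n → Bool) (S : Finset (Fin n → Bool)) (y : Fin n → Bool) :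
    noise e (tcInd (tcTr z S)) y = noise e (tcInd S) (tcShift z y) := by
  unfold noise
  refine (Equiv.sum_comp (tcShift z) _).symm.trans ?_
  refine sum_congr rfl fun x _ => ?_
  have h1 : tcInd (tcTr z S) (tcShift z x) = tcInd S x := by
    unfold tcInd
    simp only [tcTr_mem, tcShift_self]
  rw [h1]
  congr 1
  refine prod_congr rfl fun i _ => ?_
  exact tc_bsc_xor e (x i) (y i) (z i)

lemma tcD_tr {n : ℕ} (e : ℝ) (z : Fin n → Bool) (S : Finset (Fin n → Bool)) :
    tcD e (tcTr z S) = tcD e S := by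
  unfold tcD avg
  congr 1
  simp only [tc_noise_tr]
  exact Equiv.sum_comp (tcShift z) (fun y => tcQ e (noise e (tcInd S) y))

/-- The covering argument: nonnegativity on a range of sizes propagates down to all small sets. -/
theorem tc_cover {n : ℕ} {e T : ℝ} (h0 : 0 ≤ e) (h1 : e ≤ 1 / 2) (hT : 2 * T ≤ 2 ^ n)
    (hrange : ∀ b : Finset (Fin n → Bool), T ≤ b.card → (b.card : ℝ) ≤ 2 * T → 0 ≤ tcD e b)
    (a : Finset (Fin n → Bool)) (ha : (a.card : ℝ) ≤ T) : 0 ≤ tcD e a := by
  by_contra hneg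
  rw [not_le] at hneg
  have hane : a.Nonempty := by
    rw [nonempty_iff_ne_empty]
    rintro rfl
    rw [tcD_empty] at hneg
    exact lt_irrefl _ hneg
  classical
  set F : Finset (Finset (Fin n → Bool)) :=
    (univ : Finset (Finset (Fin n → Bool))).filter (fun c => c.Nonempty ∧ (c.card : ℝ) ≤ T) with hF
  have haF : a ∈ F := by
    rw [hF, mem_filter]
    exact ⟨mem_univ _, hane, ha⟩
  obtain ⟨s, hsF, hsmax⟩ := exists_max_image F (fun c => - tcD e c / (c.card : ℝ)) ⟨a, haF⟩
  rw [hF, mem_filter] at hsF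
  obtain ⟨-, hsne, hsT⟩ := hsF
  have hspos : (0 : ℝ) < s.card := by exact_mod_cast hsne.card_pos
  set κ : ℝ := - tcD e s / (s.card : ℝ) with hκ
  have hapos : (0 : ℝ) < a.card := by exact_mod_cast hane.card_pos
  have hκ0 : 0 < κ := by
    have h2 := hsmax a haF
    have h3 : 0 < - tcD e a / (a.card : ℝ) := div_pos (by linarith) hapos
    exact lt_of_lt_of_le h3 h2
  have hDs : tcD e s = - κ * s.card := by
    rw [hκ]
    field_simp
  have hlow : ∀ c : Finset (Fin n → Bool), (c.card : ℝ) ≤ T → - κ * c.card ≤ tcD e c := by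
    intro c hc
    by_cases hce : c.Nonempty
    · have hcF : c ∈ F := by
        rw [hF, mem_filter]
        exact ⟨mem_univ _, hce, hc⟩
      have h2 := hsmax c hcF
      have hcpos : (0 : ℝ) < c.card := by exact_mod_cast hce.card_pos
      have h3 : - tcD e c ≤ κ * c.card := by
        rwa [div_le_iff₀ hcpos] at h2
      linarith
    · rw [not_nonempty_iff_eq_empty] at hce
      subst hce
      simp [tcD_empty]
  set G : Finset (Finset (Fin n → Bool)) :=
    (univ : Finset (Finset (Fin n → Bool))).filter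
      (fun b => (b.card : ℝ) ≤ 2 * T ∧ tcD e b ≤ - κ * b.card) with hG
  have hTpos : 0 < T := lt_of_lt_of_le hspos hsT
  have hsG : s ∈ G := by
    rw [hG, mem_filter]
    exact ⟨mem_univ _, by linarith, hDs.le⟩
  obtain ⟨b, hbG, hbmax⟩ := exists_max_image G (fun c => c.card) ⟨s, hsG⟩
  rw [hG, mem_filter] at hbG
  obtain ⟨-, hb2T, hbD⟩ := hbG
  by_cases hbT : T ≤ b.card
  · have h2 := hrange b hbT hb2T
    have hbpos : (0 : ℝ) < b.card := lt_of_lt_of_le hTpos hbT
    have : 0 < κ * b.card := mul_pos hκ0 hbpos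
    linarith
  rw [not_le] at hbT
  -- a point outside b
  have hex : ∃ x, x ∉ b := by
    by_contra hall
    push Not at hall
    have h2 : b = univ := by
      ext x
      simp [hall x]
    have h3 : (b.card : ℝ) = 2 ^ n := by
      rw [h2, card_univ]
      simp
    linarith
  obtain ⟨x, hx⟩ := hex
  obtain ⟨p, hp⟩ := hsne
  set z : Fin n → Bool := fun i => xor (x i) (p i) with hz
  set a' : Finset (Fin n → Bool) := tcTr z s with ha'
  have hxa' : x ∈ a' := by
    rw [ha', tcTr_mem]
    have : tcShift z x = p := by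
      funext i
      show xor (x i) (xor (x i) (p i)) = p i
      cases x i <;> cases p i <;> rfl
    rwa [this]
  have hcard' : (a'.card : ℝ) = s.card := by
    rw [ha', tcTr_card]
  have hDa' : tcD e a' = - κ * s.card := by
    rw [ha', tcD_tr, hDs]
  have hinter : ((b ∩ a').card : ℝ) ≤ T := by
    have h2 : (b ∩ a').card ≤ a'.card := card_le_card inter_subset_right
    have h3 : ((b ∩ a').card : ℝ) ≤ a'.card := Nat.cast_le.2 h2
    linarith
  have hsub := tcD_sub h0 h1 b a'
  have hcu : ((b ∪ a').card : ℝ) + ((b ∩ a').card : ℝ) = b.card + a'.card := by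
    have hnat := card_union_add_card_inter b a'
    rw [← Nat.cast_add, ← Nat.cast_add, hnat]
  have hlowc := hlow _ hinter
  have hnew : tcD e (b ∪ a') ≤ - κ * (b ∪ a').card := by
    have : - κ * ((b ∪ a').card : ℝ) = - κ * b.card + - κ * s.card + κ * (b ∩ a').card := by
      rw [← hcard']
      have h4 : ((b ∪ a').card : ℝ) = b.card + a'.card - (b ∩ a').card := by linarith
      rw [h4]
      ring
    rw [this]
    nlinarith
  have hnew2 : ((b ∪ a').card : ℝ) ≤ 2 * T := by
    have : ((b ∩ a').card : ℝ) ≥ 0 := Nat.cast_nonneg _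
    linarith
  have hmem : b ∪ a' ∈ G := by
    rw [hG, mem_filter]
    exact ⟨mem_univ _, hnew2, hnew⟩
  have hlt : b.card < (b ∪ a').card := by
    apply card_lt_card
    refine ⟨subset_union_left, fun h => hx ?_⟩
    exact h (mem_union_right _ hxa')
  have := hbmax _ hmem
  omega

end Vale.Agent.Lib.P322Low.TinyCover
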