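import Vale.Agent.Lib.P322Low.Block2

open Finset BigOperators

namespace Vale.Agent.Lib.P322Low

open Vale.Agent.Lib.P322

lemma tb_avg_add {n : ℕ} (g h : (Fin n → Bool) → ℝ) :
    avg (fun x => g x + h x) = avg g + avg h := by
  unfold avg
  rw [sum_add_distrib, add_div]

lemma tb_avg_mul_left {n : ℕ} (c : ℝ) (g : (Fin n → Bool) → ℝ) :
    avg (fun x => c * g x) = c * avg g := by
  unfold avg
  rw [← mul_sum, mul_div_assoc]

lemma tb_avg_sub {n : ℕ} (g h : (Fin n → Bool) → ℝ) :
    avg (fun x => g x - h x) = avg g - avg h := by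
  unfold avg
  rw [sum_sub_distrib, sub_div]

lemma tb_avg_mul_right {n : ℕ} (c : ℝ) (g : (Fin n → Bool) → ℝ) :
    avg (fun x => g x * c) = avg g * c := by
  unfold avg
  rw [← sum_mul]
  ring

lemma tb_avg_comm {m l : ℕ} (h : (Fin m → Bool) → (Fin l → Bool) → ℝ) :
    avg (fun u => avg (fun v => h u v)) = avg (fun v => avg (fun u => h u v)) := by
  unfold avg
  rw [← sum_div, ← sum_div, div_div, div_div, sum_comm, mul_comm]

lemma tb_abs_avg_le {n : ℕ} (g : (Fin n → Bool) → ℝ) : |avg g| ≤ avg (fun x => |g x|) := by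
  unfold avg
  rw [abs_div, abs_of_pos (by positivity : (0 : ℝ) < 2 ^ n)]
  exact div_le_div_of_nonneg_right (abs_sum_le_sum_abs _ _) (by positivity)

/-- Variance formula with two independent copies. -/
lemma tb_var {n : ℕ} (g : (Fin n → Bool) → ℝ) :
    avg (fun u => avg (fun u' => (g u - g u') ^ 2))
      = 2 * (avg (fun u => g u ^ 2) - avg g ^ 2) := by
  have h1 : ∀ u, avg (fun u' => (g u - g u') ^ 2)
      = g u ^ 2 - 2 * avg g * g u + avg (fun x => g x ^ 2) := by
    intro u
    have e : (fun u' => (g u - g u') ^ 2)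
        = fun u' => (g u ^ 2 + (-(2 * g u)) * g u') + g u' ^ 2 := by
      funext u'
      ring
    rw [e, tb_avg_add, tb_avg_add (fun _ => g u ^ 2), tb_avg_mul_left, avg_const']
    ring
  simp_rw [h1]
  have e : (fun u => g u ^ 2 - 2 * avg g * g u + avg (fun x => g x ^ 2))
      = fun u => g u ^ 2 + (-(2 * avg g)) * g u + avg (fun x => g x ^ 2) := by
    funext u
    ring
  rw [e, tb_avg_add, tb_avg_add, tb_avg_mul_left, avg_const']
  ring

lemma tb_int_abs {a b c d : ℝ} (ha : a = 0 ∨ a = 1) (hb : b = 0 ∨ b = 1) (hc : c = 0 ∨ c = 1)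
    (hd : d = 0 ∨ d = 1) : |a - b - (c - d)| ≤ (a - b - (c - d)) ^ 2 := by
  rcases ha with rfl | rfl <;> rcases hb with rfl | rfl <;> rcases hc with rfl | rfl <;>
    rcases hd with rfl | rfl <;> norm_num

lemma tb_point {x y s t : ℝ} (hs : s ^ 2 ≤ 1) (hy : y ^ 2 ≤ 1) (hxa : |x| ≤ 1) (hya : |y| ≤ 1)
    (hsa : |s| ≤ 1) (hta : |t| ≤ 1) :
    x ^ 2 * s ^ 2 ≤ y ^ 2 * t ^ 2 + 2 * |x - y| + 2 * |s - t| := by
  have h1 : x ^ 2 - y ^ 2 ≤ 2 * |x - y| := by
    have e : x ^ 2 - y ^ 2 = (x - y) * (x + y) := by ring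
    have hb : |x + y| ≤ 2 := (abs_add_le x y).trans (by linarith)
    calc x ^ 2 - y ^ 2 ≤ |(x - y) * (x + y)| := by rw [e]; exact le_abs_self _
      _ = |x - y| * |x + y| := abs_mul _ _
      _ ≤ |x - y| * 2 := mul_le_mul_of_nonneg_left hb (abs_nonneg _)
      _ = 2 * |x - y| := by ring
  have h2 : s ^ 2 - t ^ 2 ≤ 2 * |s - t| := by
    have e : s ^ 2 - t ^ 2 = (s - t) * (s + t) := by ring
    have hb : |s + t| ≤ 2 := (abs_add_le s t).trans (by linarith)
    calc s ^ 2 - t ^ 2 ≤ |(s - t) * (s + t)| := by rw [e]; exact le_abs_self _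
      _ = |s - t| * |s + t| := abs_mul _ _
      _ ≤ |s - t| * 2 := mul_le_mul_of_nonneg_left hb (abs_nonneg _)
      _ = 2 * |s - t| := by ring
  have hs0 : 0 ≤ s ^ 2 := sq_nonneg s
  have hy0 : 0 ≤ y ^ 2 := sq_nonneg y
  have h3 : (x ^ 2 - y ^ 2) * s ^ 2 ≤ 2 * |x - y| := by
    have h4 : (x ^ 2 - y ^ 2) * s ^ 2 ≤ (2 * |x - y|) * s ^ 2 :=
      mul_le_mul_of_nonneg_right h1 hs0
    have h5 : (2 * |x - y|) * s ^ 2 ≤ (2 * |x - y|) * 1 :=
      mul_le_mul_of_nonneg_left hs (by positivity)
    linarith
  have h6 : y ^ 2 * (s ^ 2 - t ^ 2) ≤ 2 * |s - t| := by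
    have h4 : y ^ 2 * (s ^ 2 - t ^ 2) ≤ y ^ 2 * (2 * |s - t|) :=
      mul_le_mul_of_nonneg_left h2 hy0
    have h5 : y ^ 2 * (2 * |s - t|) ≤ 1 * (2 * |s - t|) :=
      mul_le_mul_of_nonneg_right hy (by positivity)
    linarith
  nlinarith

section core

variable {m l : ℕ} (F : (Fin m → Bool) → (Fin l → Bool) → ℝ)

/-- The one-sided replacement bound. -/
lemma tb_replace (hF : ∀ u v, F u v = 0 ∨ F u v = 1) :
    avg (fun u => avg (fun u' => avg (fun v =>
        |avg (fun w => F u w) - avg (fun w => F u' w) - (F u v - F u' v)|)))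
      ≤ 4 * (avg (fun u => avg (fun w => F u w)) - avg (fun v => avg (fun z => F z v) ^ 2)
        - avg (fun u => avg (fun w => F u w) ^ 2) + avg (fun u => avg (fun w => F u w)) ^ 2) := by
  set P : (Fin m → Bool) → ℝ := fun u => avg (fun w => F u w) with hP
  set Q : (Fin l → Bool) → ℝ := fun v => avg (fun z => F z v) with hQ
  have hstep : ∀ u u', avg (fun v => |P u - P u' - (F u v - F u' v)|)
      ≤ 2 * (avg (fun v => (F u v - F u' v) ^ 2) - (P u - P u') ^ 2) := by
    intro u u'
    set φ : (Fin l → Bool) → ℝ := fun v => F u v - F u' v with hφ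
    have hav : avg φ = P u - P u' := tb_avg_sub _ _
    have hv := tb_var φ
    rw [hav] at hv
    calc avg (fun v => |P u - P u' - (F u v - F u' v)|)
        ≤ avg (fun v => avg (fun w => (φ v - φ w) ^ 2)) := by
          refine avg_mono' fun v => ?_
          have e : P u - P u' - (F u v - F u' v) = avg (fun w => φ w - φ v) := by
            rw [tb_avg_sub, avg_const', hav]
          rw [e]
          refine (tb_abs_avg_le _).trans (avg_mono' fun w => ?_)
          have h1 := tb_int_abs (hF u w) (hF u' w) (hF u v) (hF u' v)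
          have e2 : φ w - φ v = F u w - F u' w - (F u v - F u' v) := rfl
          have e3 : (φ v - φ w) ^ 2 = (F u w - F u' w - (F u v - F u' v)) ^ 2 := by
            simp only [hφ]
            ring
          rw [e2, e3]
          exact h1
      _ = 2 * (avg (fun v => (F u v - F u' v) ^ 2) - (P u - P u') ^ 2) := hv
  have hA := tb_var P
  have hpq : avg Q = avg P := by
    simp only [hP, hQ]
    exact (tb_avg_comm F).symm
  have hsw : avg (fun u => avg (fun u' => avg (fun v => (F u v - F u' v) ^ 2)))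
      = 2 * (avg P - avg (fun v => Q v ^ 2)) := by
    have e1 : ∀ u, avg (fun u' => avg (fun v => (F u v - F u' v) ^ 2))
        = avg (fun v => avg (fun u' => (F u v - F u' v) ^ 2)) := fun u =>
      tb_avg_comm (fun u' v => (F u v - F u' v) ^ 2)
    simp_rw [e1]
    rw [tb_avg_comm (fun u v => avg (fun u' => (F u v - F u' v) ^ 2))]
    have e2 : ∀ v, avg (fun u => avg (fun u' => (F u v - F u' v) ^ 2))
        = 2 * (Q v - Q v ^ 2) := by
      intro v
      have h3 := tb_var (fun z => F z v)
      rw [h3]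
      have e4 : (fun u => F u v ^ 2) = fun u => F u v := by
        funext u
        rcases hF u v with h | h <;> rw [h] <;> norm_num
      rw [e4]
    simp_rw [e2]
    rw [tb_avg_mul_left, tb_avg_sub, hpq]
  calc avg (fun u => avg (fun u' => avg (fun v =>
        |avg (fun w => F u w) - avg (fun w => F u' w) - (F u v - F u' v)|)))
      ≤ avg (fun u => avg (fun u' =>
          2 * (avg (fun v => (F u v - F u' v) ^ 2) - (P u - P u') ^ 2))) :=
        avg_mono' fun u => avg_mono' fun u' => hstep u u'
    _ = 2 * (avg (fun u => avg (fun u' => avg (fun v => (F u v - F u' v) ^ 2)))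
          - avg (fun u => avg (fun u' => (P u - P u') ^ 2))) := by
        simp_rw [tb_avg_mul_left, tb_avg_sub]
    _ = _ := by
        rw [hsw, hA]
        ring

/-- The product term. -/
lemma tb_product (hF : ∀ u v, F u v = 0 ∨ F u v = 1) :
    avg (fun u => avg (fun v => avg (fun u' => avg (fun v' =>
        (F u v - F u' v) ^ 2 * (F u v - F u v') ^ 2))))
      = avg (fun u => avg (fun w => F u w)) - avg (fun v => avg (fun z => F z v) ^ 2)
        - avg (fun u => avg (fun w => F u w) ^ 2) + avg (fun u => avg (fun w => F u w)) ^ 2 := by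
  set P : (Fin m → Bool) → ℝ := fun u => avg (fun w => F u w) with hP
  set Q : (Fin l → Bool) → ℝ := fun v => avg (fun z => F z v) with hQ
  have hpq : avg Q = avg P := by
    simp only [hP, hQ]
    exact (tb_avg_comm F).symm
  have hin : ∀ u v, avg (fun u' => avg (fun v' => (F u v - F u' v) ^ 2 * (F u v - F u v') ^ 2))
      = F u v - F u v * Q v - F u v * P u + P u * Q v := by
    intro u v
    have e1 : ∀ u', avg (fun v' => (F u v - F u' v) ^ 2 * (F u v - F u v') ^ 2)
        = (F u v - F u' v) ^ 2 * avg (fun v' => (F u v - F u v') ^ 2) := fun u' =>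
      tb_avg_mul_left _ _
    simp_rw [e1]
    rw [tb_avg_mul_right]
    have hQ' : avg (fun u' => (F u v - F u' v) ^ 2) = F u v + Q v - 2 * F u v * Q v := by
      have e : (fun u' => (F u v - F u' v) ^ 2)
          = fun u' => F u v + (1 - 2 * F u v) * F u' v := by
        funext u'
        rcases hF u v with h | h <;> rcases hF u' v with h' | h' <;> rw [h, h'] <;> norm_num
      rw [e, tb_avg_add, avg_const', tb_avg_mul_left]
      simp only [hQ]
      ring
    have hP' : avg (fun v' => (F u v - F u v') ^ 2) = F u v + P u - 2 * F u v * P u := by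
      have e : (fun v' => (F u v - F u v') ^ 2)
          = fun v' => F u v + (1 - 2 * F u v) * F u v' := by
        funext v'
        rcases hF u v with h | h <;> rcases hF u v' with h' | h' <;> rw [h, h'] <;> norm_num
      rw [e, tb_avg_add, avg_const', tb_avg_mul_left]
      simp only [hP]
      ring
    rw [hQ', hP']
    rcases hF u v with h | h <;> rw [h] <;> ring
  simp_rw [hin]
  have e1 : ∀ u, avg (fun v => F u v - F u v * Q v - F u v * P u + P u * Q v)
      = P u - avg (fun v => F u v * Q v) - P u ^ 2 + P u * avg Q := by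
    intro u
    have e : (fun v => F u v - F u v * Q v - F u v * P u + P u * Q v)
        = fun v => (F u v - F u v * Q v) - F u v * P u + P u * Q v := rfl
    rw [e, tb_avg_add, tb_avg_sub, tb_avg_sub, tb_avg_mul_right, tb_avg_mul_left]
    simp only [hP]
    ring
  simp_rw [e1]
  have e2 : avg (fun u => avg (fun v => F u v * Q v)) = avg (fun v => Q v ^ 2) := by
    rw [tb_avg_comm (fun u v => F u v * Q v)]
    congr 1
    funext v
    rw [tb_avg_mul_right]
    simp only [hQ]
    ring
  have e3 : (fun u => P u - avg (fun v => F u v * Q v) - P u ^ 2 + P u * avg Q)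
      = fun u => (P u - avg (fun v => F u v * Q v)) - P u ^ 2 + P u * avg Q := rfl
  rw [e3, tb_avg_add, tb_avg_sub, tb_avg_sub, tb_avg_mul_right, e2, hpq]
  ring

/-- The core inequality for a Boolean matrix. -/
theorem tb_core (hF : ∀ u v, F u v = 0 ∨ F u v = 1) :
    4 * (avg (fun u => avg (fun w => F u w) ^ 2) - avg (fun u => avg (fun w => F u w)) ^ 2)
      * (avg (fun v => avg (fun z => F z v) ^ 2) - avg (fun u => avg (fun w => F u w)) ^ 2)
      ≤ 17 * (avg (fun u => avg (fun w => F u w)) - avg (fun v => avg (fun z => F z v) ^ 2)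
        - avg (fun u => avg (fun w => F u w) ^ 2) + avg (fun u => avg (fun w => F u w)) ^ 2) := by
  set P : (Fin m → Bool) → ℝ := fun u => avg (fun w => F u w) with hP
  set Q : (Fin l → Bool) → ℝ := fun v => avg (fun z => F z v) with hQ
  set c : ℝ := avg P - avg (fun v => Q v ^ 2) - avg (fun u => P u ^ 2) + avg P ^ 2 with hc
  have hpq : avg Q = avg P := by
    simp only [hP, hQ]
    exact (tb_avg_comm F).symm
  have hF01 : ∀ u v, 0 ≤ F u v ∧ F u v ≤ 1 := fun u v => by
    rcases hF u v with h | h <;> rw [h] <;> norm_num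
  have hP01 : ∀ u, 0 ≤ P u ∧ P u ≤ 1 := fun u =>
    ⟨avg_nonneg fun v => (hF01 u v).1, by
      have := avg_mono' (g := fun v => F u v) (h := fun _ => (1 : ℝ)) fun v => (hF01 u v).2
      rwa [avg_const'] at this⟩
  have hQ01 : ∀ v, 0 ≤ Q v ∧ Q v ≤ 1 := fun v =>
    ⟨avg_nonneg fun u => (hF01 u v).1, by
      have := avg_mono' (g := fun u => F u v) (h := fun _ => (1 : ℝ)) fun u => (hF01 u v).2
      rwa [avg_const'] at this⟩
  have habs : ∀ {a b : ℝ}, 0 ≤ a → a ≤ 1 → 0 ≤ b → b ≤ 1 → |a - b| ≤ 1 := by
    intro a b ha ha1 hb hb1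
    rw [abs_le]
    constructor <;> linarith
  have hsq : ∀ {a : ℝ}, |a| ≤ 1 → a ^ 2 ≤ 1 := by
    intro a ha
    have := abs_le.mp ha
    nlinarith
  -- the pointwise inequality, averaged
  have hR1 := tb_replace F hF
  have hR2 := tb_replace (fun v u => F u v) (fun v u => hF u v)
  have hP2 := tb_product F hF
  have hA := tb_var P
  have hB := tb_var Q
  rw [hpq] at hB
  have hAB : avg (fun u => avg (fun u' => (P u - P u') ^ 2))
        * avg (fun v => avg (fun v' => (Q v - Q v') ^ 2))
      = avg (fun u => avg (fun v => avg (fun u' => avg (fun v' =>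
          (P u - P u') ^ 2 * (Q v - Q v') ^ 2)))) := by
    have e1 : ∀ u v u', avg (fun v' => (P u - P u') ^ 2 * (Q v - Q v') ^ 2)
        = (P u - P u') ^ 2 * avg (fun v' => (Q v - Q v') ^ 2) := fun u v u' =>
      tb_avg_mul_left _ _
    simp_rw [e1, tb_avg_mul_right, tb_avg_mul_left, tb_avg_mul_right]
  have hpt : ∀ u v u' v', (P u - P u') ^ 2 * (Q v - Q v') ^ 2
      ≤ (F u v - F u' v) ^ 2 * (F u v - F u v') ^ 2
        + 2 * |P u - P u' - (F u v - F u' v)| + 2 * |Q v - Q v' - (F u v - F u v')| := by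
    intro u v u' v'
    have a1 := habs (hP01 u).1 (hP01 u).2 (hP01 u').1 (hP01 u').2
    have a2 := habs (hF01 u v).1 (hF01 u v).2 (hF01 u' v).1 (hF01 u' v).2
    have a3 := habs (hQ01 v).1 (hQ01 v).2 (hQ01 v').1 (hQ01 v').2
    have a4 := habs (hF01 u v).1 (hF01 u v).2 (hF01 u v').1 (hF01 u v').2
    exact tb_point (hsq a3) (hsq a2) a1 a2 a3 a4
  -- averaging
  have hT2 : avg (fun u : Fin m → Bool => avg (fun v : Fin l → Bool =>
      avg (fun u' : Fin m → Bool => avg (fun _v' : Fin l → Bool =>
      |P u - P u' - (F u v - F u' v)|)))) ≤ 4 * c := by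
    have e : avg (fun u : Fin m → Bool => avg (fun v : Fin l → Bool =>
        avg (fun u' : Fin m → Bool => avg (fun _v' : Fin l → Bool =>
        |P u - P u' - (F u v - F u' v)|))))
        = avg (fun u => avg (fun u' => avg (fun v => |P u - P u' - (F u v - F u' v)|))) := by
      congr 1
      funext u
      simp_rw [avg_const']
      exact tb_avg_comm (fun v u' => |P u - P u' - (F u v - F u' v)|)
    rw [e]
    exact hR1
  have hT3 : avg (fun u : Fin m → Bool => avg (fun v : Fin l → Bool =>
      avg (fun _u' : Fin m → Bool => avg (fun v' : Fin l → Bool =>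
      |Q v - Q v' - (F u v - F u v')|)))) ≤ 4 * c := by
    have e : avg (fun u : Fin m → Bool => avg (fun v : Fin l → Bool =>
        avg (fun _u' : Fin m → Bool => avg (fun v' : Fin l → Bool =>
        |Q v - Q v' - (F u v - F u v')|))))
        = avg (fun v => avg (fun v' => avg (fun u => |Q v - Q v' - (F u v - F u v')|))) := by
      have e0 : ∀ u v, avg (fun _u' : Fin m → Bool => avg (fun v' =>
          |Q v - Q v' - (F u v - F u v')|))
          = avg (fun v' => |Q v - Q v' - (F u v - F u v')|) := fun u v => avg_const' _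
      simp_rw [e0]
      rw [tb_avg_comm (fun u v => avg (fun v' => |Q v - Q v' - (F u v - F u v')|))]
      congr 1
      funext v
      exact tb_avg_comm (fun u v' => |Q v - Q v' - (F u v - F u v')|)
    rw [e]
    refine hR2.trans (le_of_eq ?_)
    simp only [hc]
    have e5 : avg (fun v => avg (fun z => F z v)) = avg P := by
      simp only [hP]
      exact (tb_avg_comm F).symm
    rw [e5]
    ring
  have hmain : avg (fun u => avg (fun u' => (P u - P u') ^ 2))
        * avg (fun v => avg (fun v' => (Q v - Q v') ^ 2)) ≤ 17 * c := by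
    rw [hAB]
    have hm : avg (fun u => avg (fun v => avg (fun u' => avg (fun v' =>
          (P u - P u') ^ 2 * (Q v - Q v') ^ 2))))
        ≤ avg (fun u => avg (fun v => avg (fun u' => avg (fun v' =>
          (F u v - F u' v) ^ 2 * (F u v - F u v') ^ 2
            + 2 * |P u - P u' - (F u v - F u' v)| + 2 * |Q v - Q v' - (F u v - F u v')|)))) :=
      avg_mono' fun u => avg_mono' fun v => avg_mono' fun u' => avg_mono' fun v' => hpt u v u' v'
    refine hm.trans ?_
    have hcc : avg (fun u => avg (fun v => avg (fun u' => avg (fun v' =>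
        (F u v - F u' v) ^ 2 * (F u v - F u v') ^ 2)))) = c := hP2
    simp_rw [tb_avg_add, tb_avg_mul_left] at hcc ⊢
    rw [hcc]
    linarith
  rw [hA, hB] at hmain
  have : 4 * (avg (fun u => P u ^ 2) - avg P ^ 2) * (avg (fun v => Q v ^ 2) - avg P ^ 2)
      = 2 * (avg (fun u => P u ^ 2) - avg P ^ 2) * (2 * (avg (fun v => Q v ^ 2) - avg P ^ 2)) := by
    ring
  rw [this]
  exact hmain

end core

/-- Two-block inequality: with `alpha`, `beta` the variances of the block conditional means,
`4 alpha beta ≤ 17 blCross`. -/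
theorem tb_two_block {m l n : ℕ} (e : Fin m ⊕ Fin l ≃ Fin n) (f : (Fin n → Bool) → Bool) :
    4 * (avg (fun u : Fin m → Bool => avg (fun v : Fin l → Bool => ind f true (blGlue e u v)) ^ 2)
        - pOne f ^ 2)
      * (avg (fun v : Fin l → Bool => avg (fun u : Fin m → Bool => ind f true (blGlue e u v)) ^ 2)
        - pOne f ^ 2)
      ≤ 17 * blCross e f := by
  set F : (Fin m → Bool) → (Fin l → Bool) → ℝ := fun u v => ind f true (blGlue e u v) with hF
  have hF01 : ∀ u v, F u v = 0 ∨ F u v = 1 := by
    intro u v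
    simp only [hF, ind]
    split_ifs <;> simp
  have hc := tb_core F hF01
  have hp : avg (fun u => avg (fun w => F u w)) = pOne f := by
    rw [← avg_ind_true, bl_avg e]
  rw [hp] at hc
  have hcr : blCross e f = pOne f - avg (fun v => avg (fun z => F z v) ^ 2)
      - avg (fun u => avg (fun w => F u w) ^ 2) + pOne f ^ 2 := by
    unfold blCross
    have e1 : (fun u => avg (fun v => ind f true (blGlue e u v))
        * (1 - avg (fun v => ind f true (blGlue e u v))))
        = fun u => avg (fun w => F u w) - avg (fun w => F u w) ^ 2 := by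
      funext u
      simp only [hF]
      ring
    have e2 : (fun v => avg (fun u => ind f true (blGlue e u v))
        * (1 - avg (fun u => ind f true (blGlue e u v))))
        = fun v => avg (fun z => F z v) - avg (fun z => F z v) ^ 2 := by
      funext v
      simp only [hF]
      ring
    rw [e1, e2, tb_avg_sub, tb_avg_sub, hp]
    have e3 : avg (fun v => avg (fun z => F z v)) = pOne f := by
      rw [← hp]
      exact (tb_avg_comm F).symm
    rw [e3]
    ring
  rw [hcr]
  exact hc

end Vale.Agent.Lib.P322Low
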